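import Mathlib

/-! Row 244: local flows of `C¹` vector fields, differentiable in the initial condition. -/

set_option autoImplicit false
set_option maxSynthPendingDepth 3
open Set Filter Topology Metric

namespace Crest.Agent.R244

variable {F : Type*} [NormedAddCommGroup F] [NormedSpace ℝ F] [CompleteSpace F]

namespace FlowAux

open scoped NNReal

/-- The Picard-Lindelöf flow, remembering that it stays in the closed ball. -/
theorem exists_flow_mem {f : ℝ → F → F} {tmin tmax : ℝ} {t₀ : Icc tmin tmax} {x₀ : F}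
    {a r L K : ℝ≥0} (hf : IsPicardLindelof f t₀ x₀ a r L K) :
    ∃ α : F → ℝ → F, (∀ x ∈ closedBall x₀ r, α x t₀ = x ∧ (∀ t, α x t ∈ closedBall x₀ a) ∧
      ∀ t ∈ Icc tmin tmax, HasDerivWithinAt (α x) (f t (α x t)) (Icc tmin tmax) t) ∧
      ∃ L' : ℝ≥0, ∀ t ∈ Icc tmin tmax, LipschitzOnWith L' (α · t) (closedBall x₀ r) := by
  classical
  have (x) (hx : x ∈ closedBall x₀ r) := ODE.FunSpace.exists_isFixedPt_next hf hx
  choose α hα using this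
  set α' := fun (x : F) ↦ if hx : x ∈ closedBall x₀ r then
    α x hx |>.compProj else 0 with hα'
  refine ⟨α', fun x hx ↦ ⟨?_, fun t ↦ ?_, fun t ht ↦ ?_⟩, ?_⟩
  · rw [hα']
    beta_reduce
    rw [dif_pos hx, ODE.FunSpace.compProj_val, ← hα, ODE.FunSpace.next_apply₀]
  · rw [hα']
    beta_reduce
    rw [dif_pos hx]
    exact (α x hx).compProj_mem_closedBall hf.mul_max_le
  · rw [hα']
    beta_reduce
    rw [dif_pos hx, ODE.FunSpace.compProj_apply]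
    apply ODE.hasDerivWithinAt_picard_Icc t₀.2 hf.continuousOn_uncurry
      (α x hx |>.continuous_compProj.continuousOn)
      (fun _ ht' ↦ α x hx |>.compProj_mem_closedBall hf.mul_max_le)
      x ht |>.congr_of_mem _ ht
    intro t' ht'
    nth_rw 1 [← hα]
    rw [ODE.FunSpace.compProj_of_mem ht', ODE.FunSpace.next_apply]
  · obtain ⟨L', h⟩ := ODE.FunSpace.exists_forall_closedBall_funSpace_dist_le_mul hf
    refine ⟨L', fun t ht ↦ LipschitzOnWith.of_dist_le_mul fun x hx y hy ↦ ?_⟩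
    simp_rw [hα']
    rw [dif_pos hx, dif_pos hy, ODE.FunSpace.compProj_apply, ODE.FunSpace.compProj_apply,
      ← ODE.FunSpace.toContinuousMap_apply_eq_apply, ← ODE.FunSpace.toContinuousMap_apply_eq_apply]
    have : Nonempty (Icc tmin tmax) := ⟨t₀⟩
    apply ContinuousMap.dist_le_iff_of_nonempty.mp
    exact h x y hx hy (α x hx) (α y hy) (hα x hx) (hα y hy)

omit [CompleteSpace F] in
/-- A short time substitute for Gronwall's lemma. -/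
theorem small_bound {Δ Δ' : ℝ → F} {δ K η : ℝ} (hδ : 0 < δ) (hK : 0 ≤ K) (hKδ : K * δ ≤ 1 / 2)
    (hd : ∀ t ∈ Icc (-δ) δ, HasDerivWithinAt Δ (Δ' t) (Icc (-δ) δ) t) (h0 : Δ 0 = 0)
    (hb : ∀ t ∈ Icc (-δ) δ, ‖Δ' t‖ ≤ K * ‖Δ t‖ + η) : ∀ t ∈ Icc (-δ) δ, ‖Δ t‖ ≤ 2 * η * δ := by
  have hc : ContinuousOn (fun t => ‖Δ t‖) (Icc (-δ) δ) :=
    (HasDerivWithinAt.continuousOn hd).norm
  have h0' : (0 : ℝ) ∈ Icc (-δ) δ := ⟨by linarith, hδ.le⟩
  obtain ⟨t₁, ht₁, hmax⟩ := isCompact_Icc.exists_isMaxOn ⟨0, h0'⟩ hc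
  have hb' : ∀ t ∈ Icc (-δ) δ, ‖Δ' t‖ ≤ K * ‖Δ t₁‖ + η := fun t ht =>
    (hb t ht).trans (by have := hmax ht; simp only [mem_ofPred_eq] at this; gcongr)
  have h1 := (convex_Icc (-δ) δ).norm_image_sub_le_of_norm_hasDerivWithin_le hd hb' h0' ht₁
  rw [h0, sub_zero, sub_zero] at h1
  have h2 : ‖t₁‖ ≤ δ := by rw [Real.norm_eq_abs, abs_le]; exact ht₁
  have h3 : 0 ≤ K * ‖Δ t₁‖ + η := (norm_nonneg _).trans (hb' 0 h0')
  have h4 : ‖Δ t₁‖ ≤ (K * ‖Δ t₁‖ + η) * δ := h1.trans (by gcongr)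
  have h5 : K * ‖Δ t₁‖ * δ ≤ ‖Δ t₁‖ / 2 := by
    have := mul_le_mul_of_nonneg_right hKδ (norm_nonneg (Δ t₁))
    linarith
  intro t ht
  have := hmax ht
  simp only [mem_ofPred_eq] at this
  linarith

/-- The linear equation `Y' = A Y`, `Y 0 = id` on a short interval. -/
theorem exists_linear {A : ℝ → F →L[ℝ] F} {δ : ℝ} {K : ℝ≥0} (hδ : 0 < δ) (hKδ : K * δ ≤ 1 / 2)
    (hA : ContinuousOn A (Icc (-δ) δ)) (hb : ∀ t ∈ Icc (-δ) δ, ‖A t‖ ≤ K) :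
    ∃ Y : ℝ → F →L[ℝ] F, Y 0 = ContinuousLinearMap.id ℝ F ∧
      ∀ t ∈ Icc (-δ) δ, HasDerivWithinAt Y ((A t).comp (Y t)) (Icc (-δ) δ) t := by
  have h0' : (0 : ℝ) ∈ Icc (-δ) δ := ⟨by linarith, hδ.le⟩
  have hpl : IsPicardLindelof (fun t (Y : F →L[ℝ] F) => (A t).comp Y) (⟨0, h0'⟩ : Icc (-δ) δ)
      (ContinuousLinearMap.id ℝ F) 1 0 (2 * K) K := by
    refine ⟨fun t ht => LipschitzOnWith.of_dist_le_mul fun Y _ Y' _ => ?_, fun Y _ => ?_,
      fun t ht Y hY => ?_, ?_⟩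
    · rw [dist_eq_norm, dist_eq_norm, ← ContinuousLinearMap.comp_sub]
      exact (ContinuousLinearMap.opNorm_comp_le _ _).trans (by gcongr; exact hb t ht)
    · exact hA.clm_comp continuousOn_const
    · have h1 : ‖Y‖ ≤ 2 := by
        rw [mem_closedBall, dist_eq_norm] at hY
        have h2 := norm_add_le (Y - ContinuousLinearMap.id ℝ F) (ContinuousLinearMap.id ℝ F)
        have h3 := ContinuousLinearMap.norm_id_le (𝕜 := ℝ) (E := F)
        rw [sub_add_cancel] at h2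
        simp only [NNReal.coe_one] at hY
        linarith
      refine (ContinuousLinearMap.opNorm_comp_le _ _).trans ?_
      have := hb t ht
      push_cast
      nlinarith [norm_nonneg (A t), norm_nonneg Y, K.2]
    · simp only [sub_zero, sub_neg_eq_add, zero_add, max_self]
      push_cast
      linarith
  exact hpl.exists_eq_forall_mem_Icc_hasDerivWithinAt₀

end FlowAux

open FlowAux in
/-- Local flow, strictly differentiable in the initial condition, with the variational equation. -/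
theorem exists_local_flow {f : F → F} {Ω : Set F} (hΩ : IsOpen Ω) (hf : ContDiffOn ℝ 1 f Ω)
    {z₀ : F} (hz₀ : z₀ ∈ Ω) :
    ∃ r > (0 : ℝ), ∃ δ > (0 : ℝ), ∃ (Φ : F → ℝ → F) (D : F → ℝ → F →L[ℝ] F),
      ContinuousOn (fun p : F × ℝ => Φ p.1 p.2) (ball z₀ r ×ˢ Ioo (-δ) δ) ∧
      ∀ z ∈ ball z₀ r, Φ z 0 = z ∧ D z 0 = ContinuousLinearMap.id ℝ F ∧
        ∀ t ∈ Ioo (-δ) δ, Φ z t ∈ Ω ∧ HasDerivAt (Φ z) (f (Φ z t)) t ∧
          HasStrictFDerivAt (fun z => Φ z t) (D z t) z ∧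
          HasDerivAt (D z) ((fderiv ℝ f (Φ z t)).comp (D z t)) t := by
  classical
  have hc : ContinuousOn (fderiv ℝ f) Ω := hf.continuousOn_fderiv_of_isOpen hΩ le_rfl
  have hca : ∀ y ∈ Ω, ContinuousAt (fderiv ℝ f) y := fun y hy => hc.continuousAt (hΩ.mem_nhds hy)
  have hdiff : ∀ y ∈ Ω, HasFDerivAt f (fderiv ℝ f y) y := fun y hy =>
    ((hf.differentiableOn one_ne_zero).differentiableAt (hΩ.mem_nhds hy)).hasFDerivAt
  -- a closed ball with bounded derivative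
  obtain ⟨a, ha, hball⟩ : ∃ a > (0 : ℝ), ∀ y ∈ closedBall z₀ a,
      y ∈ Ω ∧ ‖fderiv ℝ f y‖ ≤ ‖fderiv ℝ f z₀‖ + 1 := by
    have h1 : ∀ᶠ y in 𝓝 z₀, ‖fderiv ℝ f y‖ ≤ ‖fderiv ℝ f z₀‖ + 1 :=
      (hca z₀ hz₀).norm.eventually_le_const (lt_add_one _)
    exact Metric.nhds_basis_closedBall.eventually_iff.1 ((hΩ.eventually_mem hz₀).and h1)
  set K : NNReal := ‖fderiv ℝ f z₀‖₊ + 1 with hK
  have hK1 : (1 : ℝ) ≤ K := by rw [hK]; push_cast; linarith [norm_nonneg (fderiv ℝ f z₀)]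
  have hKb : ∀ y ∈ closedBall z₀ a, ‖fderiv ℝ f y‖ ≤ K := fun y hy => (hball y hy).2
  have hlip : LipschitzOnWith K f (closedBall z₀ a) :=
    (convex_closedBall z₀ a).lipschitzOnWith_of_nnnorm_hasFDerivWithin_le
      (fun y hy => (hdiff y (hball y hy).1).hasFDerivWithinAt) (fun y hy => hKb y hy)
  set a' : NNReal := ⟨a, ha.le⟩ with ha'
  set L : NNReal := ‖f z₀‖₊ + K * a' with hL
  have hLb : ∀ y ∈ closedBall z₀ a, ‖f y‖ ≤ L := by
    intro y hy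
    have h1 := hlip.dist_le_mul y hy z₀ (mem_closedBall_self ha.le)
    rw [dist_eq_norm] at h1
    have h2 := norm_add_le (f y - f z₀) (f z₀)
    rw [sub_add_cancel] at h2
    have h3 : (K : ℝ) * dist y z₀ ≤ K * a := by gcongr; exact hy
    have : (L : ℝ) = ‖f z₀‖ + K * a := by rw [hL]; push_cast; rfl
    linarith
  obtain ⟨δ, hδ, hδ1, hδ2⟩ : ∃ δ > (0 : ℝ), L * δ ≤ a / 2 ∧ K * δ ≤ 1 / 2 := by
    have hL0 : (0 : ℝ) ≤ L := L.2
    refine ⟨min (a / 2 / (L + 1)) (1 / 2 / K), by positivity, ?_, ?_⟩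
    · calc (L : ℝ) * min (a / 2 / (L + 1)) (1 / 2 / K) ≤ (L + 1) * (a / 2 / (L + 1)) := by
            gcongr
            · linarith
            · exact min_le_left _ _
        _ = a / 2 := by field_simp
    · calc (K : ℝ) * min (a / 2 / (L + 1)) (1 / 2 / K) ≤ K * (1 / 2 / K) := by
            gcongr
            exact min_le_right _ _
        _ = 1 / 2 := by field_simp
  have h0' : (0 : ℝ) ∈ Icc (-δ) δ := ⟨by linarith, hδ.le⟩
  have hpl : IsPicardLindelof (fun _ : ℝ => f) (⟨0, h0'⟩ : Icc (-δ) δ) z₀ a' (a' / 2) L K := by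
    refine IsPicardLindelof.of_time_independent hLb hlip ?_
    simp only [sub_zero, sub_neg_eq_add, zero_add, max_self]
    push_cast
    change (L : ℝ) * δ ≤ a - a / 2
    linarith
  obtain ⟨Φ, hΦ, L', hL'⟩ := exists_flow_mem hpl
  have hr : ((a' / 2 : NNReal) : ℝ) = a / 2 := by push_cast; rfl
  rw [hr] at hΦ hL'
  change ∀ x ∈ closedBall z₀ (a / 2), Φ x 0 = x ∧ (∀ t, Φ x t ∈ closedBall z₀ a) ∧ _ at hΦ
  have hcont : ∀ z ∈ closedBall z₀ (a / 2), ContinuousOn (Φ z) (Icc (-δ) δ) := fun z hz =>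
    HasDerivWithinAt.continuousOn (hΦ z hz).2.2
  have hY : ∀ z ∈ closedBall z₀ (a / 2), ∃ Y : ℝ → F →L[ℝ] F, Y 0 = ContinuousLinearMap.id ℝ F ∧
      ∀ t ∈ Icc (-δ) δ, HasDerivWithinAt Y ((fderiv ℝ f (Φ z t)).comp (Y t)) (Icc (-δ) δ) t := by
    intro z hz
    exact exists_linear (A := fun t => fderiv ℝ f (Φ z t)) hδ hδ2
      (hc.comp (hcont z hz) fun t _ => (hball _ ((hΦ z hz).2.1 t)).1)
      (fun t _ => hKb _ ((hΦ z hz).2.1 t))
  choose! D hD0 hD using hY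
  refine ⟨a / 2, by positivity, δ, hδ, Φ, D, ?_, fun z hz => ?_⟩
  · exact (continuousOn_prod_of_continuousOn_lipschitzOnWith (fun p : F × ℝ => Φ p.1 p.2) L'
      hcont hL').mono (prod_mono ball_subset_closedBall Ioo_subset_Icc_self)
  have hz' : z ∈ closedBall z₀ (a / 2) := ball_subset_closedBall hz
  refine ⟨(hΦ z hz').1, hD0 z hz', fun t ht => ⟨(hball _ ((hΦ z hz').2.1 t)).1,
    ((hΦ z hz').2.2 t (Ioo_subset_Icc_self ht)).hasDerivAt (Icc_mem_nhds ht.1 ht.2), ?_,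
    (hD z hz' t (Ioo_subset_Icc_self ht)).hasDerivAt (Icc_mem_nhds ht.1 ht.2)⟩⟩
  rw [hasStrictFDerivAt_iff_isLittleO, Asymptotics.isLittleO_iff]
  intro c hc0
  have hL'0 : (0 : ℝ) ≤ L' := L'.2
  set ε : ℝ := c / (2 * (L' + 1) * δ) with hε
  have hε0 : 0 < ε := by positivity
  -- uniform continuity of the derivative near the trajectory
  obtain ⟨ρ, hρ, hunif⟩ : ∃ ρ > (0 : ℝ), ∀ s ∈ Icc (-δ) δ, ∀ y, dist (Φ z s) y < ρ →
      dist (fderiv ℝ f (Φ z s)) (fderiv ℝ f y) < ε := by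
    have hK : IsCompact (Φ z '' Icc (-δ) δ) := isCompact_Icc.image_of_continuousOn (hcont z hz')
    have := hK.uniformContinuousAt_of_continuousAt (fderiv ℝ f)
      (by rintro _ ⟨s, _, rfl⟩; exact hca _ (hball _ ((hΦ z hz').2.1 s)).1)
      (Metric.dist_mem_uniformity hε0)
    obtain ⟨ρ, hρ, h⟩ := Metric.mem_uniformity_dist.1 this
    exact ⟨ρ, hρ, fun s hs y hy => h hy ⟨s, hs, rfl⟩⟩
  have hnear : ∀ᶠ w in 𝓝 z, w ∈ closedBall z₀ (a / 2) ∧ dist z w < ρ / (L' + 1) := by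
    refine Filter.Eventually.and
      (mem_of_superset (isOpen_ball.mem_nhds hz) ball_subset_closedBall) ?_
    have : ball z (ρ / (L' + 1)) ∈ 𝓝 z := ball_mem_nhds z (by positivity)
    filter_upwards [this] with w hw
    rwa [mem_ball, dist_comm] at hw
  have hclose : ∀ w, w ∈ closedBall z₀ (a / 2) ∧ dist z w < ρ / (L' + 1) → ∀ s ∈ Icc (-δ) δ,
      Φ w s ∈ closedBall z₀ a ∩ ball (Φ z s) ρ := by
    rintro w ⟨hw1, hw2⟩ s hs
    refine ⟨(hΦ w hw1).2.1 s, ?_⟩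
    rw [mem_ball, dist_comm]
    have h1 := (hL' s hs).dist_le_mul z hz' w hw1
    rw [lt_div_iff₀ (by positivity)] at hw2
    have := dist_nonneg (x := z) (y := w)
    nlinarith
  rw [nhds_prod_eq]
  filter_upwards [hnear.prod_mk hnear] with p hp
  obtain ⟨z₁, z₂⟩ := p
  obtain ⟨hp1, hp2⟩ := hp
  simp only at hp1 hp2 ⊢
  have key := small_bound (Δ := fun s => Φ z₁ s - Φ z₂ s - D z s (z₁ - z₂))
    (Δ' := fun s => f (Φ z₁ s) - f (Φ z₂ s) - fderiv ℝ f (Φ z s) (D z s (z₁ - z₂)))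
    (η := ε * (L' * ‖z₁ - z₂‖)) hδ K.2 hδ2 ?_ ?_ ?_ t (Ioo_subset_Icc_self ht)
  · refine key.trans ?_
    have h1 : 2 * (ε * (L' * ‖z₁ - z₂‖)) * δ ≤ 2 * (ε * ((L' + 1) * ‖z₁ - z₂‖)) * δ := by
      gcongr; linarith
    refine h1.trans (le_of_eq ?_)
    rw [hε]
    field_simp
  · intro s hs
    have h1 := ((hD z hz' s hs).clm_apply (hasDerivWithinAt_const s _ (z₁ - z₂)))
    simp only [map_zero, add_zero, ContinuousLinearMap.comp_apply] at h1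
    exact (((hΦ z₁ hp1.1).2.2 s hs).sub ((hΦ z₂ hp2.1).2.2 s hs)).sub h1
  · simp only [(hΦ z₁ hp1.1).1, (hΦ z₂ hp2.1).1, hD0 z hz', ContinuousLinearMap.id_apply, sub_self]
  · intro s hs
    have hconv : Convex ℝ (closedBall z₀ a ∩ ball (Φ z s) ρ) :=
      (convex_closedBall _ _).inter (convex_ball _ _)
    have h1 := hconv.norm_image_sub_le_of_norm_hasFDerivWithin_le' (f := f) (f' := fderiv ℝ f)
      (φ := fderiv ℝ f (Φ z s)) (C := ε)
      (fun y hy => (hdiff y (hball y hy.1).1).hasFDerivWithinAt)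
      (fun y hy => by
        have := hunif s hs y (by rw [dist_comm]; exact hy.2)
        rw [dist_comm, dist_eq_norm] at this
        exact this.le)
      (hclose z₂ hp2 s hs) (hclose z₁ hp1 s hs)
    have h2 : ‖Φ z₁ s - Φ z₂ s‖ ≤ L' * ‖z₁ - z₂‖ := by
      have := (hL' s hs).dist_le_mul z₁ hp1.1 z₂ hp2.1
      simpa only [dist_eq_norm] using this
    have h3 : ‖fderiv ℝ f (Φ z s) (Φ z₁ s - Φ z₂ s - D z s (z₁ - z₂))‖ ≤
        K * ‖Φ z₁ s - Φ z₂ s - D z s (z₁ - z₂)‖ :=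
      (ContinuousLinearMap.le_opNorm _ _).trans (by gcongr; exact hKb _ ((hΦ z hz').2.1 s))
    have h4 : f (Φ z₁ s) - f (Φ z₂ s) - fderiv ℝ f (Φ z s) (D z s (z₁ - z₂)) =
        fderiv ℝ f (Φ z s) (Φ z₁ s - Φ z₂ s - D z s (z₁ - z₂)) +
          (f (Φ z₁ s) - f (Φ z₂ s) - fderiv ℝ f (Φ z s) (Φ z₁ s - Φ z₂ s)) := by
      rw [map_sub (fderiv ℝ f (Φ z s)) (Φ z₁ s - Φ z₂ s)]
      abel
    rw [h4]
    refine (norm_add_le _ _).trans (add_le_add h3 (h1.trans ?_))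
    gcongr

omit [CompleteSpace F] in
/-- Local uniqueness for a `C¹` field. -/
theorem ode_eventuallyEq' {f : F → F} {c₁ c₂ : ℝ → F} {t₀ : ℝ} (hf : ContDiffAt ℝ 1 f (c₁ t₀))
    (h₁ : ∀ᶠ t in 𝓝 t₀, HasDerivAt c₁ (f (c₁ t)) t) (h₂ : ∀ᶠ t in 𝓝 t₀, HasDerivAt c₂ (f (c₂ t)) t)
    (h₀ : c₁ t₀ = c₂ t₀) : c₁ =ᶠ[𝓝 t₀] c₂ := by
  obtain ⟨K, s, hs, hl⟩ := hf.exists_lipschitzOnWith
  refine ODE_solution_unique_of_eventually (v := fun _ => f) (s := fun _ => s) (K := K)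
    (Eventually.of_forall fun _ => hl) (h₁.and ?_) (h₂.and ?_) h₀
  · exact h₁.self_of_nhds.continuousAt.eventually hs
  · exact h₂.self_of_nhds.continuousAt.eventually (h₀ ▸ hs)

/-- Local uniqueness for a `C¹` field. -/
theorem ode_eventuallyEq {f : F → F} {c₁ c₂ : ℝ → F} {t₀ : ℝ} (hf : ContDiffAt ℝ 1 f (c₁ t₀))
    (h₁ : ∀ᶠ t in 𝓝 t₀, HasDerivAt c₁ (f (c₁ t)) t) (h₂ : ∀ᶠ t in 𝓝 t₀, HasDerivAt c₂ (f (c₂ t)) t)
    (h₀ : c₁ t₀ = c₂ t₀) : c₁ =ᶠ[𝓝 t₀] c₂ := ode_eventuallyEq' hf h₁ h₂ h₀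

omit [CompleteSpace F] in
/-- Local uniqueness for a linear equation with continuous coefficients. -/
theorem linear_ode_eventuallyEq' {A : ℝ → F →L[ℝ] F} {c₁ c₂ : ℝ → F} {t₀ : ℝ}
    (hA : ContinuousAt A t₀) (h₁ : ∀ᶠ t in 𝓝 t₀, HasDerivAt c₁ (A t (c₁ t)) t)
    (h₂ : ∀ᶠ t in 𝓝 t₀, HasDerivAt c₂ (A t (c₂ t)) t) (h₀ : c₁ t₀ = c₂ t₀) :
    c₁ =ᶠ[𝓝 t₀] c₂ := by
  have h1 : ∀ᶠ t in 𝓝 t₀, ‖A t‖₊ ≤ ‖A t₀‖₊ + 1 :=
    hA.nnnorm.eventually_le_const (lt_add_one _)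
  refine ODE_solution_unique_of_eventually (v := fun t x => A t x) (s := fun _ => univ)
    (K := ‖A t₀‖₊ + 1) ?_ (h₁.mono fun t ht => ⟨ht, trivial⟩) (h₂.mono fun t ht => ⟨ht, trivial⟩) h₀
  filter_upwards [h1] with t ht
  exact ((A t).lipschitz.weaken ht).lipschitzOnWith

/-- Local uniqueness for a linear equation with continuous coefficients. -/
theorem linear_ode_eventuallyEq {A : ℝ → F →L[ℝ] F} {c₁ c₂ : ℝ → F} {t₀ : ℝ}
    (hA : ContinuousAt A t₀) (h₁ : ∀ᶠ t in 𝓝 t₀, HasDerivAt c₁ (A t (c₁ t)) t)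
    (h₂ : ∀ᶠ t in 𝓝 t₀, HasDerivAt c₂ (A t (c₂ t)) t) (h₀ : c₁ t₀ = c₂ t₀) :
    c₁ =ᶠ[𝓝 t₀] c₂ := linear_ode_eventuallyEq' hA h₁ h₂ h₀

end Crest.Agent.R244
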