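import Crest.Agent.R244.Defs

/-! Row 244: basic calculus of `bil` and `Gam` (coordinates formulas, smoothness, Koszul). -/

set_option autoImplicit false
set_option maxSynthPendingDepth 3
open Set Filter Topology
open scoped ContDiff
open Crest.GeometryTopology.CoordMetric Crest.GeometryTopology.ChartCurvature
open Crest.GeometryTopology.Geodesic

noncomputable section
namespace Crest.Agent.R244

variable {n : ℕ} {g g' : MetricField n} {U : Set (E n)} {x : E n}

theorem bil_apply (g : MetricField n) (x u v : E n) :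
    bil g x u v = ∑ i, ∑ j, g x i j * u i * v j := by
  simp only [bil, _root_.sum_apply, _root_.smul_apply,
    ContinuousLinearMap.smulRight_apply, smul_eq_mul]
  refine Finset.sum_congr rfl fun i _ => Finset.sum_congr rfl fun j _ => ?_
  simp [mul_assoc]

theorem sum_smul_single_apply (a : Fin n → ℝ) (k : Fin n) :
    (∑ l, a l • (EuclideanSpace.single l (1 : ℝ) : E n)) k = a k := by
  simp [Finset.sum_apply, Pi.single_apply]

theorem eq_sum_single (w : E n) : w = ∑ l, w l • (EuclideanSpace.single l (1 : ℝ) : E n) := by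
  ext k
  rw [sum_smul_single_apply]

theorem Gam_apply (g : MetricField n) (x u v : E n) (k : Fin n) :
    Gam g x u v k = ∑ i, ∑ j, christoffel g x k i j * u i * v j := by
  have h : Gam g x u v = ∑ k, (∑ i, ∑ j, christoffel g x k i j * u i * v j) •
      (EuclideanSpace.single k (1 : ℝ) : E n) := by
    simp only [Gam, _root_.sum_apply, _root_.smul_apply,
      ContinuousLinearMap.smulRight_apply, Finset.sum_smul]
    refine Finset.sum_congr rfl fun k _ => Finset.sum_congr rfl fun i _ =>
      Finset.sum_congr rfl fun j _ => ?_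
    simp [smul_smul, mul_assoc]
  rw [h]
  exact sum_smul_single_apply _ k

theorem bil_single (g : MetricField n) (x : E n) (i j : Fin n) :
    bil g x (EuclideanSpace.single i 1) (EuclideanSpace.single j 1) = g x i j := by
  rw [bil_apply]
  simp [Pi.single_apply]

theorem g_symm (hg : IsRiemannianOn g U) (hx : x ∈ U) (i j : Fin n) : g x i j = g x j i := by
  have h := (hg.posDef x hx).isHermitian
  have := congrFun (congrFun h i) j
  simpa [Matrix.conjTranspose_apply] using this.symm

theorem bil_eq_dot (g : MetricField n) (x u v : E n) :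
    bil g x u v = dotProduct (u : Fin n → ℝ) (Matrix.mulVec (g x) (v : Fin n → ℝ)) := by
  rw [bil_apply]
  simp only [dotProduct, Matrix.mulVec, Finset.mul_sum]
  refine Finset.sum_congr rfl fun i _ => Finset.sum_congr rfl fun j _ => ?_
  ring

theorem bil_symm (hg : IsRiemannianOn g U) (hx : x ∈ U) (u v : E n) :
    bil g x u v = bil g x v u := by
  rw [bil_apply, bil_apply, Finset.sum_comm]
  refine Finset.sum_congr rfl fun i _ => Finset.sum_congr rfl fun j _ => ?_
  rw [g_symm hg hx j i]; ring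

theorem bil_pos (hg : IsRiemannianOn g U) (hx : x ∈ U) {v : E n} (hv : v ≠ 0) :
    0 < bil g x v v := by
  rw [bil_eq_dot]
  have hv' : (v : Fin n → ℝ) ≠ 0 := by
    intro h; apply hv; ext k; simpa using congrFun h k
  simpa using (hg.posDef x hx).dotProduct_mulVec_pos hv'

theorem bil_nonneg (hg : IsRiemannianOn g U) (hx : x ∈ U) (v : E n) : 0 ≤ bil g x v v := by
  by_cases hv : v = 0
  · simp [hv]
  · exact (bil_pos hg hx hv).le

/-- Cauchy–Schwarz. -/
theorem bil_sq_le (hg : IsRiemannianOn g U) (hx : x ∈ U) (u v : E n) :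
    bil g x u v ^ 2 ≤ bil g x u u * bil g x v v := by
  have key : ∀ t : ℝ, 0 ≤ bil g x v v * (t * t) + (2 * bil g x u v) * t + bil g x u u := by
    intro t
    have h := bil_nonneg hg hx (u + t • v)
    simp only [map_add, map_smul, _root_.add_apply, _root_.smul_apply,
      smul_eq_mul] at h
    rw [bil_symm hg hx v u] at h
    nlinarith [h]
  have := discrim_le_zero key
  simp only [discrim] at this
  nlinarith [this]

/-- Non-degeneracy. -/
theorem eq_of_bil_eq (hg : IsRiemannianOn g U) (hx : x ∈ U) {u v : E n}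
    (h : ∀ w, bil g x u w = bil g x v w) : u = v := by
  by_contra hne
  have h1 := bil_pos hg hx (sub_ne_zero.mpr hne)
  have h2 : bil g x (u - v) (u - v) = bil g x u (u - v) - bil g x v (u - v) := by
    rw [map_sub (bil g x) u v]; rfl
  rw [h2, h, sub_self] at h1
  exact lt_irrefl _ h1

theorem contDiffOn_bil (hg : IsRiemannianOn g U) : ContDiffOn ℝ ∞ (bil g) U := by
  unfold bil
  exact ContDiffOn.sum fun i _ => ContDiffOn.sum fun j _ =>
    (hg.contDiffOn i j).smul contDiffOn_const

theorem contDiffOn_det_of {m : ℕ} {A : E n → Matrix (Fin m) (Fin m) ℝ}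
    (hA : ∀ i j, ContDiffOn ℝ ∞ (fun y => A y i j) U) :
    ContDiffOn ℝ ∞ (fun y => (A y).det) U := by
  simp only [Matrix.det_apply, Units.smul_def, zsmul_eq_mul]
  exact ContDiffOn.sum fun σ _ => contDiffOn_const.mul (contDiffOn_prod fun i _ => hA _ _)

theorem contDiffOn_inverseField (hg : IsRiemannianOn g U) (k l : Fin n) :
    ContDiffOn ℝ ∞ (fun y => inverseField g y k l) U := by
  have h1 : ContDiffOn ℝ ∞ (fun y => (g y).det) U := contDiffOn_det_of hg.contDiffOn
  have h2 : ContDiffOn ℝ ∞ (fun y => (g y).adjugate k l) U := by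
    simp only [Matrix.adjugate_apply]
    refine contDiffOn_det_of fun i j => ?_
    simp only [Matrix.updateRow_apply]
    split_ifs
    · exact contDiffOn_const
    · exact hg.contDiffOn i j
  have h3 : ContDiffOn ℝ ∞ (fun y => ((g y).det)⁻¹ * (g y).adjugate k l) U :=
    (h1.inv fun y hy => (hg.posDef y hy).det_pos.ne').mul h2
  refine h3.congr fun y _ => ?_
  simp [inverseField, Matrix.inv_def, Ring.inverse_eq_inv']

theorem contDiffOn_pderiv {f : E n → ℝ} (hU : IsOpen U) (hf : ContDiffOn ℝ ∞ f U) (i : Fin n) :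
    ContDiffOn ℝ ∞ (pderiv i f) U := by
  unfold pderiv
  exact (hf.fderiv_of_isOpen hU (m := ∞) (by simp)).clm_apply contDiffOn_const

theorem contDiffOn_christoffel (hg : IsRiemannianOn g U) (k i j : Fin n) :
    ContDiffOn ℝ ∞ (fun y => christoffel g y k i j) U := by
  unfold christoffel
  refine contDiffOn_const.mul (ContDiffOn.sum fun l _ => (contDiffOn_inverseField hg k l).mul ?_)
  exact ((contDiffOn_pderiv hg.isOpen (hg.contDiffOn _ _) _).add
    (contDiffOn_pderiv hg.isOpen (hg.contDiffOn _ _) _)).sub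
    (contDiffOn_pderiv hg.isOpen (hg.contDiffOn _ _) _)

theorem contDiffOn_Gam (hg : IsRiemannianOn g U) : ContDiffOn ℝ ∞ (Gam g) U := by
  unfold Gam
  exact ContDiffOn.sum fun k _ => ContDiffOn.sum fun i _ => ContDiffOn.sum fun j _ =>
    (contDiffOn_christoffel hg k i j).smul contDiffOn_const

theorem contDiffAt_bil (hg : IsRiemannianOn g U) (hx : x ∈ U) : ContDiffAt ℝ ∞ (bil g) x :=
  (contDiffOn_bil hg).contDiffAt (hg.isOpen.mem_nhds hx)

theorem contDiffAt_Gam (hg : IsRiemannianOn g U) (hx : x ∈ U) : ContDiffAt ℝ ∞ (Gam g) x :=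
  (contDiffOn_Gam hg).contDiffAt (hg.isOpen.mem_nhds hx)

theorem pderiv_g_symm (hg : IsRiemannianOn g U) (hx : x ∈ U) (l i j : Fin n) :
    pderiv l (fun y => g y i j) x = pderiv l (fun y => g y j i) x := by
  unfold pderiv
  have : (fun y => g y i j) =ᶠ[𝓝 x] fun y => g y j i := by
    filter_upwards [hg.isOpen.mem_nhds hx] with y hy using g_symm hg hy i j
  rw [this.fderiv_eq]

theorem christoffel_symm (hg : IsRiemannianOn g U) (hx : x ∈ U) (k i j : Fin n) :
    christoffel g x k i j = christoffel g x k j i := by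
  unfold christoffel
  congr 1
  refine Finset.sum_congr rfl fun l _ => ?_
  rw [pderiv_g_symm hg hx l i j]; ring

/-- Evaluating a differentiable family of bilinear maps commutes with `fderiv`. -/
theorem fderiv_apply₂ {F : Type} [NormedAddCommGroup F] [NormedSpace ℝ F]
    {B : E n → E n →L[ℝ] E n →L[ℝ] F} (hB : DifferentiableAt ℝ B x) (w u v : E n) :
    fderiv ℝ B x w u v = fderiv ℝ (fun y => B y u v) x w := by
  have h1 : HasFDerivAt (fun y => B y u) ((ContinuousLinearMap.apply ℝ (E n →L[ℝ] F) u).comp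
      (fderiv ℝ B x)) x :=
    (ContinuousLinearMap.apply ℝ (E n →L[ℝ] F) u).hasFDerivAt.comp x hB.hasFDerivAt
  have h2 : HasFDerivAt (fun y => B y u v) ((ContinuousLinearMap.apply ℝ F v).comp
      ((ContinuousLinearMap.apply ℝ (E n →L[ℝ] F) u).comp (fderiv ℝ B x))) x :=
    (ContinuousLinearMap.apply ℝ F v).hasFDerivAt.comp x h1
  rw [h2.fderiv]
  simp

theorem Gam_symm (hg : IsRiemannianOn g U) (hx : x ∈ U) (u v : E n) :
    Gam g x u v = Gam g x v u := by
  ext k
  rw [Gam_apply, Gam_apply, Finset.sum_comm]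
  refine Finset.sum_congr rfl fun i _ => Finset.sum_congr rfl fun j _ => ?_
  rw [christoffel_symm hg hx k j i]; ring

theorem fderiv_bil_symm (hg : IsRiemannianOn g U) (hx : x ∈ U) (w u v : E n) :
    fderiv ℝ (bil g) x w u v = fderiv ℝ (bil g) x w v u := by
  have hd : DifferentiableAt ℝ (bil g) x := (contDiffAt_bil hg hx).differentiableAt (by simp)
  rw [fderiv_apply₂ hd, fderiv_apply₂ hd]
  have : (fun y => bil g y u v) =ᶠ[𝓝 x] fun y => bil g y v u := by
    filter_upwards [hg.isOpen.mem_nhds hx] with y hy using bil_symm hg hy u v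
  rw [this.fderiv_eq]

theorem fderiv_Gam_symm (hg : IsRiemannianOn g U) (hx : x ∈ U) (w u v : E n) :
    fderiv ℝ (Gam g) x w u v = fderiv ℝ (Gam g) x w v u := by
  have hd : DifferentiableAt ℝ (Gam g) x := (contDiffAt_Gam hg hx).differentiableAt (by simp)
  rw [fderiv_apply₂ hd, fderiv_apply₂ hd]
  have : (fun y => Gam g y u v) =ᶠ[𝓝 x] fun y => Gam g y v u := by
    filter_upwards [hg.isOpen.mem_nhds hx] with y hy using Gam_symm hg hy u v
  rw [this.fderiv_eq]

theorem fderiv_bil_single (hg : IsRiemannianOn g U) (hx : x ∈ U) (l i j : Fin n) :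
    fderiv ℝ (bil g) x (EuclideanSpace.single l 1) (EuclideanSpace.single i 1)
      (EuclideanSpace.single j 1) = pderiv l (fun y => g y i j) x := by
  have hd : DifferentiableAt ℝ (bil g) x := (contDiffAt_bil hg hx).differentiableAt (by simp)
  rw [fderiv_apply₂ hd]
  simp only [bil_single, pderiv]

theorem Gam_single (g : MetricField n) (x : E n) (i j k : Fin n) :
    Gam g x (EuclideanSpace.single i 1) (EuclideanSpace.single j 1) k = christoffel g x k i j := by
  rw [Gam_apply]
  simp [Pi.single_apply]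

theorem koszul_single (hg : IsRiemannianOn g U) (hx : x ∈ U) (a b c : Fin n) :
    bil g x (Gam g x (EuclideanSpace.single a 1)
      (EuclideanSpace.single b 1)) (EuclideanSpace.single c 1) =
      (1 / 2) * (pderiv a (fun y => g y b c) x + pderiv b (fun y => g y a c) x
        - pderiv c (fun y => g y a b) x) := by
  have hu : IsUnit (g x).det := (hg.posDef x hx).det_pos.ne'.isUnit
  have hinv : ∀ l, ∑ k, g x c k * inverseField g x k l = if c = l then 1 else 0 := by
    intro l
    have := congrFun (congrFun (Matrix.mul_nonsing_inv (g x) hu) c) l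
    simpa [Matrix.mul_apply, Matrix.one_apply, inverseField] using this
  have h1 : bil g x (Gam g x (EuclideanSpace.single a 1)
      (EuclideanSpace.single b 1)) (EuclideanSpace.single c 1) =
      ∑ k, g x c k * christoffel g x k a b := by
    rw [bil_apply]
    refine Finset.sum_congr rfl fun k _ => ?_
    rw [Gam_single, g_symm hg hx c k]
    simp [Pi.single_apply]
  rw [h1]
  set T : Fin n → ℝ := fun l => pderiv a (fun y => g y b l) x + pderiv b (fun y => g y a l) x
    - pderiv l (fun y => g y a b) x with hT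
  have h2 : ∑ k, g x c k * christoffel g x k a b =
      (1 / 2) * ∑ l, (∑ k, g x c k * inverseField g x k l) * T l := by
    simp only [christoffel, Finset.mul_sum, Finset.sum_mul]
    rw [Finset.sum_comm]
    refine Finset.sum_congr rfl fun l _ => Finset.sum_congr rfl fun k _ => ?_
    simp only [hT]; ring
  rw [h2]
  simp only [hinv]
  simp [hT]

/-- Koszul formula. -/
theorem koszul (hg : IsRiemannianOn g U) (hx : x ∈ U) (u v w : E n) :
    2 * bil g x (Gam g x u v) w =
      fderiv ℝ (bil g) x u v w + fderiv ℝ (bil g) x v u w - fderiv ℝ (bil g) x w u v := by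
  rw [eq_sum_single u, eq_sum_single v, eq_sum_single w]
  simp only [map_sum, map_smul, _root_.sum_apply, _root_.smul_apply,
    smul_eq_mul, fderiv_bil_single hg hx, Finset.mul_sum]
  have e1 : ∀ a b c : Fin n, bil g x (Gam g x (EuclideanSpace.single a 1)
      (EuclideanSpace.single b 1)) (EuclideanSpace.single c 1) =
      (1 / 2) * (pderiv a (fun y => g y b c) x + pderiv b (fun y => g y a c) x
        - pderiv c (fun y => g y a b) x) := fun a b c => koszul_single hg hx a b c
  simp only [e1]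
  have e2 : (∑ c, ∑ a, ∑ b, w c * (u a * (v b * pderiv b (fun y => g y a c) x))) =
      ∑ c, ∑ b, ∑ a, w c * (v b * (u a * pderiv b (fun y => g y a c) x)) := by
    refine Finset.sum_congr rfl fun c _ => ?_
    rw [Finset.sum_comm]
    refine Finset.sum_congr rfl fun b _ => Finset.sum_congr rfl fun a _ => ?_
    ring
  have e3 : (∑ b, ∑ a, ∑ c, v b * (u a * (w c * pderiv c (fun y => g y a b) x))) =
      ∑ c, ∑ b, ∑ a, w c * (v b * (u a * pderiv c (fun y => g y a b) x)) := by
    calc _ = ∑ b, ∑ c, ∑ a, v b * (u a * (w c * pderiv c (fun y => g y a b) x)) :=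
          Finset.sum_congr rfl fun b _ => Finset.sum_comm
      _ = ∑ c, ∑ b, ∑ a, v b * (u a * (w c * pderiv c (fun y => g y a b) x)) := Finset.sum_comm
      _ = _ := by
          refine Finset.sum_congr rfl fun c _ => Finset.sum_congr rfl fun b _ =>
            Finset.sum_congr rfl fun a _ => ?_
          ring
  rw [e2, e3]
  simp only [← Finset.sum_add_distrib, ← Finset.sum_sub_distrib]
  refine Finset.sum_congr rfl fun c _ => Finset.sum_congr rfl fun b _ =>
    Finset.sum_congr rfl fun a _ => ?_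
  ring

/-- Metric compatibility. -/
theorem fderiv_bil_eq (hg : IsRiemannianOn g U) (hx : x ∈ U) (w u v : E n) :
    fderiv ℝ (bil g) x w u v = bil g x (Gam g x w u) v + bil g x u (Gam g x w v) := by
  have h1 := koszul hg hx w u v
  have h2 := koszul hg hx w v u
  rw [bil_symm hg hx u (Gam g x w v)]
  rw [fderiv_bil_symm hg hx w v u, fderiv_bil_symm hg hx v w u,
    fderiv_bil_symm hg hx u w v] at *
  linarith

theorem bil_congr (h : g =ᶠ[𝓝 x] g') : bil g =ᶠ[𝓝 x] bil g' := by
  filter_upwards [h] with y hy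
  simp only [bil, hy]

theorem christoffel_congr (h : g =ᶠ[𝓝 x] g') : christoffel g =ᶠ[𝓝 x] christoffel g' := by
  filter_upwards [h.eventuallyEq_nhds] with y hy
  have h0 : g y = g' y := hy.eq_of_nhds
  have h1 : ∀ l i j, pderiv l (fun z => g z i j) y = pderiv l (fun z => g' z i j) y := by
    intro l i j
    unfold pderiv
    have : (fun z => g z i j) =ᶠ[𝓝 y] fun z => g' z i j := by
      filter_upwards [hy] with z hz
      rw [hz]
    rw [this.fderiv_eq]
  funext k i j
  simp only [christoffel, inverseField, h0, h1]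

theorem Gam_congr (h : g =ᶠ[𝓝 x] g') : Gam g =ᶠ[𝓝 x] Gam g' := by
  filter_upwards [christoffel_congr h] with y hy
  simp only [Gam, hy]

theorem GeoAt.congr {c c' : ℝ → E n} {t : ℝ} (h : GeoAt g c t) (hc : c =ᶠ[𝓝 t] c') :
    GeoAt g c' t := by
  obtain ⟨h1, h2⟩ := h
  have hd : deriv c =ᶠ[𝓝 t] deriv c' := hc.deriv
  refine ⟨?_, ?_⟩
  · filter_upwards [h1, hc.eventuallyEq_nhds] with s hs hs'
    exact hs'.differentiableAt_iff.mp hs
  · rw [← hc.eq_of_nhds, ← hd.eq_of_nhds]
    exact h2.congr_of_eventuallyEq hd.symm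

theorem VarAt.congr {c c' J J' : ℝ → E n} {t : ℝ} (h : VarAt g c J t) (hc : c =ᶠ[𝓝 t] c')
    (hJ : J =ᶠ[𝓝 t] J') : VarAt g c' J' t := by
  obtain ⟨h1, h2⟩ := h
  have hd : deriv c =ᶠ[𝓝 t] deriv c' := hc.deriv
  have hdJ : deriv J =ᶠ[𝓝 t] deriv J' := hJ.deriv
  refine ⟨?_, ?_⟩
  · filter_upwards [h1, hJ.eventuallyEq_nhds] with s hs hs'
    exact hs'.differentiableAt_iff.mp hs
  · rw [← hc.eq_of_nhds, ← hd.eq_of_nhds, ← hJ.eq_of_nhds, ← hdJ.eq_of_nhds]
    exact h2.congr_of_eventuallyEq hdJ.symm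

theorem GeoAt.congr_metric {c : ℝ → E n} {t : ℝ} (h : GeoAt g c t) (hg : g =ᶠ[𝓝 (c t)] g') :
    GeoAt g' c t := by
  obtain ⟨h1, h2⟩ := h
  refine ⟨h1, ?_⟩
  rw [← (Gam_congr hg).eq_of_nhds]
  exact h2

theorem VarAt.congr_metric {c J : ℝ → E n} {t : ℝ} (h : VarAt g c J t)
    (hg : g =ᶠ[𝓝 (c t)] g') : VarAt g' c J t := by
  obtain ⟨h1, h2⟩ := h
  refine ⟨h1, ?_⟩
  rw [← (Gam_congr hg).eq_of_nhds, ← (Gam_congr hg).fderiv_eq]
  exact h2

/-- The flat metric. -/
theorem bil_one (x u v : E n) : bil (fun _ => (1 : Matrix (Fin n) (Fin n) ℝ)) x u v = inner ℝ u v := by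
  rw [bil_apply]
  simp [Matrix.one_apply, PiLp.inner_apply, mul_comm]

theorem Gam_one : Gam (fun _ : E n => (1 : Matrix (Fin n) (Fin n) ℝ)) = 0 := by
  funext x
  have : ∀ k i j, christoffel (fun _ : E n => (1 : Matrix (Fin n) (Fin n) ℝ)) x k i j = 0 := by
    intro k i j
    simp [christoffel, pderiv]
  simp [Gam, this]

theorem isRiemannianOn_one (hU : IsOpen U) :
    IsRiemannianOn (fun _ : E n => (1 : Matrix (Fin n) (Fin n) ℝ)) U := by
  exact ⟨hU, fun _ _ => contDiffOn_const, fun _ _ => Matrix.PosDef.one⟩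

theorem _root_.Crest.GeometryTopology.CoordMetric.IsRiemannianOn.mono' {V : Set (E n)}
    (hg : IsRiemannianOn g U) (hV : IsOpen V) (hVU : V ⊆ U) : IsRiemannianOn g V := by
  exact ⟨hV, fun i j => (hg.contDiffOn i j).mono hVU, fun y hy => hg.posDef y (hVU hy)⟩

/-- An orthonormal frame for the metric at `x`. -/
theorem exists_frame (hg : IsRiemannianOn g U) (hx : x ∈ U) :
    ∃ L : E n ≃L[ℝ] E n, ∀ u v, bil g x (L u) (L v) = inner ℝ u v := by
  obtain ⟨b0, hb0⟩ := LinearMap.BilinForm.exists_orthogonal_basis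
    (B := ((ContinuousLinearMap.coeLM ℝ).comp (bil g x : E n →ₗ[ℝ] E n →L[ℝ] ℝ) :
      LinearMap.BilinForm ℝ (E n)))
    ⟨fun u v => by simpa using bil_symm hg hx u v⟩
  have hn : Module.finrank ℝ (E n) = n := by simp
  let b : Module.Basis (Fin n) ℝ (E n) := b0.reindex (finCongr hn)
  have hb : ∀ i j, i ≠ j → bil g x (b i) (b j) = 0 := by
    intro i j hij
    have := hb0 (i := (finCongr hn).symm i) (j := (finCongr hn).symm j)
      (fun h => hij ((finCongr hn).symm.injective h))
    simpa [b, Function.onFun] using this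
  have hpos : ∀ i, 0 < bil g x (b i) (b i) := fun i => bil_pos hg hx (b.ne_zero i)
  let f : Fin n → E n := fun i => (Real.sqrt (bil g x (b i) (b i)))⁻¹ • b i
  have hf : ∀ i j, bil g x (f i) (f j) = if i = j then 1 else 0 := by
    intro i j
    simp only [f, map_smul, _root_.smul_apply, smul_eq_mul]
    split_ifs with hij
    · subst hij
      have h1 := Real.sqrt_pos.mpr (hpos i)
      have h2 := Real.mul_self_sqrt (hpos i).le
      field_simp
      nlinarith [h2]
    · rw [hb i j hij]; simp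
  let L0 : E n →ₗ[ℝ] E n := (EuclideanSpace.basisFun (Fin n) ℝ).toBasis.constr ℝ f
  have hL0 : ∀ u : E n, L0 u = ∑ i, u i • f i := by
    intro u
    simp [L0, Module.Basis.constr_apply_fintype]
  have hiso : ∀ u v, bil g x (L0 u) (L0 v) = inner ℝ u v := by
    intro u v
    rw [hL0, hL0]
    simp only [map_sum, map_smul, _root_.sum_apply, _root_.smul_apply,
      smul_eq_mul, hf]
    simp [PiLp.inner_apply]
  have hinj : Function.Injective L0 := by
    rw [← LinearMap.ker_eq_bot, LinearMap.ker_eq_bot']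
    intro u hu
    have := hiso u u
    rw [hu] at this
    simp only [map_zero] at this
    exact inner_self_eq_zero.mp this.symm
  refine ⟨(LinearEquiv.ofInjectiveEndo L0 hinj).toContinuousLinearEquiv, fun u v => ?_⟩
  simpa using hiso u v

/-- Uniform comparison with the Euclidean norm on compact sets. -/
theorem exists_bil_bounds (hg : IsRiemannianOn g U) {K : Set (E n)} (hK : IsCompact K)
    (hKU : K ⊆ U) : ∃ c C : ℝ, 0 < c ∧ 0 < C ∧
      ∀ x ∈ K, ∀ v, c * ‖v‖ ^ 2 ≤ bil g x v v ∧ bil g x v v ≤ C * ‖v‖ ^ 2 := by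
  have hcont : ContinuousOn (fun p : E n × E n => bil g p.1 p.2 p.2)
      (K ×ˢ Metric.sphere (0 : E n) 1) := by
    have h1 : ContinuousOn (fun p : E n × E n => bil g p.1) (K ×ˢ Metric.sphere (0 : E n) 1) :=
      (contDiffOn_bil hg).continuousOn.comp continuousOn_fst fun p hp => hKU hp.1
    exact (h1.clm_apply continuousOn_snd).clm_apply continuousOn_snd
  have hcomp : IsCompact (K ×ˢ Metric.sphere (0 : E n) 1) := hK.prod (isCompact_sphere _ _)
  have key : ∃ c C : ℝ, 0 < c ∧ 0 < C ∧ ∀ p ∈ K ×ˢ Metric.sphere (0 : E n) 1,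
      c ≤ bil g p.1 p.2 p.2 ∧ bil g p.1 p.2 p.2 ≤ C := by
    rcases (K ×ˢ Metric.sphere (0 : E n) 1).eq_empty_or_nonempty with he | hne
    · exact ⟨1, 1, one_pos, one_pos, fun p hp => by rw [he] at hp; exact hp.elim⟩
    · obtain ⟨p, hp, hmin⟩ := hcomp.exists_isMinOn hne hcont
      obtain ⟨q, hq, hmax⟩ := hcomp.exists_isMaxOn hne hcont
      have hpos : ∀ r ∈ K ×ˢ Metric.sphere (0 : E n) 1, 0 < bil g r.1 r.2 r.2 := by
        intro r hr
        refine bil_pos hg (hKU hr.1) fun h0 => ?_
        have := hr.2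
        rw [h0] at this
        simp at this
      exact ⟨_, _, hpos p hp, hpos q hq, fun r hr => ⟨hmin hr, hmax hr⟩⟩
  obtain ⟨c, C, hc, hC, h⟩ := key
  refine ⟨c, C, hc, hC, fun y hy v => ?_⟩
  by_cases hv : v = 0
  · simp [hv]
  · have hn : 0 < ‖v‖ := norm_pos_iff.mpr hv
    have hs : (‖v‖⁻¹ • v) ∈ Metric.sphere (0 : E n) 1 := by
      simp [norm_smul, hn.ne']
    obtain ⟨h1, h2⟩ := h (y, ‖v‖⁻¹ • v) ⟨hy, hs⟩
    simp only [map_smul, _root_.smul_apply, smul_eq_mul] at h1 h2
    have e : bil g y v v = (‖v‖⁻¹ * (‖v‖⁻¹ * bil g y v v)) * ‖v‖ ^ 2 := by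
      field_simp
    have hn2 : 0 < ‖v‖ ^ 2 := by positivity
    constructor
    · rw [e]; exact mul_le_mul_of_nonneg_right h1 hn2.le
    · rw [e]; exact mul_le_mul_of_nonneg_right h2 hn2.le

end Crest.Agent.R244
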