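import Crest.Agent.R244.CalcA

/-! Row 244: geodesic and Jacobi equations, curvature, first and second variation formulas. -/

set_option autoImplicit false
set_option maxSynthPendingDepth 3
open Set Filter Topology
open scoped ContDiff
open Crest.GeometryTopology.CoordMetric Crest.GeometryTopology.ChartCurvature
open Crest.GeometryTopology.Geodesic

noncomputable section
namespace Crest.Agent.R244

variable {n : ℕ} {g : MetricField n} {U : Set (E n)} {x : E n} {c J K : ℝ → E n} {t : ℝ}

section generic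
variable {F G : Type*} [NormedAddCommGroup F] [NormedSpace ℝ F] [NormedAddCommGroup G]
  [NormedSpace ℝ G]

theorem hasDerivAt_along {B : E n → F} (hB : ContDiffAt ℝ ∞ B (c t)) {v : E n}
    (hc : HasDerivAt c v t) : HasDerivAt (fun s => B (c s)) (fderiv ℝ B (c t) v) t :=
  (hB.differentiableAt (by simp)).hasFDerivAt.comp_hasDerivAt t hc

theorem hasDerivAt_fderiv_along {B : E n → F} (hB : ContDiffAt ℝ ∞ B (c t)) {v J' : E n}
    (hc : HasDerivAt c v t) (hJ : HasDerivAt J J' t) :
    HasDerivAt (fun s => fderiv ℝ B (c s) (J s))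
      (fderiv ℝ (fderiv ℝ B) (c t) v (J t) + fderiv ℝ B (c t) J') t :=
  (hasDerivAt_along (hB.fderiv_right (m := ∞) (by simp)) hc).clm_apply hJ

theorem fderiv_fderiv_symm {B : E n → F} (hB : ContDiffAt ℝ ∞ B x) (u w : E n) :
    fderiv ℝ (fderiv ℝ B) x u w = fderiv ℝ (fderiv ℝ B) x w u :=
  ((hB.of_le (m := 2) (WithTop.coe_le_coe.2 (le_top : (2 : ℕ∞) ≤ ⊤))).isSymmSndFDerivAt (by simp)).eq u w

theorem fderiv_app {Φ : E n → F →L[ℝ] G} (h : DifferentiableAt ℝ Φ x) (a : F) (u : E n) :
    fderiv ℝ (fun y => Φ y a) x u = fderiv ℝ Φ x u a := by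
  rw [fderiv_clm_apply h (differentiableAt_const a)]
  simp

theorem fderiv_fderiv_app {B : E n → F} (hB : ContDiffAt ℝ ∞ B x) (L : F →L[ℝ] G) (w u : E n) :
    fderiv ℝ (fun y => L (fderiv ℝ B y w)) x u = L (fderiv ℝ (fderiv ℝ B) x u w) := by
  have h : DifferentiableAt ℝ (fderiv ℝ B) x :=
    (hB.fderiv_right (m := ∞) (by simp)).differentiableAt (by simp)
  rw [← fderiv_app h]
  exact congrArg (fun T : E n →L[ℝ] G => T u) (L.hasFDerivAt.comp x
    (h.clm_apply (differentiableAt_const w)).hasFDerivAt).fderiv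

end generic

theorem exists_line (x u : E n) : ∃ l : ℝ → E n, l 0 = x ∧ HasDerivAt l u 0 :=
  ⟨fun s => x + s • u, by simp, by simpa using ((hasDerivAt_id (0 : ℝ)).smul_const u).const_add x⟩

theorem eq_sum_singleB (u : E n) : u = ∑ i, u i • (EuclideanSpace.single i (1 : ℝ) : E n) := by
  ext k
  simp [Finset.sum_apply, Pi.single_apply]

theorem christoffel_eq (g : MetricField n) (y : E n) (l j k : Fin n) :
    christoffel g y l j k =
      Gam g y (EuclideanSpace.single j 1) (EuclideanSpace.single k 1) l := by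
  simp [Gam_apply]

theorem pderiv_christoffel (hg : IsRiemannianOn g U) (hx : x ∈ U) (i l j k : Fin n) :
    pderiv i (fun y => christoffel g y l j k) x = fderiv ℝ (Gam g) x (EuclideanSpace.single i 1)
      (EuclideanSpace.single j 1) (EuclideanSpace.single k 1) l := by
  have h0 : DifferentiableAt ℝ (Gam g) x := (contDiffAt_Gam hg hx).differentiableAt (by simp)
  have h1 := h0.clm_apply (differentiableAt_const (EuclideanSpace.single j (1 : ℝ) : E n))
  have h2 := h1.clm_apply (differentiableAt_const (EuclideanSpace.single k (1 : ℝ) : E n))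
  rw [← fderiv_app h0, ← fderiv_app h1]
  simp only [pderiv, christoffel_eq]
  exact congrArg (fun T : E n →L[ℝ] ℝ => T (EuclideanSpace.single i 1))
    ((EuclideanSpace.proj (𝕜 := ℝ) l).hasFDerivAt.comp x h2.hasFDerivAt).fderiv

theorem fderiv_Gam_apply (hg : IsRiemannianOn g U) (hx : x ∈ U) (u v w : E n) (l : Fin n) :
    fderiv ℝ (Gam g) x u v w l =
      ∑ k, ∑ i, ∑ j, pderiv i (fun y => christoffel g y l j k) x * w k * u i * v j := by
  simp only [pderiv_christoffel hg hx]
  generalize fderiv ℝ (Gam g) x = T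
  conv_lhs => rw [eq_sum_singleB w, map_sum]
  rw [WithLp.ofLp_sum, Finset.sum_apply]
  refine Finset.sum_congr rfl fun k _ => ?_
  conv_lhs => rw [eq_sum_singleB u, map_sum, _root_.sum_apply,
    _root_.sum_apply]
  rw [WithLp.ofLp_sum, Finset.sum_apply]
  refine Finset.sum_congr rfl fun i _ => ?_
  conv_lhs => rw [eq_sum_singleB v, map_sum, _root_.sum_apply]
  rw [WithLp.ofLp_sum, Finset.sum_apply]
  refine Finset.sum_congr rfl fun j _ => ?_
  simp only [map_smul, _root_.smul_apply, PiLp.smul_apply, smul_eq_mul]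
  ring

theorem Gam_Gam_apply (g : MetricField n) (x u v w : E n) (l : Fin n) :
    Gam g x u (Gam g x v w) l =
      ∑ k, ∑ i, ∑ j, (∑ a, christoffel g x l i a * christoffel g x a j k) * w k * u i * v j := by
  calc _ = ∑ i, ∑ a, ∑ j, ∑ k,
        christoffel g x l i a * u i * (christoffel g x a j k * v j * w k) := by
        simp only [Gam_apply, Finset.mul_sum]
    _ = ∑ i, ∑ j, ∑ k, ∑ a,
        christoffel g x l i a * u i * (christoffel g x a j k * v j * w k) :=
        Finset.sum_congr rfl fun i _ => Finset.sum_comm.trans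
          (Finset.sum_congr rfl fun j _ => Finset.sum_comm)
    _ = ∑ k, ∑ i, ∑ j, ∑ a,
        christoffel g x l i a * u i * (christoffel g x a j k * v j * w k) :=
        (Finset.sum_congr rfl fun i _ => Finset.sum_comm).trans Finset.sum_comm
    _ = _ := by
        simp only [Finset.sum_mul]
        exact Finset.sum_congr rfl fun k _ => Finset.sum_congr rfl fun i _ =>
          Finset.sum_congr rfl fun j _ => Finset.sum_congr rfl fun a _ => by ring

/-- The curvature `R(u, v) w`. -/
def Rm (g : MetricField n) (x u v w : E n) : E n :=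
  fderiv ℝ (Gam g) x u v w - fderiv ℝ (Gam g) x v u w
    + Gam g x u (Gam g x v w) - Gam g x v (Gam g x u w)

theorem Rm_apply (hg : IsRiemannianOn g U) (hx : x ∈ U) (u v w : E n) (l : Fin n) :
    Rm g x u v w l = ∑ k, ∑ i, ∑ j, riemann g x l k i j * w k * u i * v j := by
  have swap : ∀ f : Fin n → Fin n → Fin n → ℝ,
      ∑ k, ∑ i, ∑ j, f k i j * w k * v i * u j = ∑ k, ∑ i, ∑ j, f k j i * w k * u i * v j :=
    fun f => Finset.sum_congr rfl fun k _ => by
      rw [Finset.sum_comm]
      exact Finset.sum_congr rfl fun i _ => Finset.sum_congr rfl fun j _ => by ring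
  simp only [Rm, PiLp.sub_apply, PiLp.add_apply]
  rw [fderiv_Gam_apply hg hx, fderiv_Gam_apply hg hx, Gam_Gam_apply, Gam_Gam_apply,
    swap fun k i j => pderiv i (fun y => christoffel g y l j k) x,
    swap fun k i j => ∑ a, christoffel g x l i a * christoffel g x a j k]
  simp only [← Finset.sum_sub_distrib, ← Finset.sum_add_distrib]
  refine Finset.sum_congr rfl fun k _ => Finset.sum_congr rfl fun i _ =>
    Finset.sum_congr rfl fun j _ => ?_
  rw [riemann, Finset.sum_sub_distrib]
  ring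

theorem covDeriv_eq_cov (g : MetricField n) (c J : ℝ → E n) : covDeriv g c J = cov g c J := by
  ext s k
  simp [covDeriv, cov, Gam_apply]

theorem geoAt_of_geodesicEqAt (h1 : ∀ᶠ s in 𝓝 t, DifferentiableAt ℝ c s)
    (h2 : DifferentiableAt ℝ (deriv c) t) (h : GeodesicEqAt g c t) : GeoAt g c t := by
  refine ⟨h1, h2.hasDerivAt.congr_deriv ?_⟩
  ext k
  rw [PiLp.neg_apply, Gam_apply]
  exact eq_neg_of_add_eq_zero_left (h k)

theorem secNumer_eq (hg : IsRiemannianOn g U) (hx : x ∈ U) (u v : E n) :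
    secNumer g x u v = bil g x (fderiv ℝ (Gam g) x u v v - fderiv ℝ (Gam g) x v u v
      + Gam g x u (Gam g x v v) - Gam g x v (Gam g x u v)) u := by
  change _ = bil g x (Rm g x u v v) u
  simp only [secNumer, bil_apply, Rm_apply hg hx]

theorem GeoAt.hasDerivAt (h : GeoAt g c t) : HasDerivAt c (deriv c t) t :=
  h.1.self_of_nhds.hasDerivAt

theorem hasDerivAt_cov (hg : IsRiemannianOn g U) (hc : c t ∈ U) (hgeo : GeoAt g c t)
    (hJ : DifferentiableAt ℝ J t) {J2 : E n} (h2 : HasDerivAt (deriv J) J2 t) :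
    HasDerivAt (cov g c J) (J2 + ((fderiv ℝ (Gam g) (c t) (deriv c t) (deriv c t)
      + Gam g (c t) (-(Gam g (c t) (deriv c t) (deriv c t)))) (J t)
      + Gam g (c t) (deriv c t) (deriv J t))) t :=
  h2.add (((hasDerivAt_along (contDiffAt_Gam hg hc) hgeo.hasDerivAt).clm_apply hgeo.2).clm_apply
    hJ.hasDerivAt)

theorem cov_cov_add_Rm (hg : IsRiemannianOn g U) (hc : c t ∈ U) (hgeo : GeoAt g c t)
    (hJ : DifferentiableAt ℝ J t) {J2 : E n} (h2 : HasDerivAt (deriv J) J2 t) :
    cov g c (cov g c J) t + Rm g (c t) (J t) (deriv c t) (deriv c t) =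
      J2 + fderiv ℝ (Gam g) (c t) (J t) (deriv c t) (deriv c t)
        + (2 : ℝ) • Gam g (c t) (deriv c t) (deriv J t) := by
  rw [cov, (hasDerivAt_cov hg hc hgeo hJ h2).deriv, cov, Rm,
    fderiv_Gam_symm hg hc (deriv c t) (J t), Gam_symm hg hc (J t) (deriv c t),
    Gam_symm hg hc (J t), two_smul]
  simp only [_root_.add_apply, map_add, map_neg, _root_.neg_apply]
  abel

/-- The Jacobi equation along a geodesic is the linearised geodesic equation. -/
theorem varAt_of_jacobiEqAt (hg : IsRiemannianOn g U) (hc : c t ∈ U) (hgeo : GeoAt g c t)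
    (h1 : ∀ᶠ s in 𝓝 t, DifferentiableAt ℝ J s) (h2 : DifferentiableAt ℝ (deriv J) t)
    (h : JacobiEqAt g c J t) : VarAt g c J t := by
  refine ⟨h1, h2.hasDerivAt.congr_deriv ?_⟩
  have h3 := cov_cov_add_Rm hg hc hgeo h1.self_of_nhds h2.hasDerivAt
  have h4 : cov g c (cov g c J) t + Rm g (c t) (J t) (deriv c t) (deriv c t) = 0 := by
    ext l
    have := h l
    rw [covDeriv_eq_cov, covDeriv_eq_cov, ← Rm_apply hg hc] at this
    exact this
  rw [h4, add_assoc] at h3
  rw [eq_neg_of_add_eq_zero_left h3.symm]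
  abel

theorem VarAt.cov_cov (hg : IsRiemannianOn g U) (hc : c t ∈ U) (hgeo : GeoAt g c t)
    (hJ : VarAt g c J t) :
    cov g c (cov g c J) t = -Rm g (c t) (J t) (deriv c t) (deriv c t) := by
  refine eq_neg_of_add_eq_zero_left ?_
  rw [cov_cov_add_Rm hg hc hgeo hJ.1.self_of_nhds hJ.2]
  abel

theorem GeoAt.cov_eq_zero (h : GeoAt g c t) : cov g c (deriv c) t = 0 := by
  rw [cov, h.2.deriv, neg_add_cancel]

/-- `(g(J,K))' = g(DJ,K) + g(J,DK)`. -/
theorem hasDerivAt_bil (hg : IsRiemannianOn g U) (hc : c t ∈ U) (hc' : DifferentiableAt ℝ c t)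
    (hJ : DifferentiableAt ℝ J t) (hK : DifferentiableAt ℝ K t) :
    HasDerivAt (fun s => bil g (c s) (J s) (K s))
      (bil g (c t) (cov g c J t) (K t) + bil g (c t) (J t) (cov g c K t)) t := by
  refine (((hasDerivAt_along (contDiffAt_bil hg hc) hc'.hasDerivAt).clm_apply
    hJ.hasDerivAt).clm_apply hK.hasDerivAt).congr_deriv ?_
  simp only [cov, _root_.add_apply, map_add, fderiv_bil_eq hg hc]
  ring

/-- `(g(J,DJ))' = g(DJ,DJ) - ⟨R(J,c')c',J⟩` for a Jacobi field. -/
theorem hasDerivAt_bil_cov (hg : IsRiemannianOn g U) (hc : c t ∈ U) (hgeo : GeoAt g c t)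
    (hJ : VarAt g c J t) :
    HasDerivAt (fun s => bil g (c s) (J s) (cov g c J s))
      (bil g (c t) (cov g c J t) (cov g c J t) - secNumer g (c t) (J t) (deriv c t)) t := by
  refine (hasDerivAt_bil hg hc hgeo.1.self_of_nhds hJ.1.self_of_nhds
    (hasDerivAt_cov hg hc hgeo hJ.1.self_of_nhds hJ.2).differentiableAt).congr_deriv ?_
  rw [hJ.cov_cov hg hc hgeo, map_neg, secNumer_eq hg hc, bil_symm hg hc (J t), sub_eq_add_neg]
  rfl

/-- Differentiating `g_y(Γ_y(a, b), w)` in `y`. -/
theorem hasDerivAt_bil_Gam (hg : IsRiemannianOn g U) (hc : c t ∈ U) {u : E n}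
    (hc' : HasDerivAt c u t) (a b w : E n) :
    HasDerivAt (fun s => bil g (c s) (Gam g (c s) a b) w)
      (fderiv ℝ (bil g) (c t) u (Gam g (c t) a b) w
        + bil g (c t) (fderiv ℝ (Gam g) (c t) u a b) w) t := by
  have h1 := ((hasDerivAt_along (contDiffAt_Gam hg hc) hc').clm_apply
    (hasDerivAt_const t a)).clm_apply (hasDerivAt_const t b)
  refine (((hasDerivAt_along (contDiffAt_bil hg hc) hc').clm_apply h1).clm_apply
    (hasDerivAt_const t w)).congr_deriv ?_
  simp

/-- Differentiating `Dg_y[w](a, b)` in `y`. -/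
theorem hasDerivAt_fderiv_bil (hg : IsRiemannianOn g U) (hc : c t ∈ U) {u : E n}
    (hc' : HasDerivAt c u t) (w a b : E n) :
    HasDerivAt (fun s => fderiv ℝ (bil g) (c s) w a b)
      (fderiv ℝ (fderiv ℝ (bil g)) (c t) u w a b) t := by
  refine (((hasDerivAt_fderiv_along (contDiffAt_bil hg hc) hc' (hasDerivAt_const t w)).clm_apply
    (hasDerivAt_const t a)).clm_apply (hasDerivAt_const t b)).congr_deriv ?_
  simp

/-- The derivative of the Koszul formula. -/
theorem koszul_deriv (hg : IsRiemannianOn g U) (hx : x ∈ U) (u a b w : E n) :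
    2 * (fderiv ℝ (bil g) x u (Gam g x a b) w + bil g x (fderiv ℝ (Gam g) x u a b) w) =
      fderiv ℝ (fderiv ℝ (bil g)) x u a b w + fderiv ℝ (fderiv ℝ (bil g)) x u b a w
        - fderiv ℝ (fderiv ℝ (bil g)) x u w a b := by
  obtain ⟨l, rfl, hl⟩ := exists_line x u
  refine ((hasDerivAt_bil_Gam hg hx hl a b w).const_mul 2).unique
    ((((hasDerivAt_fderiv_bil hg hx hl a b w).add (hasDerivAt_fderiv_bil hg hx hl b a w)).sub
      (hasDerivAt_fderiv_bil hg hx hl w a b)).congr_of_eventuallyEq ?_)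
  filter_upwards [hl.continuousAt.preimage_mem_nhds (hg.isOpen.mem_nhds hx)] with s hs
  exact koszul hg hs a b w

theorem fderiv_fderiv_bil_symm (hg : IsRiemannianOn g U) (hx : x ∈ U) (u w a b : E n) :
    fderiv ℝ (fderiv ℝ (bil g)) x u w a b = fderiv ℝ (fderiv ℝ (bil g)) x u w b a := by
  obtain ⟨l, rfl, hl⟩ := exists_line x u
  refine (hasDerivAt_fderiv_bil hg hx hl w a b).unique
    ((hasDerivAt_fderiv_bil hg hx hl w b a).congr_of_eventuallyEq ?_)
  filter_upwards [hl.continuousAt.preimage_mem_nhds (hg.isOpen.mem_nhds hx)] with s hs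
  exact fderiv_bil_symm hg hs w a b

/-- `g(R(u,w)v, v) = 0`. -/
theorem bil_Rm_self (hg : IsRiemannianOn g U) (hx : x ∈ U) (u w v : E n) :
    bil g x (Rm g x u w v) v = 0 := by
  have h1 := koszul_deriv hg hx u w v v
  have h2 := koszul_deriv hg hx w u v v
  rw [fderiv_bil_eq hg hx] at h1 h2
  rw [fderiv_fderiv_bil_symm hg hx u v w v] at h1
  rw [fderiv_fderiv_bil_symm hg hx w v u v, fderiv_fderiv_symm (contDiffAt_bil hg hx) w u,
    bil_symm hg hx (Gam g x u v)] at h2
  simp only [Rm, map_sub, map_add, _root_.sub_apply, _root_.add_apply]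
  linarith

/-- `(g(c',DJ))' = 0` for a Jacobi field (the heart of the Gauss lemma). -/
theorem hasDerivAt_bil_vel_cov (hg : IsRiemannianOn g U) (hc : c t ∈ U) (hgeo : GeoAt g c t)
    (hJ : VarAt g c J t) :
    HasDerivAt (fun s => bil g (c s) (deriv c s) (cov g c J s)) 0 t := by
  refine (hasDerivAt_bil hg hc hgeo.1.self_of_nhds hgeo.2.differentiableAt
    (hasDerivAt_cov hg hc hgeo hJ.1.self_of_nhds hJ.2).differentiableAt).congr_deriv ?_
  rw [hgeo.cov_eq_zero, hJ.cov_cov hg hc hgeo, map_neg, bil_symm hg hc (deriv c t),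
    bil_Rm_self hg hc]
  simp

/-- Euler–Lagrange form of the geodesic equation. -/
theorem GeoAt.euler_lagrange (hg : IsRiemannianOn g U) (hc : c t ∈ U) (hgeo : GeoAt g c t)
    (w : E n) :
    HasDerivAt (fun s => bil g (c s) (deriv c s) w)
      (1 / 2 * fderiv ℝ (bil g) (c t) w (deriv c t) (deriv c t)) t := by
  refine (((hasDerivAt_along (contDiffAt_bil hg hc) hgeo.hasDerivAt).clm_apply
    hgeo.2).clm_apply (hasDerivAt_const t w)).congr_deriv ?_
  have h := koszul hg hc (deriv c t) (deriv c t) w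
  simp only [_root_.add_apply, map_neg, _root_.neg_apply, map_zero]
  linarith

/-- Linearised Euler–Lagrange equation. -/
theorem VarAt.euler_lagrange (hg : IsRiemannianOn g U) (hc : c t ∈ U) (hgeo : GeoAt g c t)
    (hJ : VarAt g c J t) (w : E n) :
    HasDerivAt
      (fun s => bil g (c s) (deriv J s) w + fderiv ℝ (bil g) (c s) (J s) (deriv c s) w)
      (fderiv ℝ (bil g) (c t) w (deriv c t) (deriv J t)
        + 1 / 2 * fderiv ℝ (fun y => fderiv ℝ (bil g) y w (deriv c t) (deriv c t)) (c t) (J t)) t := by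
  have hB := contDiffAt_bil hg hc
  refine ((((hasDerivAt_along hB hgeo.hasDerivAt).clm_apply hJ.2).clm_apply
    (hasDerivAt_const t w)).add ((((hasDerivAt_fderiv_along hB hgeo.hasDerivAt
      hJ.1.self_of_nhds.hasDerivAt).clm_apply hgeo.2).clm_apply
        (hasDerivAt_const t w)))).congr_deriv ?_
  have e : fderiv ℝ (fun y => fderiv ℝ (bil g) y w (deriv c t) (deriv c t)) (c t) (J t) =
      fderiv ℝ (fderiv ℝ (bil g)) (c t) (J t) w (deriv c t) (deriv c t) :=
    fderiv_fderiv_app hB ((ContinuousLinearMap.apply ℝ ℝ (deriv c t)).comp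
      (ContinuousLinearMap.apply ℝ (E n →L[ℝ] ℝ) (deriv c t))) w (J t)
  have h1 := koszul hg hc (deriv c t) (deriv J t) w
  have h2 := koszul_deriv hg hc (J t) (deriv c t) (deriv c t) w
  rw [e, fderiv_fderiv_symm hB (deriv c t) (J t)]
  simp only [_root_.add_apply, map_neg, _root_.neg_apply, map_zero,
    map_sub, _root_.sub_apply, map_smul, _root_.smul_apply, smul_eq_mul]
  linarith

end Crest.Agent.R244
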