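import Crest.Agent.R244.Deck

/-! Row 244: the universal cover of a compact non-positively curved manifold is a CN space on
which the deck group acts by semisimple isometries. -/

set_option autoImplicit false
set_option maxSynthPendingDepth 3
open Set Filter Topology
open scoped ContDiff
open Crest.GeometryTopology.CoordMetric Crest.GeometryTopology.ChartCurvature
open Crest.GeometryTopology.Geodesic

noncomputable section
namespace Crest.Agent.R244

section

variable {n : ℕ} {M : Type} [TopologicalSpace M]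

theorem NPCExp.dist_le (X : NPCExp n M) {π : E n → M} {φ : E n → E n ≃ₜ E n}
    (φ0 : ∀ x, φ x 0 = x) (φπ : ∀ x v, π (φ x v) = X.exp (π x) v) (m y z : E n) :
    ‖(φ m).symm y - (φ m).symm z‖ ≤ ‖(φ y).symm z‖ := by
  have h := X.lift_le (π m) (π y) ((φ y).symm z)
    (fun t => (φ m).symm (φ y (t • (φ y).symm z))) (by fun_prop) fun t _ => by
      rw [← φπ, Homeomorph.apply_symm_apply, φπ]
  rwa [one_smul, zero_smul, φ0, Homeomorph.apply_symm_apply, norm_sub_rev] at h

theorem NPCExp.cnSpace (X : NPCExp n M) {π : E n → M} (hπ : IsCoveringMap π)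
    {φ : E n → E n ≃ₜ E n} (φ0 : ∀ x, φ x 0 = x) (φπ : ∀ x v, π (φ x v) = X.exp (π x) v) :
    CNSpace (E n) fun x y => ‖(φ x).symm y‖ := by
  have K := X.dist_le φ0 φπ
  have h0 : ∀ x, (φ x).symm x = 0 := fun x => (φ x).symm_apply_eq.2 (φ0 x).symm
  have h1 : ∀ y z, ‖(φ z).symm y‖ ≤ ‖(φ y).symm z‖ := fun y z => by
    simpa only [h0, sub_zero] using K z y z
  refine ⟨fun x => by rw [h0, norm_zero], fun x y h => ?_, fun x y => (h1 y x).antisymm (h1 x y),
    fun x y z => ?_, fun x y => ?_⟩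
  · rw [← φ0 x, ← norm_eq_zero.1 h, Homeomorph.apply_symm_apply]
  · linarith [K x y z, norm_le_insert ((φ x).symm y) ((φ x).symm z)]
  obtain ⟨v, rfl⟩ := (φ x).surjective y
  obtain ⟨w, hw, hr⟩ := X.rebase (π x) v (1 / 2)
  refine ⟨φ x ((1 / 2 : ℝ) • v), fun z => ?_⟩
  have h2 : (fun t : ℝ => φ (φ x ((1 / 2 : ℝ) • v)) (t • w)) = fun t => φ x ((1 / 2 + t) • v) :=
    hπ.eq_of_comp_eq (by fun_prop) (by fun_prop)
      (funext fun t => by simp only [Function.comp_apply, φπ, hr]) 0 (by simp [φ0])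
  generalize φ x ((1 / 2 : ℝ) • v) = m at h2 ⊢
  have h3 : (φ m).symm x = -((1 / 2 : ℝ) • w) := by
    have := congrFun h2 (-(1 / 2))
    rw [add_neg_cancel, zero_smul, φ0, neg_smul] at this
    exact (φ m).symm_apply_eq.2 this.symm
  have h4 : (φ m).symm (φ x v) = (1 / 2 : ℝ) • w := by
    have := congrFun h2 (1 / 2)
    rw [add_halves, one_smul] at this
    exact (φ m).symm_apply_eq.2 this.symm
  have h5 := K m z x
  have h6 := K m z (φ x v)
  rw [h3, sub_neg_eq_add] at h5
  rw [h4] at h6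
  have h7 := parallelogram_law_with_norm ℝ ((φ m).symm z) ((1 / 2 : ℝ) • w)
  rw [norm_smul, hw, Real.norm_of_nonneg (by norm_num)] at h7
  rw [Homeomorph.symm_apply_apply, (h1 m z).antisymm (h1 z m)]
  nlinarith [pow_le_pow_left₀ (norm_nonneg _) h5 2, pow_le_pow_left₀ (norm_nonneg _) h6 2]

theorem exists_min_displacement [T2Space M] [CompactSpace M] {π : E n → M}
    (hπ : IsCoveringMap π) (hs : Function.Surjective π) {d : E n → E n → ℝ} (hd : CNSpace (E n) d)
    (hc : ∀ x, Continuous (d x)) (hb : ∀ C, IsCompact {y | d 0 y ≤ C})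
    (iso : ∀ (F : deck π) x y, d (F • x) (F • y) = d x y) (F : deck π) :
    ∃ x, ∀ y, d x (F • x) ≤ d y (F • y) := by
  have hf : Continuous fun y => d y (F • y) := by
    have key : ∀ a b, d b (F • b) ≤ d a (F • a) + 2 * d a b := fun a b => by
      linarith [hd.tri b a (F • b), hd.tri a (F • a) (F • b), iso F a b, hd.symm a b]
    refine continuous_iff_continuousAt.2 fun a => ?_
    have h1 : Tendsto (fun b => 2 * d a b) (𝓝 a) (𝓝 0) := by
      simpa only [hd.self, mul_zero] using ((hc a).tendsto a).const_mul 2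
    refine tendsto_of_tendsto_of_tendsto_of_le_of_le
      (by simpa only [sub_zero] using h1.const_sub (d a (F • a)))
      (by simpa only [add_zero] using h1.const_add (d a (F • a))) (fun b => ?_) fun b => key a b
    linarith [key b a, hd.symm a b]
  obtain ⟨R, hR⟩ := isCompact_univ.elim_directed_cover (fun R : ℝ => π '' {y | d 0 y < R})
    (fun R => hπ.isOpenMap _ (isOpen_lt (hc 0) continuous_const))
    (fun m _ => by
      obtain ⟨y, rfl⟩ := hs m
      exact mem_iUnion.2 ⟨d 0 y + 1, y, lt_add_one (d 0 y), rfl⟩)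
    (Monotone.directed_le fun R R' h => image_mono fun y hy => lt_of_lt_of_le hy h)
  have hfin : {H : deck π | d 0 (H • (0 : E n)) ≤ d 0 (F • (0 : E n)) + 2 * R}.Finite := by
    have h1 : ({y | d 0 y ≤ d 0 (F • (0 : E n)) + 2 * R} ∩ π ⁻¹' {π 0}).Finite :=
      ((hb _).inter_right (isClosed_singleton.preimage hπ.continuous)).finite
        ((isDiscrete_iff_discreteTopology.2 (hπ _).discreteTopology_fiber).mono inter_subset_right)
    refine Finite.of_injOn (f := fun H : deck π => H • (0 : E n)) (fun H hH => ?_)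
      (fun H _ H' _ h => deck_ext hπ h) h1
    exact ⟨hH, deck_apply H 0⟩
  have hg : ∀ H : deck π, ∃ G : deck π, (∃ G' : deck π, H = G'⁻¹ * F * G') → H = G⁻¹ * F * G :=
    fun H => by
      by_cases h : ∃ G' : deck π, H = G'⁻¹ * F * G'
      · exact h.imp fun _ h' _ => h'
      · exact ⟨1, fun h' => absurd h' h⟩
  choose g hg using hg
  obtain ⟨x, -, hx⟩ := ((hfin.isCompact_biUnion fun H _ =>
    (hb R).image (deck_continuous (g H))).insert 0).exists_isMinOn (insert_nonempty _ _)
      hf.continuousOn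
  refine ⟨x, fun y => ?_⟩
  obtain ⟨k, hk, hky⟩ := hR (mem_univ (π y))
  obtain ⟨G, rfl⟩ := deck_trans hπ hky
  have e : ∀ G : deck π, d (G • k) (F • G • k) = d k ((G⁻¹ * F * G) • k) := fun G => by
    rw [← iso G k, mul_smul, mul_smul, smul_inv_smul]
  rcases le_total (d 0 (F • (0 : E n))) (d (G • k) (F • G • k)) with h | h
  · exact le_trans (hx (mem_insert _ _)) h
  have h2 : d 0 k < R := hk
  have h1 : d 0 ((G⁻¹ * F * G) • (0 : E n)) ≤ d 0 (F • (0 : E n)) + 2 * R := by
    linarith [e G, hd.tri 0 k ((G⁻¹ * F * G) • (0 : E n)),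
      hd.tri k ((G⁻¹ * F * G) • k) ((G⁻¹ * F * G) • (0 : E n)), iso (G⁻¹ * F * G) k 0, hd.symm k 0]
  refine le_trans (hx (mem_insert_of_mem _ (mem_biUnion h1 ⟨k, h2.le, rfl⟩))) (le_of_eq ?_)
  simp only [e]
  rw [← hg _ ⟨G, rfl⟩]

end

theorem NPCExp.exists_cn {n : ℕ} {M : Type} [TopologicalSpace M] [T2Space M] [CompactSpace M]
    (X : NPCExp n M) (p : M) :
    ∃ d : E n → E n → ℝ, CNSpace (E n) d ∧
      (∀ (F : deck (X.exp p)) x y, d (F • x) (F • y) = d x y) ∧
      ∀ F : deck (X.exp p), ∃ x, ∀ y, d x (F • x) ≤ d y (F • y) := by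
  have hπ := X.cover p
  choose φ φ0 φπ using fun x => exists_homeo (X.cover (X.exp p x)) hπ (X.zero (X.exp p x))
  have hd := X.cnSpace hπ φ0 φπ
  have iso : ∀ (F : deck (X.exp p)) x y, ‖(φ (F • x)).symm (F • y)‖ = ‖(φ x).symm y‖ := by
    intro F x y
    have h1 : ⇑(φ (F • x)) = fun v => F • φ x v :=
      hπ.eq_of_comp_eq (φ _).continuous ((deck_continuous F).comp (φ x).continuous)
        (funext fun v => by simp only [Function.comp_apply, φπ, deck_apply]) 0 (by simp only [φ0])
    rw [show (φ (F • x)).symm (F • y) = (φ x).symm y from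
      (φ (F • x)).symm_apply_eq.2 (by simp [h1])]
  refine ⟨_, hd, iso, exists_min_displacement hπ (X.surj p) hd (fun x => by fun_prop)
    (fun C => ?_) iso⟩
  simpa only [Metric.closedBall, dist_zero_right, preimage_ofPred_eq] using
    (φ 0).symm.isCompact_preimage.2 (isCompact_closedBall 0 C)

end Crest.Agent.R244
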