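import Crest.Agent.R244.Defs

/-! Row 244: the obstruction for groups acting by semisimple isometries on CN spaces. -/

set_option autoImplicit false
open Filter Topology

namespace Crest.Agent.R244

theorem CNSpace.nonneg {X : Type} {d : X → X → ℝ} (h : CNSpace X d) (x y : X) : 0 ≤ d x y := by
  linarith [h.tri x y x, h.self x, h.symm y x]

/-- The quadrilateral inequality. -/
theorem CNSpace.quad {X : Type} {d : X → X → ℝ} (h : CNSpace X d) (p q r s : X) :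
    d p r ^ 2 + d q s ^ 2 ≤ d p q ^ 2 + d q r ^ 2 + d r s ^ 2 + d s p ^ 2 := by
  obtain ⟨m, hm⟩ := h.cn p r
  have h1 := pow_le_pow_left₀ (h.nonneg q s) (h.tri q m s) 2
  have h2 := hm q
  have h3 := hm s
  rw [h.symm q p] at h2
  rw [h.symm s r, h.symm s m] at h3
  nlinarith [sq_nonneg (d q m - d m s)]

theorem nonpos_of_two_pow {a C : ℝ} (h : ∀ k : ℕ, a * 2 ^ k ≤ C) : a ≤ 0 := by
  by_contra ha
  rw [not_le] at ha
  obtain ⟨k, hk⟩ := pow_unbounded_of_one_lt (C / a) (one_lt_two (α := ℝ))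
  rw [div_lt_iff₀' ha] at hk
  exact hk.not_ge (h k)

theorem CNSpace.exists_fixed {X Γ : Type} [Group Γ] [MulAction Γ X] {d : X → X → ℝ}
    (h : CNSpace X d) (iso : ∀ (f : Γ) x y, d (f • x) (f • y) = d x y)
    (ss : ∀ f : Γ, ∃ x, ∀ y, d x (f • x) ≤ d y (f • y)) {f₁ f₂ a₁ b₁ a₂ b₂ : Γ}
    (h₁₂ : Commute f₁ f₂) (ha₁ : Commute f₁ a₁) (hb₁ : Commute f₁ b₁)
    (ha₂ : Commute f₂ a₂) (hb₂ : Commute f₂ b₂)
    (r₁ : f₂ = a₁ * b₁ * a₁⁻¹ * b₁⁻¹) (r₂ : f₁ * f₂ = a₂ * b₂ * a₂⁻¹ * b₂⁻¹) :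
    ∃ x : X, f₂ • x = x := by
  choose p hp using ss
  obtain ⟨τ, hτ⟩ : ∃ τ : Γ → ℝ, ∀ f, τ f = d (p f) (f • p f) := ⟨_, fun _ => rfl⟩
  have le : ∀ (f : Γ) y, τ f ≤ d y (f • y) := fun f y => hτ f ▸ hp f y
  have nn : ∀ f, 0 ≤ τ f := fun f => hτ f ▸ h.nonneg _ _
  have sq_le : ∀ (f : Γ) y, τ f ^ 2 ≤ d y (f • y) ^ 2 := fun f y =>
    pow_le_pow_left₀ (nn f) (le f y) 2
  have mv : ∀ (f g : Γ) y, d (f • y) (g • y) = d y ((f⁻¹ * g) • y) := fun f g y => by
    rw [← iso f⁻¹, inv_smul_smul, mul_smul]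
  have inv : ∀ f, τ f⁻¹ = τ f := by
    have : ∀ f, τ f⁻¹ ≤ τ f := fun f => (le f⁻¹ (p f)).trans_eq (by
      rw [← iso f, smul_inv_smul, h.symm, hτ])
    exact fun f => le_antisymm (this f) (by simpa using this f⁻¹)
  have up : ∀ (f : Γ) (n : ℕ), d (p f) (f ^ n • p f) ≤ n * τ f := fun f n => by
    induction n with
    | zero => simp [h.self]
    | succ n ih =>
      have := h.tri (p f) (f ^ n • p f) (f ^ (n + 1) • p f)
      rw [pow_succ, mul_smul, iso, ← hτ] at this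
      rw [pow_succ, mul_smul]
      push_cast
      linarith
  have dbl : ∀ f, 2 * τ f ≤ τ (f * f) := fun f => by
    obtain ⟨m, hm⟩ := h.cn (p (f * f)) (f • p (f * f))
    have h1 := hm (f • m)
    have h2 := hm (p (f * f))
    have h3 := hm (f⁻¹ • p (f * f))
    have h4 := sq_le f m
    rw [iso, h.symm _ m, h.symm m (p _)] at h1
    rw [h.self] at h2
    rw [mv, inv_inv, ← hτ, ← iso f _ (p (f * f)), ← iso f _ m, smul_inv_smul,
      h.symm _ (f • m)] at h3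
    exact le_of_sq_le_sq (by nlinarith) (nn _)
  have low : ∀ (f : Γ) (k : ℕ), 2 ^ k * τ f ≤ τ (f ^ 2 ^ k) := fun f k => by
    induction k with
    | zero => simp
    | succ k ih =>
      rw [pow_succ 2 k, pow_succ 2 k, pow_mul, sq]
      linarith [dbl (f ^ 2 ^ k)]
  have par : ∀ f g, Commute f g → τ (f * g) ^ 2 + τ (f⁻¹ * g) ^ 2 ≤ 2 * τ f ^ 2 + 2 * τ g ^ 2 := by
    intro f g hc
    have hD := h.nonneg (p g) (p f)
    refine sub_nonpos.1 (nonpos_of_two_pow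
      (C := 8 * τ f * d (p g) (p f) + 8 * d (p g) (p f) ^ 2) fun k => ?_)
    have h1 := h.quad (p g) (f ^ 2 ^ k • p g) ((f * g) ^ 2 ^ k • p g) (g ^ 2 ^ k • p g)
    have h2 := pow_le_pow_left₀ (mul_nonneg (by positivity) (nn _))
      ((low (f * g) k).trans (le _ (p g))) 2
    have h3 := pow_le_pow_left₀ (mul_nonneg (by positivity) (nn _))
      ((low (f⁻¹ * g) k).trans (le _ (p g))) 2
    have h4 := pow_le_pow_left₀ (h.nonneg _ _) (up g (2 ^ k)) 2
    have h5 : d (p g) (f ^ 2 ^ k • p g) ≤ 2 ^ k * τ f + 2 * d (p g) (p f) := by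
      have h6 := up f (2 ^ k)
      have h7 := h.tri (p g) (p f) (f ^ 2 ^ k • p g)
      have h8 := h.tri (p f) (f ^ 2 ^ k • p f) (f ^ 2 ^ k • p g)
      rw [iso, h.symm (p f) (p g)] at h8
      push_cast at h6
      linarith
    have h6 := pow_le_pow_left₀ (h.nonneg _ _) h5 2
    have e1 : d (f ^ 2 ^ k • p g) ((f * g) ^ 2 ^ k • p g) = d (p g) (g ^ 2 ^ k • p g) := by
      rw [hc.mul_pow, mul_smul, iso]
    have e2 : d ((f * g) ^ 2 ^ k • p g) (g ^ 2 ^ k • p g) = d (p g) (f ^ 2 ^ k • p g) := by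
      rw [hc.eq, hc.symm.mul_pow, mul_smul, iso, h.symm]
    rw [e1, e2, h.symm _ (p g), mv, ← inv_pow, ← hc.inv_left.mul_pow] at h1
    have h7 : (1 : ℝ) ≤ 2 ^ k := one_le_pow₀ one_le_two
    push_cast at h4
    generalize (2 : ℝ) ^ k = N at *
    refine le_of_mul_le_mul_left ?_ (show 0 < N by linarith)
    nlinarith [mul_le_mul_of_nonneg_left h7 (sq_nonneg (d (p g) (p f)))]
  have par' : ∀ f g, Commute f g → τ (f * g) ^ 2 + τ (f⁻¹ * g) ^ 2 = 2 * τ f ^ 2 + 2 * τ g ^ 2 := by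
    intro f g hc
    have h1 := par (f * g) (f⁻¹ * g) (((Commute.refl f).inv_right.mul_right hc).mul_left
      (hc.symm.inv_right.mul_right (.refl g)))
    have h2 : f * g * (f⁻¹ * g) = g * g := by rw [hc.eq]; group
    have h3 : (f * g)⁻¹ * (f⁻¹ * g) = f⁻¹ * f⁻¹ := by rw [hc.inv_left.eq, hc.eq, hc.inv_left.eq.symm,
      mul_inv_rev, mul_assoc, ← mul_assoc g⁻¹, ← hc.inv_left.inv_right.eq, mul_assoc,
      inv_mul_cancel, mul_one]
    rw [h2, h3] at h1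
    have h4 := pow_le_pow_left₀ (mul_nonneg zero_le_two (nn _)) (dbl g) 2
    have h5 := pow_le_pow_left₀ (mul_nonneg zero_le_two (nn _)) (dbl f⁻¹) 2
    rw [inv] at h5
    linarith [par f g hc]
  obtain ⟨B, hB⟩ : ∃ B : Γ → Γ → ℝ, ∀ f g, B f g = τ (f * g) ^ 2 - τ f ^ 2 - τ g ^ 2 :=
    ⟨_, fun _ _ => rfl⟩
  have Binv : ∀ f g, Commute f g → B f g⁻¹ = -B f g := fun f g hc => by
    have h1 := par' f g hc
    rw [← inv (f⁻¹ * g), mul_inv_rev, inv_inv, ← hc.inv_right.eq] at h1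
    rw [hB, hB, inv]
    linarith
  have qf : ∀ f g, Commute f g → ∀ n : ℕ,
      τ (f ^ n * g) ^ 2 = n ^ 2 * τ f ^ 2 + n * B f g + τ g ^ 2 := fun f g hc n => by
    induction n using Nat.twoStepInduction with
    | zero => simp
    | one => rw [hB, pow_one]; ring
    | more n ih1 ih2 =>
      have h1 := par' f (f ^ (n + 1) * g) (((Commute.refl f).pow_right _).mul_right hc)
      rw [← mul_assoc, ← pow_succ', ih2, pow_succ' f n, mul_assoc, inv_mul_cancel_left, ih1] at h1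
      push_cast at h1 ⊢
      linarith
  have ub : ∀ f g, Commute f g → ∀ n : ℕ, d (p f) ((f ^ n * g) • p f) ^ 2 ≤
      n ^ 2 * τ f ^ 2 + n * B f g + 2 * d (p f) (g • p f) ^ 2 := fun f g hc n => by
    have h1 := h.quad (p f) (g • p f) ((f ^ n * g) • p f) (f ^ n • p f)
    have h2 := sq_le (f ^ n * g⁻¹) (p f)
    have h3 := pow_le_pow_left₀ (h.nonneg _ _) (up f n) 2
    have e1 : d (g • p f) ((f ^ n * g) • p f) = d (p f) (f ^ n • p f) := by
      rw [(hc.pow_left n).eq, mul_smul, iso]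
    have e2 : d ((f ^ n * g) • p f) (f ^ n • p f) = d (p f) (g • p f) := by
      rw [mul_smul, iso, h.symm]
    rw [e1, e2, h.symm _ (p f), mv, ← (hc.pow_left n).inv_right.eq] at h1
    rw [qf f _ hc.inv_right, Binv f g hc] at h2
    nlinarith [sq_nonneg (τ g⁻¹)]
  have sub : ∀ f g g', Commute f g → Commute f g' → B f (g * g') ≤ B f g + B f g' := by
    intro f g g' hc hc'
    refine sub_nonpos.1 (nonpos_of_two_pow
      (C := 2 * d (p f) (g • p f) ^ 2 + 2 * d (p f) (g' • p f) ^ 2) fun k => ?_)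
    have h1 := ub f g hc (2 ^ k)
    have h2 := ub f g' hc' (2 ^ k)
    have h3 := sq_le (f ^ (2 ^ k + 2 ^ k) * (g * g')) (p f)
    have h4 := h.tri (p f) ((f ^ 2 ^ k * g) • p f) ((f ^ 2 ^ k * g) • (f ^ 2 ^ k * g') • p f)
    have e1 : f ^ 2 ^ k * g * (f ^ 2 ^ k * g') = f ^ (2 ^ k + 2 ^ k) * (g * g') := by
      rw [pow_add, mul_assoc, ← mul_assoc g, ← (hc.pow_left _).eq, mul_assoc, mul_assoc]
    rw [iso, ← mul_smul, e1] at h4
    have h5 := pow_le_pow_left₀ (h.nonneg _ _) h4 2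
    rw [qf f _ (hc.mul_right hc')] at h3
    push_cast at h1 h2 h3
    nlinarith [sq_nonneg (τ (g * g')),
      sq_nonneg (d (p f) ((f ^ 2 ^ k * g) • p f) - d (p f) ((f ^ 2 ^ k * g') • p f))]
  have add : ∀ f g g', Commute f g → Commute f g' → B f (g * g') = B f g + B f g' := by
    intro f g g' hc hc'
    have h1 := sub f g'⁻¹ g⁻¹ hc'.inv_right hc.inv_right
    rw [← mul_inv_rev, Binv f _ (hc.mul_right hc'), Binv f g hc, Binv f g' hc'] at h1
    linarith [sub f g g' hc hc']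
  have com : ∀ f a b, Commute f a → Commute f b → B f (a * b * a⁻¹ * b⁻¹) = 0 := by
    intro f a b ha hb
    rw [add _ _ _ ((ha.mul_right hb).mul_right ha.inv_right) hb.inv_right,
      add _ _ _ (ha.mul_right hb) ha.inv_right, add _ _ _ ha hb, Binv f a ha, Binv f b hb]
    ring
  have h1 := com f₁ a₁ b₁ ha₁ hb₁
  have h2 := com f₂ a₂ b₂ ha₂ hb₂
  rw [← r₁, hB] at h1
  rw [← r₂, add _ _ _ h₁₂.symm (.refl _), hB, hB, ← h₁₂.eq] at h2
  have h3 := pow_le_pow_left₀ (mul_nonneg zero_le_two (nn _)) (dbl f₂) 2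
  have h4 : τ f₂ = 0 := pow_eq_zero_iff two_ne_zero |>.1 (le_antisymm (by nlinarith) (sq_nonneg _))
  exact ⟨p f₂, (h.eq_of _ _ ((hτ f₂).symm.trans h4)).symm⟩

end Crest.Agent.R244
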