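import Crest.Agent.R244.CalcA

/-! Row 244: a local diffeomorphism `ℝⁿ → M` satisfying the Gauss lemma is a covering map. -/

set_option autoImplicit false
set_option maxSynthPendingDepth 3
open Set Filter Topology
open scoped ContDiff
open Crest.GeometryTopology.CoordMetric Crest.GeometryTopology.ChartCurvature
open Crest.GeometryTopology.Geodesic

noncomputable section
namespace Crest.Agent.R244

namespace CoverAux

variable {X M : Type} [TopologicalSpace M]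

/-- `c` lifts `σ` on `[0, T]`, starting from `x`. -/
def Lift [TopologicalSpace X] (p : X → M) (σ : ℝ → M) (x : X) (T : ℝ) (c : ℝ → X) : Prop :=
  ContinuousOn c (Icc 0 T) ∧ c 0 = x ∧ ∀ t ∈ Icc (0 : ℝ) T, p (c t) = σ t

theorem Lift.extend [TopologicalSpace X] {p : X → M} {σ : ℝ → M} {x : X} {T T' : ℝ} {c : ℝ → X}
    (h : Lift p σ x T c) (h0 : 0 ≤ T) (hT : T ≤ T') (e : OpenPartialHomeomorph X M) (he : p = e)
    (hc : c T ∈ e.source) (hσ : ContinuousOn σ (Icc T T')) (hm : ∀ t ∈ Icc T T', σ t ∈ e.target) :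
    ∃ c', Lift p σ x T' c' := by
  classical
  refine ⟨fun t => if t ≤ T then c t else e.symm (σ t), ?_, by simp [h0, h.2.1], fun t ht => ?_⟩
  · rw [← Icc_union_Icc_eq_Icc h0 hT]
    refine ContinuousOn.union_of_isClosed (h.1.congr fun t ht => if_pos ht.2) ?_ isClosed_Icc
      isClosed_Icc
    refine (e.continuousOn_symm.comp hσ hm).congr fun t ht => ?_
    by_cases htT : t ≤ T
    · obtain rfl : t = T := le_antisymm htT ht.1
      simp only [le_refl, if_true, Function.comp_apply]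
      rw [← h.2.2 t ⟨h0, le_rfl⟩, he, e.left_inv hc]
    · simp [htT]
  · by_cases htT : t ≤ T
    · simp only [htT, if_true]
      exact h.2.2 t ⟨ht.1, htT⟩
    · simp only [htT, if_false]
      rw [he, e.right_inv (hm t ⟨(not_le.1 htT).le, ht.2⟩)]

omit [TopologicalSpace M] in
theorem Lift.mono [TopologicalSpace X] {p : X → M} {σ : ℝ → M} {x : X} {T T' : ℝ} {c : ℝ → X}
    (h : Lift p σ x T c) (hT : T' ≤ T) : Lift p σ x T' c :=
  ⟨h.1.mono (Icc_subset_Icc_right hT), h.2.1, fun t ht => h.2.2 t ⟨ht.1, ht.2.trans hT⟩⟩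

theorem exists_window {σ : ℝ → M} (hσ : ContinuousOn σ (Icc 0 1)) {T : ℝ} (hT : T ∈ Icc (0 : ℝ) 1)
    {W : Set M} (hW : IsOpen W) (hm : σ T ∈ W) :
    ∃ δ > 0, ∀ t ∈ Icc (0 : ℝ) 1, |t - T| < δ → σ t ∈ W := by
  have := (hσ T hT).preimage_mem_nhdsWithin (hW.mem_nhds hm)
  obtain ⟨δ, hδ, h⟩ := Metric.mem_nhdsWithin_iff.1 this
  exact ⟨δ, hδ, fun t ht hd => h ⟨by simpa [Real.dist_eq] using hd, ht⟩⟩

theorem exists_lift [T2Space M] [NormedAddCommGroup X] [ProperSpace X] {p : X → M}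
    (hp : IsLocalHomeomorph p) {σ : ℝ → M} (hσ : ContinuousOn σ (Icc 0 1)) {x : X}
    (hx : p x = σ 0) {R : ℝ} (hR : ∀ T ∈ Icc (0 : ℝ) 1, ∀ c, Lift p σ x T c → ‖c T‖ ≤ R) :
    ∃ c, Lift p σ x 1 c := by
  let S : Set ℝ := {T | ∃ c, Lift p σ x T c}
  change (1 : ℝ) ∈ S
  refine IsClosed.mem_of_ge_of_forall_exists_gt (a := 0) ?_ ?_ zero_le_one ?_
  · refine isClosed_of_closure_subset fun T hT => ?_
    have hT1 : T ∈ Icc (0 : ℝ) 1 :=
      isClosed_Icc.closure_subset (closure_mono inter_subset_right hT)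
    refine ⟨?_, hT1⟩
    obtain ⟨u, hu, hlim⟩ := mem_closure_iff_seq_limit.1 hT
    choose c hc using fun k => (hu k).1
    obtain ⟨z, -, ψ, hψ, hz⟩ := (isCompact_closedBall (0 : X) R).tendsto_subseq
      (x := fun k => c k (u k)) fun k => by
        simpa using hR _ (hu k).2 _ (hc k)
    have hlim' : Tendsto (u ∘ ψ) atTop (𝓝 T) := hlim.comp hψ.tendsto_atTop
    have hpz : p z = σ T := by
      have h1 : Tendsto (fun k => p (c (ψ k) (u (ψ k)))) atTop (𝓝 (p z)) :=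
        (hp.continuous.tendsto z).comp hz
      have h2 : Tendsto (fun k => σ (u (ψ k))) atTop (𝓝 (σ T)) :=
        (hσ T hT1).tendsto.comp (tendsto_nhdsWithin_iff.2
          ⟨hlim', Eventually.of_forall fun k => (hu (ψ k)).2⟩)
      refine tendsto_nhds_unique h1 (h2.congr fun k => ?_)
      exact ((hc (ψ k)).2.2 _ ⟨(hu (ψ k)).2.1, le_rfl⟩).symm
    obtain ⟨e, hze, he⟩ := hp z
    obtain ⟨δ, hδ, hw⟩ := exists_window hσ hT1 e.open_target
      (by rw [← hpz, he]; exact e.map_source hze)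
    have ev1 : ∀ᶠ k in atTop, c (ψ k) (u (ψ k)) ∈ e.source := hz (e.open_source.mem_nhds hze)
    have ev2 : ∀ᶠ k in atTop, |u (ψ k) - T| < δ := by
      have := Metric.tendsto_nhds.1 hlim' δ hδ
      simpa [Real.dist_eq] using this
    obtain ⟨k, hk1, hk2⟩ := (ev1.and ev2).exists
    rcases le_total T (u (ψ k)) with h | h
    · exact ⟨_, (hc (ψ k)).mono h⟩
    · have h0 := (hu (ψ k)).2.1
      refine (hc (ψ k)).extend h0 h e he hk1 (hσ.mono (Icc_subset_Icc h0 hT1.2)) fun t ht => ?_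
      refine hw t ⟨h0.trans ht.1, ht.2.trans hT1.2⟩ ?_
      rw [abs_lt] at hk2 ⊢
      constructor <;> linarith [ht.1, ht.2]
  · refine ⟨fun _ => x, continuousOn_const, rfl, fun t ht => ?_⟩
    obtain rfl : t = 0 := le_antisymm ht.2 ht.1
    exact hx
  · rintro T ⟨⟨c, hc⟩, hT⟩
    obtain ⟨e, hze, he⟩ := hp (c T)
    obtain ⟨δ, hδ, hw⟩ := exists_window hσ ⟨hT.1, hT.2.le⟩ e.open_target
      (by rw [← hc.2.2 T ⟨hT.1, le_rfl⟩, he]; exact e.map_source hze)
    have hle : T < min 1 (T + δ / 2) := lt_min hT.2 (by linarith)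
    refine ⟨min 1 (T + δ / 2), hc.extend hT.1 hle.le e he hze
      (hσ.mono (Icc_subset_Icc hT.1 (min_le_left _ _))) fun t ht => ?_, hle, min_le_left _ _⟩
    refine hw t ⟨hT.1.trans ht.1, ht.2.trans (min_le_left _ _)⟩ ?_
    have := ht.2.trans (min_le_right _ _)
    rw [abs_lt]
    constructor <;> linarith [ht.1]

open unitInterval in
theorem evenly [TopologicalSpace X] [T2Space X] {p : X → M} (hp : IsLocalHomeomorph p) {U : Set M}
    (hU : IsOpen U) {m : M} (hm : m ∈ U) (s : I × U × U → M) (hs : Continuous s)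
    (s1 : ∀ a b, s (1, a, b) = b) (srev : ∀ t a b, s (σ t, a, b) = s (t, b, a))
    (hl : ∀ (x : X) (a b : U), p x = a → ∃ Γ : I → X, Continuous Γ ∧ Γ 0 = x ∧
      ∀ t, p (Γ t) = s (t, a, b)) : IsEvenlyCovered p m (p ⁻¹' {m}) := by
  have sep : IsSeparatedMap p := T2Space.isSeparatedMap p
  choose Γ hΓc hΓ0 hΓp using hl
  let G : I × (p ⁻¹' U) × U → X := fun z => Γ z.2.1 ⟨p z.2.1, z.2.1.2⟩ z.2.2 rfl z.1
  have hpc : Continuous fun x : p ⁻¹' U => (⟨p x, x.2⟩ : U) :=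
    (hp.continuous.comp continuous_subtype_val).subtype_mk _
  let f : C(I × (p ⁻¹' U) × U, M) :=
    ⟨fun z => s (z.1, ⟨p z.2.1, z.2.1.2⟩, z.2.2), hs.comp (continuous_fst.prodMk
      ((hpc.comp (continuous_fst.comp continuous_snd)).prodMk
        (continuous_snd.comp continuous_snd)))⟩
  have hGc : ∀ a, Continuous fun t => G (t, a) := fun a =>
    hΓc a.1 ⟨p a.1, a.1.2⟩ a.2 rfl
  have hG : Continuous G := by
    refine hp.continuous_lift sep f (funext fun z => hΓp _ _ _ _ _) ?_ hGc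
    simp only [G, hΓ0]
    exact continuous_subtype_val.comp continuous_fst
  have hpG : ∀ (x : p ⁻¹' U) (b : U), p (G (1, x, b)) = b := fun x b => by
    simp only [G, hΓp, s1]
  have hGU : ∀ (x : p ⁻¹' U) (b : U), G (1, x, b) ∈ p ⁻¹' U := fun x b => by
    rw [mem_preimage, hpG]; exact b.2
  have hback : ∀ (x : p ⁻¹' U) (a b : U), p x = a → G (1, ⟨G (1, x, b), hGU x b⟩, a) = x := by
    intro x a b ha
    have h1 : (fun t : I => G (t, ⟨G (1, x, b), hGU x b⟩, a)) = fun t : I => G (σ t, x, b) := by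
      refine sep.eq_of_comp_eq hp.isLocallyInjective (hGc _)
        ((hGc _).comp continuous_symm) (funext fun t => ?_) 0 ?_
      · simp only [Function.comp_apply, G, hΓp, srev]
        congr 2
        exact Prod.ext (Subtype.ext (s1 _ b)) (Subtype.ext ha.symm)
      · simp only [G, hΓ0, symm_zero]
    have := congrFun h1 1
    simp only [symm_one] at this
    rw [this]
    exact hΓ0 _ _ _ _
  have hsub : ∀ z : p ⁻¹' {m}, (z : X) ∈ p ⁻¹' U := fun z => by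
    rw [mem_preimage, (z.2 : p z = m)]; exact hm
  refine ⟨(IsDiscrete.of_openPartialHomeomorph p subset_rfl fun e _ => ?_).1, U, hm, hU,
    hU.preimage hp.continuous, ?_⟩
  · obtain ⟨φ, h1, h2⟩ := hp e
    exact ⟨φ, h1, h2.symm⟩
  refine ⟨{ toFun := fun x => (⟨p x, x.2⟩, ⟨G (1, x, ⟨m, hm⟩), hpG x ⟨m, hm⟩⟩)
            invFun := fun z => ⟨G (1, ⟨z.2, hsub z.2⟩, z.1), hGU _ _⟩
            left_inv := fun x => Subtype.ext (hback x ⟨p x, x.2⟩ ⟨m, hm⟩ rfl)
            right_inv := fun z => Prod.ext (Subtype.ext (hpG _ _))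
              (Subtype.ext (hback ⟨z.2, hsub z.2⟩ ⟨m, hm⟩ z.1 z.2.2))
            continuous_toFun := hpc.prodMk ((hG.comp (continuous_const.prodMk
              (continuous_id.prodMk continuous_const))).subtype_mk _)
            continuous_invFun := (hG.comp (continuous_const.prodMk
              (((continuous_subtype_val.comp continuous_snd).subtype_mk _).prodMk
                continuous_fst))).subtype_mk _ }, fun _ => rfl⟩

variable {n : ℕ}

theorem exists_equiv {D : E n →L[ℝ] E n} (h : Function.Injective D) :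
    ∃ L : E n ≃L[ℝ] E n, (L : E n →L[ℝ] E n) = D :=
  ⟨(LinearEquiv.ofInjectiveEndo (D : E n →ₗ[ℝ] E n) h).toContinuousLinearEquiv, by
    ext v; simp⟩

theorem isLocalHomeomorph (𝒜 : RAtlas n M) {p : E n → M} (hc : Continuous p)
    (hd : ∀ v i, p v ∈ (𝒜.φ i).source →
      HasStrictFDerivAt (𝒜.φ i ∘ p) (fderiv ℝ (𝒜.φ i ∘ p) v) v)
    (hinj : ∀ v i, p v ∈ (𝒜.φ i).source → Function.Injective (fderiv ℝ (𝒜.φ i ∘ p) v)) :
    IsLocalHomeomorph p := by
  refine IsLocalHomeomorph.mk p fun v => ?_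
  obtain ⟨i, hi⟩ := 𝒜.cover (p v)
  obtain ⟨L, hL⟩ := exists_equiv (hinj v i hi)
  have h := hd v i hi
  rw [← hL] at h
  refine ⟨((h.toOpenPartialHomeomorph _).restrOpen (p ⁻¹' (𝒜.φ i).source)
    ((𝒜.φ i).open_source.preimage hc)).trans (𝒜.φ i).symm, ?_, fun x hx => ?_⟩
  · exact ⟨⟨h.mem_toOpenPartialHomeomorph_source, hi⟩, (𝒜.φ i).map_source hi⟩
  · exact ((𝒜.φ i).left_inv hx.1.2).symm

theorem bound (𝒜 : RAtlas n M) {p : E n → M}
    (hd : ∀ v i, p v ∈ (𝒜.φ i).source →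
      HasStrictFDerivAt (𝒜.φ i ∘ p) (fderiv ℝ (𝒜.φ i ∘ p) v) v)
    (hinj : ∀ v i, p v ∈ (𝒜.φ i).source → Function.Injective (fderiv ℝ (𝒜.φ i ∘ p) v))
    (gauss : ∀ v w i, p v ∈ (𝒜.φ i).source →
      bil (𝒜.g i) (𝒜.φ i (p v)) (fderiv ℝ (𝒜.φ i ∘ p) v v) (fderiv ℝ (𝒜.φ i ∘ p) v w)
        = inner ℝ v w) (i : 𝒜.ι) (y d : E n) {C : ℝ} (hC : 0 ≤ C)
    (hy : ∀ t ∈ Icc (0 : ℝ) 1, y + t • d ∈ (𝒜.φ i).target ∧ bil (𝒜.g i) (y + t • d) d d ≤ C)
    (x : E n) (T : ℝ) (hT : T ∈ Icc (0 : ℝ) 1) (c : ℝ → E n)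
    (hc : Lift p (fun t => (𝒜.φ i).symm (y + t • d)) x T c) :
    ‖c T‖ ≤ Real.sqrt ((‖x‖ ^ 2 + C) * Real.exp 1) := by
  have hI : ∀ t ∈ Icc (0 : ℝ) T, t ∈ Icc (0 : ℝ) 1 := fun t ht => ⟨ht.1, ht.2.trans hT.2⟩
  have hsrc : ∀ t ∈ Icc (0 : ℝ) T, p (c t) ∈ (𝒜.φ i).source := fun t ht => by
    rw [hc.2.2 t ht]; exact (𝒜.φ i).map_target (hy t (hI t ht)).1
  have hq : ∀ t ∈ Icc (0 : ℝ) T, (𝒜.φ i ∘ p) (c t) = y + t • d := fun t ht => by
    rw [Function.comp_apply, hc.2.2 t ht, (𝒜.φ i).right_inv (hy t (hI t ht)).1]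
  have hder : ∀ t ∈ Ico (0 : ℝ) T, ∃ w, HasDerivWithinAt c w (Ici t) t ∧
      fderiv ℝ (𝒜.φ i ∘ p) (c t) w = d := by
    intro t ht
    have ht' : t ∈ Icc (0 : ℝ) T := ⟨ht.1, ht.2.le⟩
    obtain ⟨L, hL⟩ := exists_equiv (hinj (c t) i (hsrc t ht'))
    have h := hd (c t) i (hsrc t ht')
    rw [← hL] at h
    refine ⟨L.symm d, ?_, by rw [← hL]; simp⟩
    have h1 : HasDerivAt (fun s : ℝ => y + s • d) d t := by
      simpa using ((hasDerivAt_id t).smul_const d).const_add y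
    have h2 := h.to_localInverse.hasFDerivAt
    rw [hq t ht'] at h2
    have h3 := (h2.comp_hasDerivAt t h1).hasDerivWithinAt (s := Ici t)
    have hn : Icc t T ∈ 𝓝[Ici t] t := Icc_mem_nhdsGE ht.2
    have h4 : Tendsto c (𝓝[Ici t] t) (𝓝 (c t)) :=
      (hc.1 t ht').mono_of_mem_nhdsWithin
        (mem_of_superset hn (Icc_subset_Icc_left ht.1))
    refine h3.congr_of_eventuallyEq ?_ ?_
    · filter_upwards [h4 h.eventually_left_inverse, hn] with s hs1 hs2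
      rw [Function.comp_apply, ← hq s ⟨ht.1.trans hs2.1, hs2.2⟩]
      exact (show _ = c s from hs1).symm
    · rw [Function.comp_apply, ← hq t ht', h.localInverse_apply_image]
  choose! w hw1 hw2 using hder
  have key := norm_le_gronwallBound_of_norm_deriv_right_le (f := fun t => ‖c t‖ ^ 2)
    (f' := fun t => 2 * inner ℝ (c t) (w t)) (δ := ‖x‖ ^ 2) (K := 1) (ε := C) (a := 0) (b := T)
    (hc.1.norm.pow 2) (fun t ht => (hw1 t ht).norm_sq) (by simp [hc.2.1]) (fun t ht => by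
      have ht' : t ∈ Icc (0 : ℝ) T := ⟨ht.1, ht.2.le⟩
      have e1 := gauss (c t) (w t) i (hsrc t ht')
      have e2 := gauss (c t) (c t) i (hsrc t ht')
      have e3 : 𝒜.φ i (p (c t)) = y + t • d := hq t ht'
      rw [e3] at e1 e2
      rw [hw2 t ht] at e1
      rw [real_inner_self_eq_norm_sq] at e2
      obtain ⟨m1, m2⟩ := hy t (hI t ht')
      have e4 := bil_sq_le (𝒜.riem i) m1 (fderiv ℝ (𝒜.φ i ∘ p) (c t) (c t)) d
      rw [e1, e2] at e4
      have e5 : inner ℝ (c t) (w t) ^ 2 ≤ ‖c t‖ ^ 2 * C :=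
        e4.trans (mul_le_mul_of_nonneg_left m2 (sq_nonneg _))
      rw [Real.norm_eq_abs, Real.norm_eq_abs, abs_of_nonneg (sq_nonneg ‖c t‖), one_mul]
      refine abs_le_of_sq_le_sq' ?_ (by positivity) |> abs_le.2
      nlinarith [sq_nonneg (‖c t‖ ^ 2 - C)]) T ⟨hT.1, le_rfl⟩
  rw [gronwallBound_of_K_ne_0 one_ne_zero, Real.norm_eq_abs, abs_of_nonneg (sq_nonneg _)] at key
  simp only [sub_zero, one_mul, div_one] at key
  refine Real.le_sqrt_of_sq_le (key.trans ?_)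
  have h1 : Real.exp T ≤ Real.exp 1 := Real.exp_le_exp.2 hT.2
  nlinarith [sq_nonneg ‖x‖, mul_le_mul_of_nonneg_left h1 (sq_nonneg ‖x‖),
    mul_le_mul_of_nonneg_left h1 hC]

end CoverAux

variable {n : ℕ} {M : Type} [TopologicalSpace M]

theorem isCoveringMap_of_gauss [T2Space M] (𝒜 : RAtlas n M) {p : E n → M} (hc : Continuous p)
    (hd : ∀ v i, p v ∈ (𝒜.φ i).source →
      HasStrictFDerivAt (𝒜.φ i ∘ p) (fderiv ℝ (𝒜.φ i ∘ p) v) v)
    (hinj : ∀ v i, p v ∈ (𝒜.φ i).source → Function.Injective (fderiv ℝ (𝒜.φ i ∘ p) v))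
    (gauss : ∀ v w i, p v ∈ (𝒜.φ i).source →
      bil (𝒜.g i) (𝒜.φ i (p v)) (fderiv ℝ (𝒜.φ i ∘ p) v v) (fderiv ℝ (𝒜.φ i ∘ p) v w)
        = inner ℝ v w) :
    IsCoveringMap p := by
  have hp := CoverAux.isLocalHomeomorph 𝒜 hc hd hinj
  intro m
  obtain ⟨i, hi⟩ := 𝒜.cover m
  obtain ⟨r, hr, hball⟩ := Metric.nhds_basis_closedBall.mem_iff.1
    ((𝒜.φ i).open_target.mem_nhds ((𝒜.φ i).map_source hi))
  obtain ⟨c₀, C, -, hC, hbd⟩ := exists_bil_bounds (𝒜.riem i) (isCompact_closedBall _ r) hball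
  let U : Set M := (𝒜.φ i).source ∩ 𝒜.φ i ⁻¹' Metric.ball (𝒜.φ i m) r
  have hU : IsOpen U := (𝒜.φ i).isOpen_inter_preimage Metric.isOpen_ball
  have hm : m ∈ U := ⟨hi, Metric.mem_ball_self hr⟩
  have hseg : ∀ a b : U, ∀ t ∈ Icc (0 : ℝ) 1,
      𝒜.φ i a + t • (𝒜.φ i b - 𝒜.φ i a) ∈ Metric.closedBall (𝒜.φ i m) r := fun a b t ht =>
    (convex_closedBall _ r).add_smul_sub_mem (Metric.ball_subset_closedBall a.2.2)
      (Metric.ball_subset_closedBall b.2.2) ht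
  have hφ : Continuous fun a : U => 𝒜.φ i a :=
    (𝒜.φ i).continuousOn.comp_continuous continuous_subtype_val fun a => a.2.1
  refine CoverAux.evenly hp hU hm
    (fun z => (𝒜.φ i).symm (𝒜.φ i z.2.1 + (z.1 : ℝ) • (𝒜.φ i z.2.2 - 𝒜.φ i z.2.1))) ?_ ?_ ?_ ?_
  · refine (𝒜.φ i).continuousOn_symm.comp_continuous ?_ fun z => hball (hseg _ _ _ z.1.2)
    exact (hφ.comp (continuous_fst.comp continuous_snd)).add
      ((continuous_subtype_val.comp continuous_fst).smul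
        ((hφ.comp (continuous_snd.comp continuous_snd)).sub
          (hφ.comp (continuous_fst.comp continuous_snd))))
  · intro a b
    simp [(𝒜.φ i).left_inv b.2.1]
  · intro t a b
    simp only [unitInterval.coe_symm_eq]
    congr 1
    module
  · intro x a b hx
    obtain ⟨c, h1, h2, h3⟩ := CoverAux.exists_lift hp
      (σ := fun t => (𝒜.φ i).symm (𝒜.φ i a + t • (𝒜.φ i b - 𝒜.φ i a))) (x := x)
      ((𝒜.φ i).continuousOn_symm.comp (by fun_prop) fun t ht => hball (hseg a b t ht))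
      (by simp [hx, (𝒜.φ i).left_inv a.2.1])
      (CoverAux.bound 𝒜 hd hinj gauss i _ _ (C := C * ‖𝒜.φ i b - 𝒜.φ i a‖ ^ 2) (by positivity)
        (fun t ht => ⟨hball (hseg a b t ht), (hbd _ (hseg a b t ht) _).2⟩) x)
    exact ⟨fun t => c t, h1.comp_continuous continuous_subtype_val fun t => t.2, h2,
      fun t => h3 t t.2⟩

theorem surjective_of_isCoveringMap {X : Type} [TopologicalSpace X] [Nonempty X]
    [PreconnectedSpace M] {p : X → M} (hp : IsCoveringMap p) : Function.Surjective p := by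
  rw [← range_eq_univ]
  refine IsClopen.eq_univ ⟨⟨isOpen_iff_forall_mem_open.2 fun m hm => ?_⟩,
    hp.isOpenMap.isOpen_range⟩ (range_nonempty p)
  obtain ⟨-, U, hmU, hU, -, H, -⟩ := hp m
  refine ⟨U, ?_, hU, hmU⟩
  rintro _ hy ⟨x, rfl⟩
  exact hm ⟨(H ⟨x, hy⟩).2, (H ⟨x, hy⟩).2.2⟩

end Crest.Agent.R244
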