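import Crest.Agent.R244.Defs

/-! Row 244: deck transformations of a covering map from `ℝⁿ`. -/

set_option autoImplicit false
set_option maxSynthPendingDepth 3
open Set Filter Topology
open scoped ContDiff
open Crest.GeometryTopology.CoordMetric Crest.GeometryTopology.ChartCurvature
open Crest.GeometryTopology.Geodesic

noncomputable section
namespace Crest.Agent.R244

variable {n : ℕ} {M : Type} [TopologicalSpace M] {π : E n → M}

theorem exists_lift {p q : E n → M} (hp : Continuous p) (hq : IsCoveringMap q) {x y : E n}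
    (h : p x = q y) : ∃ F : E n → E n, Continuous F ∧ F x = y ∧ ∀ z, q (F z) = p z := by
  obtain ⟨F, ⟨h1, h2⟩, -⟩ := hq.existsUnique_continuousMap_lifts ⟨p, hp⟩ x y h.symm
  exact ⟨F, F.continuous, h1, congrFun h2⟩

/-- Two coverings by `ℝⁿ` are isomorphic. -/
theorem exists_homeo {p q : E n → M} (hp : IsCoveringMap p) (hq : IsCoveringMap q) {x y : E n}
    (h : p x = q y) : ∃ F : E n ≃ₜ E n, F x = y ∧ ∀ z, q (F z) = p z := by
  obtain ⟨F, hF, F0, Fp⟩ := exists_lift hp.continuous hq h
  obtain ⟨G, hG, G0, Gp⟩ := exists_lift hq.continuous hp h.symm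
  have h1 : G ∘ F = id := hp.eq_of_comp_eq (hG.comp hF) continuous_id
    (funext fun z => (Gp _).trans (Fp z)) x (by simp [F0, G0])
  have h2 : F ∘ G = id := hq.eq_of_comp_eq (hF.comp hG) continuous_id
    (funext fun z => (Fp _).trans (Gp z)) y (by simp [F0, G0])
  exact ⟨⟨⟨F, G, congrFun h1, congrFun h2⟩, hF, hG⟩, F0, Fp⟩

/-- The deck group is transitive on fibres. -/
theorem deck_trans (hπ : IsCoveringMap π) {x y : E n} (h : π x = π y) :
    ∃ F : deck π, F • x = y := by
  obtain ⟨F, F0, Fp⟩ := exists_homeo hπ hπ h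
  exact ⟨⟨F.toEquiv, F.continuous, F.symm.continuous, Fp⟩, F0⟩

/-- The deck group acts freely. -/
theorem deck_free (hπ : IsCoveringMap π) {F : deck π} {x : E n} (h : F • x = x) : F = 1 := by
  exact Subtype.ext (Equiv.ext (congrFun
    (hπ.eq_of_comp_eq F.2.1 continuous_id (funext F.2.2.2) x h)))

theorem deck_ext (hπ : IsCoveringMap π) {F G : deck π} {x : E n} (h : F • x = G • x) : F = G := by
  exact (inv_mul_eq_one.1 (deck_free hπ (x := x) (by rw [mul_smul, h, inv_smul_smul]))).symm

theorem deck_apply (F : deck π) (x : E n) : π (F • x) = π x := F.2.2.2 x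

theorem deck_continuous (F : deck π) : Continuous fun x : E n => F • x := F.2.1

end Crest.Agent.R244
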