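import Crest.Prelude.Def_Geodesic

/-!
Row 244 (S0377): shared definitions.

* `bil g x`, `Gam g x`: the metric and the Christoffel symbols as continuous bilinear maps;
  `GeoAt`, `VarAt`: geodesic equation and its linearisation (= Jacobi equation) at one parameter.
* `RAtlas n M`: an abstract Riemannian atlas on a topological space; geodesics, Jacobi fields,
  `NoConj`, `NPC`; `ExpData`: the exponential maps.
* `NPCExp`, `CNSpace`, `deck`: the synthetic side.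
* `Jet`, `Profile`, `Model`, `GlueData`: the explicit graph manifold.
-/

set_option autoImplicit false
set_option maxSynthPendingDepth 3
open Set Filter Topology
open scoped ContDiff
open Crest.GeometryTopology.CoordMetric Crest.GeometryTopology.ChartCurvature

noncomputable section
namespace Crest.Agent.R244

/-- Euclidean `n`-space. -/
abbrev E (n : ℕ) : Type := EuclideanSpace ℝ (Fin n)

section coord
variable {n : ℕ}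

/-- The metric at `x` as a continuous bilinear form. -/
def bil (g : MetricField n) (x : E n) : E n →L[ℝ] E n →L[ℝ] ℝ :=
  ∑ i, ∑ j, g x i j • (EuclideanSpace.proj (𝕜 := ℝ) i).smulRight (EuclideanSpace.proj (𝕜 := ℝ) j)

/-- The Christoffel symbols at `x` as a continuous bilinear map. -/
def Gam (g : MetricField n) (x : E n) : E n →L[ℝ] E n →L[ℝ] E n :=
  ∑ k, ∑ i, ∑ j, christoffel g x k i j •
    (EuclideanSpace.proj (𝕜 := ℝ) i).smulRight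
      ((EuclideanSpace.proj (𝕜 := ℝ) j).smulRight (EuclideanSpace.single k (1 : ℝ) : E n))

/-- Geodesic equation `c'' = -Γ(c', c')` at the parameter `t` (with `c` differentiable near `t`). -/
def GeoAt (g : MetricField n) (c : ℝ → E n) (t : ℝ) : Prop :=
  (∀ᶠ s in 𝓝 t, DifferentiableAt ℝ c s) ∧
    HasDerivAt (deriv c) (-(Gam g (c t) (deriv c t) (deriv c t))) t

/-- Linearised geodesic equation `J'' = -DΓ[J](c', c') - 2 Γ(c', J')` at the parameter `t`. -/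
def VarAt (g : MetricField n) (c J : ℝ → E n) (t : ℝ) : Prop :=
  (∀ᶠ s in 𝓝 t, DifferentiableAt ℝ J s) ∧
    HasDerivAt (deriv J)
      (-(fderiv ℝ (Gam g) (c t) (J t) (deriv c t) (deriv c t))
        - (2 : ℝ) • Gam g (c t) (deriv c t) (deriv J t)) t

/-- Covariant derivative of `J` along `c`. -/
def cov (g : MetricField n) (c J : ℝ → E n) (t : ℝ) : E n :=
  deriv J t + Gam g (c t) (deriv c t) (J t)

end coord

/-- An abstract Riemannian atlas: charts into `ℝⁿ`, a coordinate metric on each chart target,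
smooth isometric transition maps. -/
structure RAtlas (n : ℕ) (M : Type) [TopologicalSpace M] where
  ι : Type
  φ : ι → OpenPartialHomeomorph M (E n)
  g : ι → MetricField n
  riem : ∀ i, IsRiemannianOn (g i) (φ i).target
  cover : ∀ x, ∃ i, x ∈ (φ i).source
  smooth : ∀ i j x, x ∈ (φ i).source → x ∈ (φ j).source →
    ContDiffAt ℝ ∞ (φ j ∘ (φ i).symm) (φ i x)
  isom : ∀ i j x, x ∈ (φ i).source → x ∈ (φ j).source → ∀ u v,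
    bil (g i) (φ i x) u v =
      bil (g j) (φ j x) (fderiv ℝ (φ j ∘ (φ i).symm) (φ i x) u)
        (fderiv ℝ (φ j ∘ (φ i).symm) (φ i x) v)

namespace RAtlas
variable {n : ℕ} {M : Type} [TopologicalSpace M] (𝒜 : RAtlas n M)

/-- All transition maps have positive Jacobian determinant. -/
def Oriented : Prop :=
  ∀ i j x, x ∈ (𝒜.φ i).source → x ∈ (𝒜.φ j).source →
    0 < LinearMap.det (fderiv ℝ (𝒜.φ j ∘ (𝒜.φ i).symm) (𝒜.φ i x) : E n →ₗ[ℝ] E n)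

/-- Non-positive curvature, tested at each point in some chart. -/
def NPC : Prop :=
  ∀ x, ∃ i, x ∈ (𝒜.φ i).source ∧ ∀ u v : E n, secNumer (𝒜.g i) (𝒜.φ i x) u v ≤ 0

/-- `γ` is a geodesic at the parameter `t` (in every chart around `γ t`). -/
def IsGeoAt (γ : ℝ → M) (t : ℝ) : Prop :=
  ContinuousAt γ t ∧ ∀ i, γ t ∈ (𝒜.φ i).source → GeoAt (𝒜.g i) (𝒜.φ i ∘ γ) t

/-- `γ : ℝ → M` is a geodesic. -/
def IsGeo (γ : ℝ → M) : Prop := ∀ t, 𝒜.IsGeoAt γ t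

/-- `J i` are the chart expressions of one vector field along `γ`. -/
def IsField (γ : ℝ → M) (J : 𝒜.ι → ℝ → E n) : Prop :=
  ∀ i j t, γ t ∈ (𝒜.φ i).source → γ t ∈ (𝒜.φ j).source →
    J j t = fderiv ℝ (𝒜.φ j ∘ (𝒜.φ i).symm) (𝒜.φ i (γ t)) (J i t)

/-- Jacobi field along `γ`. -/
def IsJac (γ : ℝ → M) (J : 𝒜.ι → ℝ → E n) : Prop :=
  𝒜.IsField γ J ∧ ∀ i t, γ t ∈ (𝒜.φ i).source → VarAt (𝒜.g i) (𝒜.φ i ∘ γ) (J i) t

/-- The field `J` along `γ` vanishes at `t`. -/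
def Van (γ : ℝ → M) (J : 𝒜.ι → ℝ → E n) (t : ℝ) : Prop :=
  ∀ i, γ t ∈ (𝒜.φ i).source → J i t = 0

/-- No conjugate points. -/
def NoConj : Prop :=
  ∀ γ J, 𝒜.IsGeo γ → 𝒜.IsJac γ J → ∀ a b : ℝ, a ≠ b → 𝒜.Van γ J a → 𝒜.Van γ J b →
    ∀ t, 𝒜.Van γ J t

/-- A chosen chart around `x`. -/
def pick (x : M) : 𝒜.ι := (𝒜.cover x).choose

theorem mem_pick (x : M) : x ∈ (𝒜.φ (𝒜.pick x)).source := (𝒜.cover x).choose_spec

/-- Velocity field of a curve. -/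
def vel (γ : ℝ → M) : 𝒜.ι → ℝ → E n := fun i t => deriv (𝒜.φ i ∘ γ) t

/-- Inner product of two fields along `γ` (computed in the chosen chart). -/
def ipf (γ : ℝ → M) (J K : 𝒜.ι → ℝ → E n) (t : ℝ) : ℝ :=
  bil (𝒜.g (𝒜.pick (γ t))) (𝒜.φ (𝒜.pick (γ t)) (γ t)) (J (𝒜.pick (γ t)) t) (K (𝒜.pick (γ t)) t)

end RAtlas

/-- Exponential maps of a Riemannian atlas, read in orthonormal frames. -/
structure ExpData {n : ℕ} {M : Type} [TopologicalSpace M] (𝒜 : RAtlas n M) where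
  exp : M → E n → M
  zero : ∀ m, exp m 0 = m
  cont : ∀ m, Continuous (exp m)
  geo : ∀ m v, 𝒜.IsGeo fun t : ℝ => exp m (t • v)
  speed : ∀ m v t, 𝒜.ipf (fun t : ℝ => exp m (t • v)) (𝒜.vel fun t : ℝ => exp m (t • v))
    (𝒜.vel fun t : ℝ => exp m (t • v)) t = ‖v‖ ^ 2
  surj : ∀ γ, 𝒜.IsGeo γ → ∃ v, ∀ t : ℝ, γ t = exp (γ 0) (t • v)
  strict : ∀ m v i, exp m v ∈ (𝒜.φ i).source →
    HasStrictFDerivAt (𝒜.φ i ∘ exp m) (fderiv ℝ (𝒜.φ i ∘ exp m) v) v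
  jac : ∀ m v w, 𝒜.IsJac (fun t : ℝ => exp m (t • v))
    fun i t => fderiv ℝ (𝒜.φ i ∘ exp m) (t • v) (t • w)
  jac0 : ∀ m v w,
    deriv (fun t : ℝ => fderiv ℝ (𝒜.φ (𝒜.pick m) ∘ exp m) (t • v) (t • w)) 0
      = fderiv ℝ (𝒜.φ (𝒜.pick m) ∘ exp m) 0 w
  iso0 : ∀ m u w,
    bil (𝒜.g (𝒜.pick m)) (𝒜.φ (𝒜.pick m) m) (fderiv ℝ (𝒜.φ (𝒜.pick m) ∘ exp m) 0 u)
      (fderiv ℝ (𝒜.φ (𝒜.pick m) ∘ exp m) 0 w) = inner ℝ u w

/-- The synthetic content of the Cartan–Hadamard theorem that we use. -/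
structure NPCExp (n : ℕ) (M : Type) [TopologicalSpace M] where
  exp : M → E n → M
  zero : ∀ m, exp m 0 = m
  cover : ∀ m, IsCoveringMap (exp m)
  surj : ∀ m, Function.Surjective (exp m)
  rebase : ∀ m v (t₀ : ℝ), ∃ w, ‖w‖ = ‖v‖ ∧
    ∀ t : ℝ, exp (exp m (t₀ • v)) (t • w) = exp m ((t₀ + t) • v)
  lift_le : ∀ m y w (c : ℝ → E n), ContinuousOn c (Icc 0 1) →
    (∀ t ∈ Icc (0 : ℝ) 1, exp m (c t) = exp y (t • w)) → ‖c 1 - c 0‖ ≤ ‖w‖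

/-- A metric `d` with Bruhat–Tits (CN) midpoints. -/
structure CNSpace (X : Type) (d : X → X → ℝ) : Prop where
  self : ∀ x, d x x = 0
  eq_of : ∀ x y, d x y = 0 → x = y
  symm : ∀ x y, d x y = d y x
  tri : ∀ x y z, d x z ≤ d x y + d y z
  cn : ∀ x y, ∃ m, ∀ z, d z m ^ 2 ≤ d z x ^ 2 / 2 + d z y ^ 2 / 2 - d x y ^ 2 / 4

/-- Deck transformations of `π`, as a group of permutations. -/
def deck {X M : Type} [TopologicalSpace X] (π : X → M) : Subgroup (Equiv.Perm X) where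
  carrier := {F | Continuous F ∧ Continuous F.symm ∧ ∀ x, π (F x) = π x}
  one_mem' := ⟨continuous_id, continuous_id, fun _ => rfl⟩
  mul_mem' := by
    rintro F G ⟨hF, hF', hFπ⟩ ⟨hG, hG', hGπ⟩
    exact ⟨hF.comp hG, hG'.comp hF', fun x => (hFπ (G x)).trans (hGπ x)⟩
  inv_mem' := by
    rintro F ⟨hF, hF', hFπ⟩
    refine ⟨hF', hF, fun x => ?_⟩
    have := hFπ (F.symm x)
    rw [Equiv.apply_symm_apply] at this
    exact this.symm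

/-- 2-jets of the three neck functions `m, n, e` at one point. The dual neck metric on the torus
factor is `q(X, Y) = m Y² + n (X + e Y)²`. -/
structure Jet where
  m0 : ℝ
  m1 : ℝ
  m2 : ℝ
  n0 : ℝ
  n1 : ℝ
  n2 : ℝ
  e0 : ℝ
  e1 : ℝ
  e2 : ℝ

namespace Jet
variable (j : Jet) (X Y : ℝ)

/-- `Z = X + e Y`. -/
def Z : ℝ := X + j.e0 * Y
/-- `V' = ∂ₛ q(X,Y)`. -/
def V1 : ℝ := j.m1 * Y ^ 2 + j.n1 * j.Z X Y ^ 2 + 2 * j.n0 * j.Z X Y * j.e1 * Y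
/-- `V'' = ∂ₛ² q(X,Y)`. -/
def V2 : ℝ := j.m2 * Y ^ 2 + j.n2 * j.Z X Y ^ 2 + 4 * j.n1 * j.Z X Y * j.e1 * Y
  + 2 * j.n0 * (j.e1 * Y) ^ 2 + 2 * j.n0 * j.Z X Y * j.e2 * Y
/-- `ẋ`, the first component of `q (X, Y)`. -/
def xd : ℝ := j.n0 * j.Z X Y
/-- `∂ₛ ẋ`. -/
def xd1 : ℝ := j.n1 * j.Z X Y + j.n0 * j.e1 * Y
/-- `ẏ`, the second component of `q (X, Y)`. -/
def yd : ℝ := j.m0 * Y + j.n0 * j.e0 * j.Z X Y
/-- `∂ₛ ẏ`. -/
def yd1 : ℝ := j.m1 * Y + j.n1 * j.e0 * j.Z X Y + j.n0 * j.e1 * j.Z X Y + j.n0 * j.e0 * j.e1 * Y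
/-- `q_{yy}`. -/
def qyy : ℝ := j.m0 + j.n0 * j.e0 ^ 2

/-- The three inequalities that make the Lyapunov functions monotone. -/
structure Good : Prop where
  v2 : ∀ X Y, j.V2 X Y ≤ 0
  left : ∀ X Y, 0 ≤ j.V1 X Y → Y ≠ 0 → j.yd X Y ≠ 0 ∧
    0 ≤ 4 * j.V1 X Y * j.yd1 X Y * j.yd X Y - 2 * j.V2 X Y * j.yd X Y ^ 2 - j.qyy * j.V1 X Y ^ 2
  right : ∀ X Y, j.V1 X Y ≤ 0 →
    0 ≤ 4 * j.V1 X Y * j.xd1 X Y * j.xd X Y - 2 * j.V2 X Y * j.xd X Y ^ 2 - j.n0 * j.V1 X Y ^ 2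

/-- Smallness conditions (with `η = 1/100`) that imply `Good`. -/
structure Small : Prop where
  m0_ge : 1 / 2 ≤ j.m0
  m0_le : j.m0 ≤ 1
  n0_ge : 1 / 2 ≤ j.n0
  n0_le : j.n0 ≤ 1
  m1_ge : 0 ≤ j.m1
  m1_le : j.m1 ≤ 1
  n1_le : j.n1 ≤ 0
  n1_ge : -1 ≤ j.n1
  m2_le : j.m2 ≤ 0
  n2_le : j.n2 ≤ 0
  e0_ge : 0 ≤ j.e0
  e0_le : j.e0 ≤ 1 / 100
  e0_n1 : j.e0 ≤ -j.n1 / 100
  e0_n2 : j.e0 ≤ -j.n2 / 100
  e1_le : |j.e1| ≤ 1 / 100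
  e1_m1 : |j.e1| ≤ j.m1 / 100
  e1_n1 : |j.e1| ≤ -j.n1 / 100
  e1_m2 : |j.e1| ≤ -j.m2 / 100
  e1_n2 : |j.e1| ≤ -j.n2 / 100
  e2_m2 : |j.e2| ≤ -j.m2 / 100
  e2_n2 : |j.e2| ≤ -j.n2 / 100

end Jet

/-- The 2-jet of `(m, n, e)` at `s`. -/
def jetAt (m n e : ℝ → ℝ) (s : ℝ) : Jet :=
  ⟨m s, deriv m s, deriv (deriv m) s, n s, deriv n s, deriv (deriv n) s,
    e s, deriv e s, deriv (deriv e) s⟩

/-- The neck profile: metric `ds² + (dy - e dx)² / m + dx² / n` on `ℝ × ℝ²`. -/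
structure Profile where
  m : ℝ → ℝ
  n : ℝ → ℝ
  e : ℝ → ℝ
  α : ℝ
  β : ℝ
  ε : ℝ
  S : ℝ
  rL : ℝ
  rR : ℝ
  m_smooth : ContDiff ℝ ∞ m
  n_smooth : ContDiff ℝ ∞ n
  e_smooth : ContDiff ℝ ∞ e
  m_pos : ∀ s, 0 < m s
  n_pos : ∀ s, 0 < n s
  α_pos : 0 < α
  β_pos : 0 < β
  ε_mul : ε * α = β
  S_ge : 1 ≤ S
  rL_pos : 0 < rL + S
  rR_pos : 0 < rR + S
  m_right : ∀ s, 1 ≤ s → m s = 1
  n_left : ∀ s, s ≤ -1 → n s = 1
  e_left : ∀ s, s ≤ -1 / 2 → e s = 0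
  e_right : ∀ s, 1 / 2 ≤ s → e s = ε
  m_lin : ∀ s, s ≤ -S → m s = ((α * (rL - s)) ^ 2)⁻¹
  n_lin : ∀ s, S ≤ s → n s = ((β * (rR + s)) ^ 2)⁻¹
  m_cvx : ∀ s, s ≤ -1 → 2 * m s * deriv (deriv m) s ≤ 3 * deriv m s ^ 2
  n_cvx : ∀ s, 1 ≤ s → 2 * n s * deriv (deriv n) s ≤ 3 * deriv n s ^ 2
  m_deriv_pos : ∀ s, -1 ≤ s → s < 1 → 0 < deriv m s
  n_deriv_neg : ∀ s, -1 < s → s ≤ 1 → deriv n s < 0
  good : ∀ s, -1 ≤ s → s ≤ 1 → (jetAt m n e s).Good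

namespace Profile
variable (P : Profile)

/-- 2-jet of the profile at `s`. -/
def jet (s : ℝ) : Jet := jetAt P.m P.n P.e s
/-- Period of `x`. -/
def l1 : ℝ := 2 * Real.pi / P.β
/-- Period of `y`. -/
def l2 : ℝ := 2 * Real.pi / P.α
/-- Half-length of the neck chart. -/
def T : ℝ := P.S + (P.rL + P.S) + (P.rR + P.S) + 1
/-- Side of the two flat square tori. -/
def A : ℝ := 4 * ((P.rL + P.S) + (P.rR + P.S) + 1)
/-- Neck domain, coordinates `(s, x, y)`. -/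
def WN : Set (E 3) := {y | |y 0| < P.T}
/-- `ℝ³` minus the closed tubes of radius `ρ` about the vertical lines through `A ℤ²`. -/
def WF (ρ : ℝ) : Set (E 3) := {y | ∀ j k : ℤ, ρ ^ 2 < (y 0 - j * P.A) ^ 2 + (y 1 - k * P.A) ^ 2}
/-- Left flat domain. -/
def WL : Set (E 3) := P.WF (P.rL + P.S)
/-- Right flat domain. -/
def WR : Set (E 3) := P.WF (P.rR + P.S)
/-- Left gluing map (cylindrical coordinates), used for `s < -S`. -/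
def τL (y : E 3) : E 3 :=
  !₂[(P.rL - y 0) * Real.cos (P.α * y 2), (P.rL - y 0) * Real.sin (P.α * y 2), y 1]
/-- Right gluing map, used for `S < s`. -/
def τR (y : E 3) : E 3 :=
  !₂[(P.rR + y 0) * Real.cos (P.β * y 1), (P.rR + y 0) * Real.sin (P.β * y 1), y 2 - P.ε * y 1]
/-- Neck metric `ds² + (dy - e dx)² / m + dx² / n`. -/
def gN : MetricField 3 := fun y =>
  !![1, 0, 0;
     0, (P.n (y 0))⁻¹ + P.e (y 0) ^ 2 * (P.m (y 0))⁻¹, -(P.e (y 0) * (P.m (y 0))⁻¹);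
     0, -(P.e (y 0) * (P.m (y 0))⁻¹), (P.m (y 0))⁻¹]

end Profile

/-- The explicit graph manifold, as seen by the rest of the proof. -/
structure Model (P : Profile) (M : Type) [TopologicalSpace M] where
  𝒜 : RAtlas 3 M
  ΨL : E 3 → M
  ΨN : E 3 → M
  ΨR : E 3 → M
  oriented : 𝒜.Oriented
  cover : ∀ x, (∃ y ∈ P.WL, ΨL y = x) ∨ (∃ y ∈ P.WN, ΨN y = x) ∨ (∃ y ∈ P.WR, ΨR y = x)
  contL : ContinuousOn ΨL P.WL
  contN : ContinuousOn ΨN P.WN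
  contR : ContinuousOn ΨR P.WR
  chartL : ∀ y ∈ P.WL, ∃ i, y ∈ (𝒜.φ i).target ∧ (𝒜.φ i).target ⊆ P.WL ∧
    EqOn (𝒜.φ i).symm ΨL (𝒜.φ i).target ∧ 𝒜.g i = fun _ => 1
  chartN : ∀ y ∈ P.WN, ∃ i, y ∈ (𝒜.φ i).target ∧ (𝒜.φ i).target ⊆ P.WN ∧
    EqOn (𝒜.φ i).symm ΨN (𝒜.φ i).target ∧ 𝒜.g i = P.gN
  chartR : ∀ y ∈ P.WR, ∃ i, y ∈ (𝒜.φ i).target ∧ (𝒜.φ i).target ⊆ P.WR ∧
    EqOn (𝒜.φ i).symm ΨR (𝒜.φ i).target ∧ 𝒜.g i = fun _ => 1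
  perL : ∀ y ∈ P.WL, ∀ j k l : ℤ, ΨL (y + !₂[j * P.A, k * P.A, l * P.l1]) = ΨL y
  perN : ∀ y ∈ P.WN, ∀ k l : ℤ, ΨN (y + !₂[0, k * P.l1, l * P.l2]) = ΨN y
  perR : ∀ y ∈ P.WR, ∀ j k l : ℤ, ΨR (y + !₂[j * P.A, k * P.A, l * P.l2]) = ΨR y
  injN : ∀ y ∈ P.WN, ∀ y' ∈ P.WN, ΨN y = ΨN y' → ∃ k l : ℤ, y' = y + !₂[0, k * P.l1, l * P.l2]
  glueL : ∀ y ∈ P.WN, y 0 < -P.S → ΨN y = ΨL (P.τL y)
  glueR : ∀ y ∈ P.WN, P.S < y 0 → ΨN y = ΨR (P.τR y)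

/-- Gluing data: open pieces of `ℝⁿ` with metrics and a closed equivalence relation that is
locally the graph of orientation preserving smooth isometries. -/
structure GlueData (n : ℕ) (κ : Type) where
  W : κ → Set (E n)
  g : κ → MetricField n
  riem : ∀ k, IsRiemannianOn (g k) (W k)
  R : κ → E n → κ → E n → Prop
  refl : ∀ k, ∀ y ∈ W k, R k y k y
  symm : ∀ k l, ∀ y ∈ W k, ∀ z ∈ W l, R k y l z → R l z k y
  trans : ∀ k l p, ∀ y ∈ W k, ∀ z ∈ W l, ∀ w ∈ W p, R k y l z → R l z p w → R k y p w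
  loc : ∀ k l, ∀ y ∈ W k, ∀ z ∈ W l, R k y l z → ∃ τ : E n → E n,
    ContDiffAt ℝ ∞ τ y ∧ τ y = z ∧ (∀ᶠ y' in 𝓝 y, R k y' l (τ y')) ∧
    (∀ u v, bil (g k) y u v = bil (g l) z (fderiv ℝ τ y u) (fderiv ℝ τ y v)) ∧
    0 < LinearMap.det (fderiv ℝ τ y : E n →ₗ[ℝ] E n)
  inj : ∀ k, ∀ y ∈ W k, ∃ U ∈ 𝓝 y, ∀ y₁ ∈ U, ∀ y₂ ∈ U, R k y₁ k y₂ → y₁ = y₂
  closed : ∀ k l, IsClosed {p : W k × W l | R k p.1 l p.2}

end Crest.Agent.R244
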