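import Crest.Agent.R244.Geod

/-! Row 244: the exponential maps of a compact Riemannian atlas. -/

set_option autoImplicit false
set_option maxSynthPendingDepth 3
open Set Filter Topology Metric
open scoped ContDiff
open Crest.GeometryTopology.CoordMetric Crest.GeometryTopology.ChartCurvature
open Crest.GeometryTopology.Geodesic

noncomputable section
namespace Crest.Agent.R244

namespace RAtlas
variable {n : ℕ} {M : Type} [TopologicalSpace M] (𝒜 : RAtlas n M)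

/-- Position and velocity of a curve in a chart. -/
def ph (i : 𝒜.ι) (γ : ℝ → M) (t : ℝ) : E n × E n := (𝒜.φ i (γ t), deriv (𝒜.φ i ∘ γ) t)

theorem IsGeoAt.continuousAt_ph {γ : ℝ → M} {t : ℝ} (h : 𝒜.IsGeoAt γ t) {i : 𝒜.ι}
    (hi : γ t ∈ (𝒜.φ i).source) : ContinuousAt (𝒜.ph i γ) t :=
  (h.2 i hi).hasDerivAt_spray.continuousAt

/-- A local flow box of the spray of chart `i` around `z₀`. -/
structure FlowBox (i : 𝒜.ι) (z₀ : E n × E n) where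
  r : ℝ
  δ : ℝ
  r_pos : 0 < r
  δ_pos : 0 < δ
  Φ : E n × E n → ℝ → E n × E n
  D : E n × E n → ℝ → (E n × E n) →L[ℝ] (E n × E n)
  zero : ∀ z ∈ ball z₀ r, Φ z 0 = z
  mem : ∀ z ∈ ball z₀ r, ∀ t ∈ Ioo (-δ) δ, (Φ z t).1 ∈ (𝒜.φ i).target
  ode : ∀ z ∈ ball z₀ r, ∀ t ∈ Ioo (-δ) δ, HasDerivAt (Φ z) (spray (𝒜.g i) (Φ z t)) t
  strict : ∀ z ∈ ball z₀ r, ∀ t ∈ Ioo (-δ) δ, HasStrictFDerivAt (fun z => Φ z t) (D z t) z
  var : ∀ z ∈ ball z₀ r, ∀ t ∈ Ioo (-δ) δ,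
    HasDerivAt (D z) ((fderiv ℝ (spray (𝒜.g i)) (Φ z t)).comp (D z t)) t

theorem nonempty_flowBox (i : 𝒜.ι) {z₀ : E n × E n} (hz : z₀.1 ∈ (𝒜.φ i).target) :
    Nonempty (𝒜.FlowBox i z₀) := by
  obtain ⟨r, hr, δ, hδ, Φ, D, -, h⟩ := exists_local_flow (f := spray (𝒜.g i))
    (Ω := (𝒜.φ i).target ×ˢ univ) ((𝒜.φ i).open_target.prod isOpen_univ)
    ((contDiffOn_spray (𝒜.riem i)).of_le (by exact_mod_cast le_top)) (z₀ := z₀) ⟨hz, trivial⟩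
  exact ⟨⟨r, δ, hr, hδ, Φ, D, fun z hz => (h z hz).1, fun z hz t ht => ((h z hz).2.2 t ht).1.1,
    fun z hz t ht => ((h z hz).2.2 t ht).2.1, fun z hz t ht => ((h z hz).2.2 t ht).2.2.1,
    fun z hz t ht => ((h z hz).2.2 t ht).2.2.2⟩⟩

variable {𝒜}

/-- A geodesic whose phase point enters a flow box follows the flow. -/
theorem FlowBox.follow [T2Space M] {i : 𝒜.ι} {z₀ : E n × E n} (B : 𝒜.FlowBox i z₀) {γ : ℝ → M}
    (hγ : 𝒜.IsGeo γ) {t₁ : ℝ} (hi : γ t₁ ∈ (𝒜.φ i).source) (hz : 𝒜.ph i γ t₁ ∈ ball z₀ B.r)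
    {t : ℝ} (ht : t - t₁ ∈ Ioo (-B.δ) B.δ) :
    γ t ∈ (𝒜.φ i).source ∧ 𝒜.ph i γ t = B.Φ (𝒜.ph i γ t₁) (t - t₁) := by
  set z₁ := 𝒜.ph i γ t₁ with hz₁
  set z : ℝ → E n × E n := fun s => B.Φ z₁ (s - t₁) with hzdef
  set I : Set ℝ := Ioo (t₁ - B.δ) (t₁ + B.δ) with hI
  have hmem : ∀ s, s ∈ I ↔ s - t₁ ∈ Ioo (-B.δ) B.δ := fun s => by
    simp only [hI, mem_Ioo]; constructor <;> rintro ⟨a, b⟩ <;> constructor <;> linarith
  have hode : ∀ s ∈ I, HasDerivAt z (spray (𝒜.g i) (z s)) s := fun s hs =>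
    (B.ode z₁ hz _ ((hmem s).1 hs)).comp_sub_const s t₁
  have htar : ∀ s ∈ I, (z s).1 ∈ (𝒜.φ i).target := fun s hs => B.mem z₁ hz _ ((hmem s).1 hs)
  have hgeo : ∀ s ∈ I, 𝒜.IsGeoAt (fun s => (𝒜.φ i).symm (z s).1) s ∧
      deriv (𝒜.φ i ∘ fun s => (𝒜.φ i).symm (z s).1) s = (z s).2 := fun s hs =>
    𝒜.isGeoAt_symm_of_spray (htar s hs)
      (Filter.eventually_of_mem (isOpen_Ioo.mem_nhds hs) hode)
  have ht₁ : t₁ ∈ I := (hmem t₁).2 (by simp [B.δ_pos])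
  have hz0 : z t₁ = z₁ := by simp only [hzdef, sub_self]; exact B.zero z₁ hz
  have heq : EqOn γ (fun s => (𝒜.φ i).symm (z s).1) I := by
    refine 𝒜.geo_eqOn isOpen_Ioo isPreconnected_Ioo (fun s _ => hγ s) (fun s hs => (hgeo s hs).1)
      ht₁ hi ?_ ?_
    · simp only [hz0, hz₁, ph]; exact ((𝒜.φ i).left_inv hi).symm
    · rw [(hgeo t₁ ht₁).2, hz0]; rfl
  have htI : t ∈ I := (hmem t).2 ht
  have h1 : γ t = (𝒜.φ i).symm (z t).1 := heq htI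
  refine ⟨h1 ▸ (𝒜.φ i).map_target (htar t htI), Prod.ext ?_ ?_⟩
  · show 𝒜.φ i (γ t) = (z t).1
    rw [h1, (𝒜.φ i).right_inv (htar t htI)]
  · show deriv (𝒜.φ i ∘ γ) t = (z t).2
    rw [← (hgeo t htI).2]
    apply Filter.EventuallyEq.deriv_eq
    filter_upwards [isOpen_Ioo.mem_nhds htI] with s hs
    simp only [Function.comp_apply, heq hs]

variable (𝒜)

section family
variable {V : Type} [NormedAddCommGroup V] [NormedSpace ℝ V]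

/-- The family of geodesics `Γ v` depends differentiably on `v` at `(v₀, t)`. -/
def Dep (Γ : V → ℝ → M) (v₀ : V) (t : ℝ) : Prop :=
  ContinuousAt (fun v => Γ v t) v₀ ∧ ∀ i, Γ v₀ t ∈ (𝒜.φ i).source →
    HasStrictFDerivAt (fun v => 𝒜.ph i (Γ v) t) (fderiv ℝ (fun v => 𝒜.ph i (Γ v) t) v₀) v₀

theorem dep_of_chart {Γ : V → ℝ → M} (hΓ : ∀ v, 𝒜.IsGeo (Γ v)) {v₀ : V} {t : ℝ}
    (hc : ContinuousAt (fun v => Γ v t) v₀) {i : 𝒜.ι} (hi : Γ v₀ t ∈ (𝒜.φ i).source)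
    {D : V →L[ℝ] E n × E n} (hD : HasStrictFDerivAt (fun v => 𝒜.ph i (Γ v) t) D v₀) :
    𝒜.Dep Γ v₀ t := by
  refine ⟨hc, fun j hj => ?_⟩
  set τ := 𝒜.φ j ∘ (𝒜.φ i).symm with hτ
  have hτs : ContDiffAt ℝ ∞ τ (𝒜.φ i (Γ v₀ t)) := 𝒜.smooth i j _ hi hj
  set T : E n × E n → E n × E n := fun z => (τ z.1, fderiv ℝ τ z.1 z.2) with hT
  have hTs : ContDiffAt ℝ 1 T (𝒜.ph i (Γ v₀) t) := by
    have h1 : ContDiffAt ℝ 1 τ (𝒜.ph i (Γ v₀) t).1 := hτs.of_le (by exact_mod_cast le_top)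
    have h2 : ContDiffAt ℝ 1 (fderiv ℝ τ) (𝒜.ph i (Γ v₀) t).1 :=
      hτs.fderiv_right (m := 1) (by norm_cast)
    exact (h1.comp _ contDiffAt_fst).prodMk ((h2.comp _ contDiffAt_fst).clm_apply contDiffAt_snd)
  have hcomp := (hTs.hasStrictFDerivAt (by norm_num)).comp v₀ hD
  have hev : (fun v => T (𝒜.ph i (Γ v) t)) =ᶠ[𝓝 v₀] fun v => 𝒜.ph j (Γ v) t := by
    filter_upwards [hc.eventually ((𝒜.φ i).open_source.mem_nhds hi),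
      hc.eventually ((𝒜.φ j).open_source.mem_nhds hj)] with v hvi hvj
    refine Prod.ext ?_ ?_
    · simp only [hT, hτ, ph, Function.comp_apply, (𝒜.φ i).left_inv hvi]
    · exact (IsGeoAt.vel_eq 𝒜 (hΓ v t) hvi hvj).symm
  have := hcomp.congr_of_eventuallyEq hev
  rwa [this.hasFDerivAt.fderiv]

variable {𝒜}

/-- Transport of differentiable dependence along a flow box. -/
theorem FlowBox.dep [T2Space M] {i : 𝒜.ι} {z₀ : E n × E n} (B : 𝒜.FlowBox i z₀)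
    {Γ : V → ℝ → M} (hΓ : ∀ v, 𝒜.IsGeo (Γ v)) {v₀ : V} {t₁ : ℝ}
    (hi : Γ v₀ t₁ ∈ (𝒜.φ i).source) (hz : 𝒜.ph i (Γ v₀) t₁ ∈ ball z₀ B.r) (h : 𝒜.Dep Γ v₀ t₁)
    {t : ℝ} (ht : t - t₁ ∈ Ioo (-B.δ) B.δ) :
    𝒜.Dep Γ v₀ t ∧ fderiv ℝ (fun v => 𝒜.ph i (Γ v) t) v₀ =
      (B.D (𝒜.ph i (Γ v₀) t₁) (t - t₁)).comp (fderiv ℝ (fun v => 𝒜.ph i (Γ v) t₁) v₀) := by
  have h1 := h.2 i hi
  have hev : ∀ᶠ v in 𝓝 v₀, Γ v t ∈ (𝒜.φ i).source ∧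
      𝒜.ph i (Γ v) t = B.Φ (𝒜.ph i (Γ v) t₁) (t - t₁) := by
    filter_upwards [h.1.eventually ((𝒜.φ i).open_source.mem_nhds hi),
      h1.continuousAt.eventually (isOpen_ball.mem_nhds hz)] with v hvi hvz
    exact B.follow (hΓ v) hvi hvz ht
  have hcomp := (B.strict _ hz _ ht).comp v₀ h1
  have hD : HasStrictFDerivAt (fun v => 𝒜.ph i (Γ v) t)
      ((B.D (𝒜.ph i (Γ v₀) t₁) (t - t₁)).comp (fderiv ℝ (fun v => 𝒜.ph i (Γ v) t₁) v₀)) v₀ :=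
    hcomp.congr_of_eventuallyEq (hev.mono fun v hv => hv.2.symm)
  have hi' : Γ v₀ t ∈ (𝒜.φ i).source := hev.self_of_nhds.1
  have hc : ContinuousAt (fun v => Γ v t) v₀ := by
    have h2 : ContinuousAt (fun v => (𝒜.φ i).symm (𝒜.ph i (Γ v) t).1) v₀ :=
      ((𝒜.φ i).continuousAt_symm ((𝒜.φ i).map_source hi')).comp_of_eq
        hD.continuousAt.fst rfl
    refine h2.congr (hev.mono fun v hv => ?_)
    exact (𝒜.φ i).left_inv hv.1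
  exact ⟨𝒜.dep_of_chart hΓ hc hi' hD, hD.hasFDerivAt.fderiv⟩

variable (𝒜)

theorem dep_all [T2Space M] {Γ : V → ℝ → M} (hΓ : ∀ v, 𝒜.IsGeo (Γ v)) {v₀ : V} {t₀ : ℝ}
    (h : 𝒜.Dep Γ v₀ t₀) (t : ℝ) : 𝒜.Dep Γ v₀ t := by
  have hlc : IsLocallyConstant fun t => 𝒜.Dep Γ v₀ t := by
    rw [IsLocallyConstant.iff_eventually_eq]
    intro s
    have hi := 𝒜.mem_pick (Γ v₀ s)
    set i := 𝒜.pick (Γ v₀ s)
    obtain ⟨B⟩ := 𝒜.nonempty_flowBox i (z₀ := 𝒜.ph i (Γ v₀) s) ((𝒜.φ i).map_source hi)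
    have hδ : ∀ᶠ u in 𝓝 s, u ∈ Ioo (s - B.δ) (s + B.δ) :=
      isOpen_Ioo.mem_nhds ⟨by linarith [B.δ_pos], by linarith [B.δ_pos]⟩
    filter_upwards [(hΓ v₀ s).1.eventually ((𝒜.φ i).open_source.mem_nhds hi),
      (IsGeoAt.continuousAt_ph 𝒜 (hΓ v₀ s) hi).eventually (ball_mem_nhds _ B.r_pos), hδ]
      with u hu hz hus
    apply propext
    exact ⟨fun hd => (B.dep hΓ hu hz hd ⟨by linarith [hus.2], by linarith [hus.1]⟩).1,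
      fun hd => (B.dep hΓ hi (mem_ball_self B.r_pos) hd
        ⟨by linarith [hus.1], by linarith [hus.2]⟩).1⟩
  exact (hlc.apply_eq_of_preconnectedSpace t₀ t) ▸ h

/-- The derivative of the family in the direction `w` solves the linearised spray equation. -/
theorem varAt_family [T2Space M] {Γ : V → ℝ → M} (hΓ : ∀ v, 𝒜.IsGeo (Γ v)) {v₀ : V}
    (h : ∀ t, 𝒜.Dep Γ v₀ t) (w : V) {i : 𝒜.ι} {t₀ : ℝ} (hi : Γ v₀ t₀ ∈ (𝒜.φ i).source) :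
    VarAt (𝒜.g i) (𝒜.φ i ∘ Γ v₀) (fun s => (fderiv ℝ (fun v => 𝒜.ph i (Γ v) s) v₀ w).1) t₀ ∧
      deriv (fun s => (fderiv ℝ (fun v => 𝒜.ph i (Γ v) s) v₀ w).1) t₀
        = (fderiv ℝ (fun v => 𝒜.ph i (Γ v) t₀) v₀ w).2 := by
  obtain ⟨B⟩ := 𝒜.nonempty_flowBox i (z₀ := 𝒜.ph i (Γ v₀) t₀) ((𝒜.φ i).map_source hi)
  have hz := mem_ball_self (x := 𝒜.ph i (Γ v₀) t₀) B.r_pos
  set I : Set ℝ := Ioo (t₀ - B.δ) (t₀ + B.δ) with hI
  have hmem : ∀ s ∈ I, s - t₀ ∈ Ioo (-B.δ) B.δ := fun s hs =>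
    ⟨by linarith [hs.1], by linarith [hs.2]⟩
  have hIn : I ∈ 𝓝 t₀ := isOpen_Ioo.mem_nhds ⟨by linarith [B.δ_pos], by linarith [B.δ_pos]⟩
  set ζ : ℝ → E n × E n := fun s => fderiv ℝ (fun v => 𝒜.ph i (Γ v) s) v₀ w with hζ
  have hζI : ∀ s ∈ I, ζ s = B.D (𝒜.ph i (Γ v₀) t₀) (s - t₀) (ζ t₀) := fun s hs => by
    simp only [hζ]
    rw [(B.dep hΓ hi hz (h t₀) (hmem s hs)).2]
    rfl
  refine varAt_of_spray (𝒜.riem i) (ζ := ζ) ?_ ?_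
  · filter_upwards [hIn] with s hs
    exact (𝒜.φ i).map_source (B.follow (hΓ v₀) hi hz (hmem s hs)).1
  · filter_upwards [hIn] with s hs
    have h1 := ((B.var _ hz _ (hmem s hs)).comp_sub_const s t₀).clm_apply
      (hasDerivAt_const s (ζ t₀))
    have h2 : (𝒜.φ i ∘ Γ v₀) s = (B.Φ (𝒜.ph i (Γ v₀) t₀) (s - t₀)).1 :=
      congrArg Prod.fst (B.follow (hΓ v₀) hi hz (hmem s hs)).2
    have h3 : deriv (𝒜.φ i ∘ Γ v₀) s = (B.Φ (𝒜.ph i (Γ v₀) t₀) (s - t₀)).2 :=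
      congrArg Prod.snd (B.follow (hΓ v₀) hi hz (hmem s hs)).2
    rw [h2, h3, hζI s hs]
    simp only [map_zero, add_zero, ContinuousLinearMap.comp_apply] at h1
    refine h1.congr_of_eventuallyEq ?_
    filter_upwards [isOpen_Ioo.mem_nhds hs] with u hu
    exact hζI u hu

end family

section exp
variable [T2Space M] [CompactSpace M]

/-- An orthonormal frame at `m`, in the chosen chart. -/
def frame (m : M) : E n ≃L[ℝ] E n :=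
  (exists_frame (𝒜.riem (𝒜.pick m)) ((𝒜.φ (𝒜.pick m)).map_source (𝒜.mem_pick m))).choose

omit [T2Space M] [CompactSpace M] in
theorem frame_spec (m : M) (u v : E n) :
    bil (𝒜.g (𝒜.pick m)) (𝒜.φ (𝒜.pick m) m) (𝒜.frame m u) (𝒜.frame m v) = inner ℝ u v :=
  (exists_frame (𝒜.riem (𝒜.pick m)) ((𝒜.φ (𝒜.pick m)).map_source (𝒜.mem_pick m))).choose_spec u v

/-- The geodesic with initial point `m` and initial velocity `frame m v`. -/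
def geo (m : M) (v : E n) : ℝ → M := (𝒜.geo_exists (𝒜.mem_pick m) (𝒜.frame m v)).choose

theorem geo_isGeo (m : M) (v : E n) : 𝒜.IsGeo (𝒜.geo m v) :=
  (𝒜.geo_exists (𝒜.mem_pick m) (𝒜.frame m v)).choose_spec.1

theorem geo_zero (m : M) (v : E n) : 𝒜.geo m v 0 = m :=
  (𝒜.geo_exists (𝒜.mem_pick m) (𝒜.frame m v)).choose_spec.2.1

theorem geo_deriv (m : M) (v : E n) : deriv (𝒜.φ (𝒜.pick m) ∘ 𝒜.geo m v) 0 = 𝒜.frame m v :=
  (𝒜.geo_exists (𝒜.mem_pick m) (𝒜.frame m v)).choose_spec.2.2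

theorem geo_mem (m : M) (v : E n) : 𝒜.geo m v 0 ∈ (𝒜.φ (𝒜.pick m)).source := by
  rw [geo_zero]; exact 𝒜.mem_pick m

theorem geo_hasDerivAt (m : M) (v : E n) :
    HasDerivAt (𝒜.φ (𝒜.pick m) ∘ 𝒜.geo m v) (𝒜.frame m v) 0 := by
  rw [← geo_deriv]
  exact ((𝒜.geo_isGeo m v 0).2 _ (𝒜.geo_mem m v)).1.self_of_nhds.hasDerivAt

theorem geo_smul (m : M) (v : E n) (a t : ℝ) : 𝒜.geo m (a • v) t = 𝒜.geo m v (a * t) := by
  have h := 𝒜.geo_unique (𝒜.geo_isGeo m (a • v)) (IsGeo.affine 𝒜 (𝒜.geo_isGeo m v) a 0)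
    (𝒜.geo_mem m _) (by simp [geo_zero]) (by
      rw [geo_deriv]
      have h1 : HasDerivAt (fun t : ℝ => a * t + 0) a 0 := by
        simpa using ((hasDerivAt_id (0 : ℝ)).const_mul a).add_const 0
      have h2 := (𝒜.geo_hasDerivAt m v).scomp_of_eq 0 h1 (by simp)
      rw [map_smul]
      exact h2.deriv.symm)
  simpa using congrFun h t

/-- The exponential map. -/
def exp (m : M) (v : E n) : M := 𝒜.geo m v 1

theorem exp_smul (m : M) (v : E n) (t : ℝ) : 𝒜.exp m (t • v) = 𝒜.geo m v t := by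
  rw [exp, geo_smul, mul_one]

theorem exp_ray (m : M) (v : E n) : (fun t : ℝ => 𝒜.exp m (t • v)) = 𝒜.geo m v :=
  funext (𝒜.exp_smul m v)

theorem ph_geo_zero (m : M) :
    (fun v => 𝒜.ph (𝒜.pick m) (𝒜.geo m v) 0) = fun v => (𝒜.φ (𝒜.pick m) m, 𝒜.frame m v) := by
  funext v
  simp only [ph, geo_zero, geo_deriv]

theorem hasStrict_ph_zero (m : M) (v₀ : E n) :
    HasStrictFDerivAt (fun v => 𝒜.ph (𝒜.pick m) (𝒜.geo m v) 0)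
      ((0 : E n →L[ℝ] E n).prod (𝒜.frame m : E n →L[ℝ] E n)) v₀ := by
  rw [ph_geo_zero]
  exact (hasStrictFDerivAt_const _ _).prodMk (𝒜.frame m).hasStrictFDerivAt

theorem dep_geo (m : M) (v₀ : E n) (t : ℝ) : 𝒜.Dep (𝒜.geo m) v₀ t := by
  refine 𝒜.dep_all (𝒜.geo_isGeo m) (t₀ := 0) ?_ t
  refine 𝒜.dep_of_chart (𝒜.geo_isGeo m) ?_ (𝒜.geo_mem m v₀) (𝒜.hasStrict_ph_zero m v₀)
  simp only [geo_zero]
  exact continuousAt_const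

theorem exp_strict (m : M) (v : E n) (i : 𝒜.ι) (hi : 𝒜.exp m v ∈ (𝒜.φ i).source) :
    HasStrictFDerivAt (𝒜.φ i ∘ 𝒜.exp m) (fderiv ℝ (𝒜.φ i ∘ 𝒜.exp m) v) v := by
  have h := ((𝒜.dep_geo m v 1).2 i hi).fst
  have h' : HasStrictFDerivAt (𝒜.φ i ∘ 𝒜.exp m) _ v := h
  rwa [h'.hasFDerivAt.fderiv]

theorem exp_continuous (m : M) : Continuous (𝒜.exp m) :=
  continuous_iff_continuousAt.2 fun v => (𝒜.dep_geo m v 1).1

theorem jac_eq (m : M) (v w : E n) (i : 𝒜.ι) {t : ℝ} (hi : 𝒜.geo m v t ∈ (𝒜.φ i).source) :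
    fderiv ℝ (𝒜.φ i ∘ 𝒜.exp m) (t • v) (t • w)
      = (fderiv ℝ (fun v => 𝒜.ph i (𝒜.geo m v) t) v w).1 := by
  have h1 := ((𝒜.dep_geo m v t).2 i hi).hasFDerivAt.fst
  have h2 := (𝒜.exp_strict m (t • v) i (by rwa [exp_smul])).hasFDerivAt.comp v
    ((hasFDerivAt_id v).const_smul t)
  have h3 : (fun v => (𝒜.ph i (𝒜.geo m v) t).1) = (𝒜.φ i ∘ 𝒜.exp m) ∘ fun v => t • v := by
    funext u
    simp only [ph, Function.comp_apply, exp_smul]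
  rw [h3] at h1
  have := congrArg (fun L : E n →L[ℝ] E n => L w) (h1.unique h2)
  simpa using this.symm

theorem jac_eventuallyEq (m : M) (v w : E n) (i : 𝒜.ι) {t : ℝ}
    (hi : 𝒜.geo m v t ∈ (𝒜.φ i).source) :
    (fun s => (fderiv ℝ (fun v => 𝒜.ph i (𝒜.geo m v) s) v w).1) =ᶠ[𝓝 t]
      fun s : ℝ => fderiv ℝ (𝒜.φ i ∘ 𝒜.exp m) (s • v) (s • w) := by
  filter_upwards [(𝒜.geo_isGeo m v t).1.eventually ((𝒜.φ i).open_source.mem_nhds hi)] with s hs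
  exact (𝒜.jac_eq m v w i hs).symm

theorem fderiv_exp_zero (m : M) (w : E n) :
    fderiv ℝ (𝒜.φ (𝒜.pick m) ∘ 𝒜.exp m) 0 w = 𝒜.frame m w := by
  have h0 : 𝒜.exp m 0 ∈ (𝒜.φ (𝒜.pick m)).source := by
    rw [← zero_smul ℝ (0 : E n), exp_smul]; exact 𝒜.geo_mem m 0
  have h1 : HasDerivAt (fun t : ℝ => t • w) w 0 := by
    simpa using (hasDerivAt_id (0 : ℝ)).smul_const w
  have h2 := (𝒜.exp_strict m 0 _ h0).hasFDerivAt.comp_hasDerivAt_of_eq 0 h1 (by simp)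
  have h3 : (𝒜.φ (𝒜.pick m) ∘ 𝒜.exp m) ∘ (fun t : ℝ => t • w) = 𝒜.φ (𝒜.pick m) ∘ 𝒜.geo m w := by
    funext t
    simp only [Function.comp_apply, exp_smul]
  rw [h3] at h2
  exact h2.unique (𝒜.geo_hasDerivAt m w)

end exp

end RAtlas

theorem exists_expData {n : ℕ} {M : Type} [TopologicalSpace M] [T2Space M] [CompactSpace M]
    (𝒜 : RAtlas n M) : Nonempty (ExpData 𝒜) := by
  refine ⟨⟨𝒜.exp, fun m => ?_, 𝒜.exp_continuous, fun m v => ?_, fun m v t => ?_, fun γ hγ => ?_,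
    𝒜.exp_strict, fun m v w => ?_, fun m v w => ?_, fun m u w => ?_⟩⟩
  · rw [← zero_smul ℝ (0 : E n), 𝒜.exp_smul, 𝒜.geo_zero]
  · rw [𝒜.exp_ray]; exact 𝒜.geo_isGeo m v
  · rw [𝒜.exp_ray, RAtlas.IsGeo.speed_const 𝒜 (𝒜.geo_isGeo m v) t 0,
      𝒜.ipf_eq (RAtlas.IsGeo.isField_vel 𝒜 (𝒜.geo_isGeo m v))
        (RAtlas.IsGeo.isField_vel 𝒜 (𝒜.geo_isGeo m v)) (𝒜.geo_mem m v)]
    simp only [RAtlas.vel, 𝒜.geo_deriv, 𝒜.geo_zero, 𝒜.frame_spec, real_inner_self_eq_norm_sq]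
  · refine ⟨(𝒜.frame (γ 0)).symm (deriv (𝒜.φ (𝒜.pick (γ 0)) ∘ γ) 0), fun t => ?_⟩
    rw [𝒜.exp_smul]
    refine congrFun (𝒜.geo_unique hγ (𝒜.geo_isGeo _ _) (𝒜.mem_pick (γ 0)) ?_ ?_) t
    · rw [𝒜.geo_zero]
    · rw [𝒜.geo_deriv, ContinuousLinearEquiv.apply_symm_apply]
  · refine ⟨fun i j t hi hj => ?_, fun i t hi => ?_⟩
    · have h1 := (𝒜.exp_strict m (t • v) i hi).hasFDerivAt
      have h2 := ((𝒜.smooth i j _ hi hj).differentiableAt (by simp)).hasFDerivAt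
      have h3 := h2.comp (t • v) h1
      have h4 : (𝒜.φ j ∘ 𝒜.exp m) =ᶠ[𝓝 (t • v)] (𝒜.φ j ∘ (𝒜.φ i).symm) ∘ (𝒜.φ i ∘ 𝒜.exp m) := by
        filter_upwards [(𝒜.exp_continuous m).continuousAt.eventually
          ((𝒜.φ i).open_source.mem_nhds hi)] with u hu
        simp only [Function.comp_apply, (𝒜.φ i).left_inv hu]
      show fderiv ℝ (𝒜.φ j ∘ 𝒜.exp m) (t • v) (t • w) = _
      rw [(h3.congr_of_eventuallyEq h4).fderiv]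
      rfl
    · rw [𝒜.exp_ray] at hi ⊢
      exact (𝒜.varAt_family (𝒜.geo_isGeo m) (𝒜.dep_geo m v) w hi).1.congr EventuallyEq.rfl
        (𝒜.jac_eventuallyEq m v w i hi)
  · rw [← (𝒜.jac_eventuallyEq m v w _ (𝒜.geo_mem m v)).deriv_eq,
      (𝒜.varAt_family (𝒜.geo_isGeo m) (𝒜.dep_geo m v) w (𝒜.geo_mem m v)).2,
      (𝒜.hasStrict_ph_zero m v).hasFDerivAt.fderiv, 𝒜.fderiv_exp_zero]
    rfl
  · rw [𝒜.fderiv_exp_zero, 𝒜.fderiv_exp_zero, 𝒜.frame_spec]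

end Crest.Agent.R244
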