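import Crest.Agent.R244.Geod
import Crest.Agent.R244.Cover

/-! Row 244: Gauss lemma, expansion under non-positive curvature, Cartan–Hadamard. -/

set_option autoImplicit false
set_option maxSynthPendingDepth 3
open Set Filter Topology
open scoped ContDiff
open Crest.GeometryTopology.CoordMetric Crest.GeometryTopology.ChartCurvature
open Crest.GeometryTopology.Geodesic

noncomputable section
namespace Crest.Agent.R244

theorem ExpProps.convex_sqrt {f : ℝ → ℝ} (h1 : Differentiable ℝ f)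
    (h2 : Differentiable ℝ (deriv f)) (h0 : ∀ t, 0 ≤ f t) (h0' : ∀ t, 0 ≤ deriv (deriv f) t)
    (hc : ∀ t, deriv f t ^ 2 ≤ 2 * f t * deriv (deriv f) t) {ε : ℝ} (hε : 0 < ε) :
    ConvexOn ℝ univ fun t => √(f t + ε) := by
  have hp : ∀ t, 0 < f t + ε := fun t => add_pos_of_nonneg_of_pos (h0 t) hε
  have hs : ∀ t, 0 < √(f t + ε) := fun t => Real.sqrt_pos.2 (hp t)
  have d1 : ∀ t, HasDerivAt (fun t => √(f t + ε)) (deriv f t / (2 * √(f t + ε))) t := fun t =>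
    ((h1 t).hasDerivAt.add_const ε).sqrt (hp t).ne'
  have e1 : deriv (fun t => √(f t + ε)) = fun t => deriv f t / (2 * √(f t + ε)) :=
    funext fun t => (d1 t).deriv
  have d2 : ∀ t, HasDerivAt (fun t => deriv f t / (2 * √(f t + ε)))
      ((deriv (deriv f) t * (2 * √(f t + ε)) - deriv f t * (2 * (deriv f t / (2 * √(f t + ε))))) /
        (2 * √(f t + ε)) ^ 2) t := fun t =>
    (h2 t).hasDerivAt.div ((d1 t).const_mul 2) (mul_pos two_pos (hs t)).ne'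
  refine convexOn_univ_of_deriv2_nonneg (fun t => (d1 t).differentiableAt)
    (e1 ▸ fun t => (d2 t).differentiableAt) fun t => ?_
  change 0 ≤ deriv (deriv fun t => √(f t + ε)) t
  rw [e1, (d2 t).deriv]
  refine div_nonneg ?_ (sq_nonneg _)
  have e : deriv (deriv f) t * (2 * √(f t + ε)) - deriv f t * (2 * (deriv f t / (2 * √(f t + ε))))
      = (2 * √(f t + ε) ^ 2 * deriv (deriv f) t - deriv f t ^ 2) / √(f t + ε) := by
    have := (hs t).ne'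
    field_simp
  rw [e, Real.sq_sqrt (hp t).le]
  refine div_nonneg ?_ (hs t).le
  nlinarith [hc t, mul_nonneg hε.le (h0' t)]

/-- One-variable convexity lemma: `√f` is convex. -/
theorem deriv_deriv_le_of_convex_sqrt {f : ℝ → ℝ} (h1 : Differentiable ℝ f)
    (h2 : Differentiable ℝ (deriv f)) (h0 : ∀ t, 0 ≤ f t) (h0' : ∀ t, 0 ≤ deriv (deriv f) t)
    (hc : ∀ t, deriv f t ^ 2 ≤ 2 * f t * deriv (deriv f) t) (hz : f 0 = 0) :
    deriv (deriv f) 0 ≤ 2 * f 1 := by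
  have key : ∀ t ∈ Icc (0 : ℝ) 1, f t ≤ t ^ 2 * f 1 := by
    intro t ht
    have h3 : √(f t) ≤ t * √(f 1) := by
      have a1 : Continuous fun ε : ℝ => √(f t + ε) := by fun_prop
      have a2 : Continuous fun ε : ℝ => (1 - t) * √ε + t * √(f 1 + ε) := by fun_prop
      have := le_of_tendsto_of_tendsto ((a1.tendsto 0).mono_left (nhdsWithin_le_nhds (s := Ioi 0)))
        ((a2.tendsto 0).mono_left nhdsWithin_le_nhds) (by
          filter_upwards [self_mem_nhdsWithin] with ε hε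
          have := (ExpProps.convex_sqrt h1 h2 h0 h0' hc hε).2 (mem_univ 0) (mem_univ 1)
            (sub_nonneg.2 ht.2) ht.1 (sub_add_cancel 1 t)
          simpa [hz] using this)
      simpa using this
    have := pow_le_pow_left₀ (Real.sqrt_nonneg _) h3 2
    rwa [mul_pow, Real.sq_sqrt (h0 t), Real.sq_sqrt (h0 1)] at this
  have hd0 : deriv f 0 = 0 := by
    have := hc 0
    rw [hz] at this
    nlinarith
  by_contra hlt
  obtain ⟨a, ha1, ha2⟩ := exists_between (show f 1 < deriv (deriv f) 0 / 2 by linarith)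
  have d1 : ∀ t, HasDerivAt (fun t => a * t ^ 2 - f t) (a * (2 * t) - deriv f t) t := fun t =>
    (((hasDerivAt_pow 2 t).const_mul a).sub (h1 t).hasDerivAt).congr_deriv (by simp)
  have e1 : deriv (fun t => a * t ^ 2 - f t) = fun t => a * (2 * t) - deriv f t :=
    funext fun t => (d1 t).deriv
  have d2 : HasDerivAt (fun t => a * (2 * t) - deriv f t) (a * 2 - deriv (deriv f) 0) 0 :=
    ((((hasDerivAt_id (0 : ℝ)).const_mul 2).const_mul a).sub (h2 0).hasDerivAt).congr_deriv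
      (by simp)
  have hmax := isLocalMax_of_deriv_deriv_neg (f := fun t => a * t ^ 2 - f t) (x₀ := 0)
    (by rw [e1, d2.deriv]; linarith) (by rw [e1]; simp [hd0]) (d1 0).continuousAt
  obtain ⟨t, ht1, ht2⟩ := ((hmax.filter_mono (nhdsWithin_le_nhds (s := Ioi 0))).and
    (Ioo_mem_nhdsGT one_pos)).exists
  have := key t ⟨ht2.1.le, ht2.2.le⟩
  simp only [hz] at ht1
  nlinarith [mul_pos (pow_pos ht2.1 2) (sub_pos.2 ha1)]

namespace RAtlas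
variable {n : ℕ} {M : Type} [TopologicalSpace M] {𝒜 : RAtlas n M} {γ : ℝ → M}
  {J K : 𝒜.ι → ℝ → E n} {t : ℝ} {i : 𝒜.ι}

theorem IsGeo.eventually_mem (hγ : 𝒜.IsGeo γ) (hi : γ t ∈ (𝒜.φ i).source) :
    ∀ᶠ s in 𝓝 t, γ s ∈ (𝒜.φ i).source := (hγ t).1 ((𝒜.φ i).open_source.mem_nhds hi)

theorem hasDerivAt_ipf (hγ : 𝒜.IsGeo γ) (hJ : 𝒜.IsField γ J) (hK : 𝒜.IsField γ K)
    (hi : γ t ∈ (𝒜.φ i).source) (dJ : DifferentiableAt ℝ (J i) t)
    (dK : DifferentiableAt ℝ (K i) t) :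
    HasDerivAt (𝒜.ipf γ J K)
      (bil (𝒜.g i) ((𝒜.φ i ∘ γ) t) (cov (𝒜.g i) (𝒜.φ i ∘ γ) (J i) t) (K i t) +
        bil (𝒜.g i) ((𝒜.φ i ∘ γ) t) (J i t) (cov (𝒜.g i) (𝒜.φ i ∘ γ) (K i) t)) t :=
  (hasDerivAt_bil (c := 𝒜.φ i ∘ γ) (𝒜.riem i) ((𝒜.φ i).map_source hi)
    ((hγ t).2 i hi).1.self_of_nhds dJ dK).congr_of_eventuallyEq
      (𝒜.ipf_eventuallyEq hJ hK (hγ t).1 hi)

theorem hasDerivAt_ipf_vel (hγ : 𝒜.IsGeo γ) (hJ : 𝒜.IsJac γ J) (hi : γ t ∈ (𝒜.φ i).source) :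
    HasDerivAt (𝒜.ipf γ (𝒜.vel γ) J)
      (bil (𝒜.g i) ((𝒜.φ i ∘ γ) t) (deriv (𝒜.φ i ∘ γ) t)
        (cov (𝒜.g i) (𝒜.φ i ∘ γ) (J i) t)) t := by
  refine (hasDerivAt_ipf hγ (IsGeo.isField_vel 𝒜 hγ) hJ.1 hi ((hγ t).2 i hi).2.differentiableAt
    (hJ.2 i t hi).1.self_of_nhds).congr_deriv ?_
  have : cov (𝒜.g i) (𝒜.φ i ∘ γ) (𝒜.vel γ i) t = 0 := ((hγ t).2 i hi).cov_eq_zero
  rw [this, map_zero, zero_apply, zero_add]
  rfl

theorem ipf_vel_affine (hγ : 𝒜.IsGeo γ) (hJ : 𝒜.IsJac γ J) :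
    𝒜.ipf γ (𝒜.vel γ) J 1 = 𝒜.ipf γ (𝒜.vel γ) J 0 + deriv (𝒜.ipf γ (𝒜.vel γ) J) 0 := by
  have h2 : ∀ t, HasDerivAt (deriv (𝒜.ipf γ (𝒜.vel γ) J)) 0 t := fun t => by
    have hi := 𝒜.mem_pick (γ t)
    refine (hasDerivAt_bil_vel_cov (c := 𝒜.φ _ ∘ γ) (𝒜.riem _) ((𝒜.φ _).map_source hi)
      ((hγ t).2 _ hi) (hJ.2 _ t hi)).congr_of_eventuallyEq ?_
    filter_upwards [hγ.eventually_mem hi] with s hs using (hasDerivAt_ipf_vel hγ hJ hs).deriv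
  have h3 := is_const_of_deriv_eq_zero (fun t => (h2 t).differentiableAt) fun t => (h2 t).deriv
  have h4 : ∀ t, HasDerivAt
      (fun s => 𝒜.ipf γ (𝒜.vel γ) J s - deriv (𝒜.ipf γ (𝒜.vel γ) J) 0 * s) 0 t := fun t => by
    have := (hasDerivAt_ipf_vel hγ hJ (𝒜.mem_pick (γ t))).differentiableAt.hasDerivAt.sub
      ((hasDerivAt_id t).const_mul (deriv (𝒜.ipf γ (𝒜.vel γ) J) 0))
    rw [h3 t 0, mul_one, sub_self] at this
    exact this
  have h5 := is_const_of_deriv_eq_zero (fun t => (h4 t).differentiableAt)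
    (fun t => (h4 t).deriv) 1 0
  linarith

theorem hasDerivAt_ipf_self (hγ : 𝒜.IsGeo γ) (hJ : 𝒜.IsJac γ J) (hi : γ t ∈ (𝒜.φ i).source) :
    HasDerivAt (𝒜.ipf γ J J)
      (2 * bil (𝒜.g i) ((𝒜.φ i ∘ γ) t) (J i t) (cov (𝒜.g i) (𝒜.φ i ∘ γ) (J i) t)) t := by
  refine (hasDerivAt_ipf hγ hJ.1 hJ.1 hi (hJ.2 i t hi).1.self_of_nhds
    (hJ.2 i t hi).1.self_of_nhds).congr_deriv ?_
  rw [bil_symm (x := (𝒜.φ i ∘ γ) t) (𝒜.riem i) ((𝒜.φ i).map_source hi)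
    (cov (𝒜.g i) (𝒜.φ i ∘ γ) (J i) t), two_mul]

theorem hasDerivAt_deriv_ipf_self (hγ : 𝒜.IsGeo γ) (hJ : 𝒜.IsJac γ J)
    (hi : γ t ∈ (𝒜.φ i).source) :
    HasDerivAt (deriv (𝒜.ipf γ J J))
      (2 * (bil (𝒜.g i) ((𝒜.φ i ∘ γ) t) (cov (𝒜.g i) (𝒜.φ i ∘ γ) (J i) t)
        (cov (𝒜.g i) (𝒜.φ i ∘ γ) (J i) t) -
          secNumer (𝒜.g i) ((𝒜.φ i ∘ γ) t) (J i t) (deriv (𝒜.φ i ∘ γ) t))) t := by
  refine ((hasDerivAt_bil_cov (c := 𝒜.φ i ∘ γ) (𝒜.riem i) ((𝒜.φ i).map_source hi)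
    ((hγ t).2 i hi) (hJ.2 i t hi)).const_mul 2).congr_of_eventuallyEq ?_
  filter_upwards [hγ.eventually_mem hi] with s hs using (hasDerivAt_ipf_self hγ hJ hs).deriv

theorem NPC.deriv_deriv_ipf_le (h : 𝒜.NPC) (hγ : 𝒜.IsGeo γ) (hJ : 𝒜.IsJac γ J)
    (h0 : 𝒜.ipf γ J J 0 = 0) : deriv (deriv (𝒜.ipf γ J J)) 0 ≤ 2 * 𝒜.ipf γ J J 1 := by
  have key : ∀ t, 0 ≤ 𝒜.ipf γ J J t ∧ 0 ≤ deriv (deriv (𝒜.ipf γ J J)) t ∧
      deriv (𝒜.ipf γ J J) t ^ 2 ≤ 2 * 𝒜.ipf γ J J t * deriv (deriv (𝒜.ipf γ J J)) t := by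
    intro t
    obtain ⟨i, hi, hs⟩ := h (γ t)
    have hx := (𝒜.φ i).map_source hi
    rw [(hasDerivAt_deriv_ipf_self hγ hJ hi).deriv, (hasDerivAt_ipf_self hγ hJ hi).deriv,
      𝒜.ipf_eq hJ.1 hJ.1 hi]
    simp only [Function.comp_apply]
    have a1 := bil_nonneg (𝒜.riem i) hx (J i t)
    have a2 := bil_nonneg (𝒜.riem i) hx (cov (𝒜.g i) (𝒜.φ i ∘ γ) (J i) t)
    have a3 := bil_sq_le (𝒜.riem i) hx (J i t) (cov (𝒜.g i) (𝒜.φ i ∘ γ) (J i) t)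
    have a4 := hs (J i t) (deriv (𝒜.φ i ∘ γ) t)
    exact ⟨a1, by linarith, by nlinarith [mul_nonneg a1 (neg_nonneg.2 a4)]⟩
  exact deriv_deriv_le_of_convex_sqrt
    (fun t => (hasDerivAt_ipf_self hγ hJ (𝒜.mem_pick (γ t))).differentiableAt)
    (fun t => (hasDerivAt_deriv_ipf_self hγ hJ (𝒜.mem_pick (γ t))).differentiableAt)
    (fun t => (key t).1) (fun t => (key t).2.1) (fun t => (key t).2.2) h0

end RAtlas

namespace ExpData
variable {n : ℕ} {M : Type} [TopologicalSpace M] {𝒜 : RAtlas n M} (X : ExpData 𝒜)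

theorem deriv_ray (m : M) (v : E n) (t : ℝ) {i : 𝒜.ι} (hi : X.exp m (t • v) ∈ (𝒜.φ i).source) :
    deriv (𝒜.φ i ∘ fun t : ℝ => X.exp m (t • v)) t = fderiv ℝ (𝒜.φ i ∘ X.exp m) (t • v) v := by
  have := ((X.strict m (t • v) i hi).hasFDerivAt.comp_hasDerivAt t
    ((hasDerivAt_id t).smul_const v)).deriv
  rw [one_smul] at this
  exact this

theorem ray_zero_mem (m : M) (v : E n) : X.exp m ((0 : ℝ) • v) ∈ (𝒜.φ (𝒜.pick m)).source := by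
  rw [zero_smul, X.zero]
  exact 𝒜.mem_pick m

theorem cov_jac_zero (m : M) (v w : E n) :
    cov (𝒜.g (𝒜.pick m)) (𝒜.φ (𝒜.pick m) ∘ fun t : ℝ => X.exp m (t • v))
      (fun t : ℝ => fderiv ℝ (𝒜.φ (𝒜.pick m) ∘ X.exp m) (t • v) (t • w)) 0 =
      fderiv ℝ (𝒜.φ (𝒜.pick m) ∘ X.exp m) 0 w := by
  rw [cov, X.jac0]
  simp

/-- Gauss lemma. -/
theorem gauss (m : M) (v w : E n) (i : 𝒜.ι) (hi : X.exp m v ∈ (𝒜.φ i).source) :
    bil (𝒜.g i) (𝒜.φ i (X.exp m v)) (fderiv ℝ (𝒜.φ i ∘ X.exp m) v v)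
      (fderiv ℝ (𝒜.φ i ∘ X.exp m) v w) = inner ℝ v w := by
  have hγ := X.geo m v
  have hJ := X.jac m v w
  have h1 : X.exp m ((1 : ℝ) • v) ∈ (𝒜.φ i).source := by rwa [one_smul]
  have h0 := X.ray_zero_mem m v
  have h := RAtlas.ipf_vel_affine hγ hJ
  rw [𝒜.ipf_eq (RAtlas.IsGeo.isField_vel 𝒜 hγ) hJ.1 h1,
    𝒜.ipf_eq (RAtlas.IsGeo.isField_vel 𝒜 hγ) hJ.1 h0,
    (RAtlas.hasDerivAt_ipf_vel hγ hJ h0).deriv, X.cov_jac_zero, X.deriv_ray m v 0 h0,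
    RAtlas.vel, X.deriv_ray m v 1 h1] at h
  simpa [X.zero, X.iso0] using h

/-- Under non-positive curvature `d exp` does not decrease norms. -/
theorem expand (h : 𝒜.NPC) (m : M) (v w : E n) (i : 𝒜.ι) (hi : X.exp m v ∈ (𝒜.φ i).source) :
    ‖w‖ ^ 2 ≤ bil (𝒜.g i) (𝒜.φ i (X.exp m v)) (fderiv ℝ (𝒜.φ i ∘ X.exp m) v w)
      (fderiv ℝ (𝒜.φ i ∘ X.exp m) v w) := by
  have hγ := X.geo m v
  have hJ := X.jac m v w
  have h1 : X.exp m ((1 : ℝ) • v) ∈ (𝒜.φ i).source := by rwa [one_smul]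
  have h0 := X.ray_zero_mem m v
  have h2 := h.deriv_deriv_ipf_le hγ hJ (by rw [𝒜.ipf_eq hJ.1 hJ.1 h0]; simp)
  rw [𝒜.ipf_eq hJ.1 hJ.1 h1, (RAtlas.hasDerivAt_deriv_ipf_self hγ hJ h0).deriv,
    X.cov_jac_zero] at h2
  simpa [X.zero, X.iso0, secNumer] using h2

/-- Without conjugate points `d exp` is injective. -/
theorem injective_of_noConj (h : 𝒜.NoConj) (m : M) (v : E n) (i : 𝒜.ι)
    (hi : X.exp m v ∈ (𝒜.φ i).source) : Function.Injective (fderiv ℝ (𝒜.φ i ∘ X.exp m) v) := by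
  refine (injective_iff_map_eq_zero _).2 fun w hw => ?_
  have hγ := X.geo m v
  have hJ := X.jac m v w
  have h1 : X.exp m ((1 : ℝ) • v) ∈ (𝒜.φ i).source := by rwa [one_smul]
  have h0 := X.ray_zero_mem m v
  have h2 := h _ _ hγ hJ 1 0 one_ne_zero (𝒜.van_of_chart hJ.1 h1 (by simpa using hw))
    (𝒜.van_of_chart hJ.1 h0 (by simp))
  have h3 : (fun t : ℝ => fderiv ℝ (𝒜.φ (𝒜.pick m) ∘ X.exp m) (t • v) (t • w)) =ᶠ[𝓝 0]
      fun _ => 0 := (hγ.eventually_mem h0).mono fun s hs => h2 s _ hs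
  have h4 := X.iso0 m w w
  rw [← X.jac0 m v w, h3.deriv_eq] at h4
  simpa using h4.symm

theorem isCoveringMap_of_noConj [T2Space M] (h : 𝒜.NoConj) (m : M) : IsCoveringMap (X.exp m) :=
  isCoveringMap_of_gauss 𝒜 (X.cont m) (X.strict m) (X.injective_of_noConj h m)
    fun v w i hi => X.gauss m v w i hi

theorem rebase (m : M) (v : E n) (t₀ : ℝ) : ∃ w, ‖w‖ = ‖v‖ ∧
    ∀ t : ℝ, X.exp (X.exp m (t₀ • v)) (t • w) = X.exp m ((t₀ + t) • v) := by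
  have hγ : 𝒜.IsGeo fun t : ℝ => X.exp m ((t₀ + t) • v) := by
    simpa only [one_mul, add_comm _ t₀] using RAtlas.IsGeo.affine 𝒜 (X.geo m v) 1 t₀
  obtain ⟨w, hw⟩ := X.surj _ hγ
  simp only [add_zero] at hw
  refine ⟨w, ?_, fun t => (hw t).symm⟩
  have h1 := X.speed (X.exp m (t₀ • v)) w 0
  have h2 := X.speed m v (t₀ + 0)
  simp only [← hw] at h1
  have e : ∀ i, deriv (𝒜.φ i ∘ fun t : ℝ => X.exp m ((t₀ + t) • v)) 0 =
      deriv (𝒜.φ i ∘ fun t : ℝ => X.exp m (t • v)) (t₀ + 0) := fun i =>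
    deriv_comp_const_add (𝒜.φ i ∘ fun t : ℝ => X.exp m (t • v)) t₀ 0
  simp only [RAtlas.ipf, RAtlas.vel, e] at h1 h2
  exact (pow_left_inj₀ (norm_nonneg _) (norm_nonneg _) two_ne_zero).1 (h1.symm.trans h2)

theorem injective_of_npc (h : 𝒜.NPC) (m : M) (v : E n) (i : 𝒜.ι)
    (hi : X.exp m v ∈ (𝒜.φ i).source) : Function.Injective (fderiv ℝ (𝒜.φ i ∘ X.exp m) v) := by
  refine (injective_iff_map_eq_zero _).2 fun w hw => ?_
  have := X.expand h m v w i hi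
  rw [hw, map_zero] at this
  simpa using this

theorem lift_le (h : 𝒜.NPC) (m y : M) (w : E n) (c : ℝ → E n) (hc : ContinuousOn c (Icc 0 1))
    (hl : ∀ t ∈ Icc (0 : ℝ) 1, X.exp m (c t) = X.exp y (t • w)) : ‖c 1 - c 0‖ ≤ ‖w‖ := by
  have key : ∀ t ∈ Icc (0 : ℝ) 1, ∃ c' : E n, HasDerivWithinAt c c' (Icc 0 1) t ∧ ‖c'‖ ≤ ‖w‖ := by
    intro t ht
    obtain ⟨i, hi⟩ := 𝒜.cover (X.exp m (c t))
    have hi' : X.exp y (t • w) ∈ (𝒜.φ i).source := hl t ht ▸ hi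
    have hγ := X.geo y w
    let D : E n ≃L[ℝ] E n := (LinearEquiv.ofInjectiveEndo
      (fderiv ℝ (𝒜.φ i ∘ X.exp m) (c t) : E n →ₗ[ℝ] E n)
      (X.injective_of_npc h m (c t) i hi)).toContinuousLinearEquiv
    have hD : HasStrictFDerivAt (𝒜.φ i ∘ X.exp m) (D : E n →L[ℝ] E n) (c t) :=
      X.strict m (c t) i hi
    have hσ := ((hγ t).2 i hi').hasDerivAt
    have h1 := hD.to_localInverse.hasFDerivAt
    have e : (𝒜.φ i ∘ X.exp m) (c t) = (𝒜.φ i ∘ fun t : ℝ => X.exp y (t • w)) t :=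
      congrArg (𝒜.φ i) (hl t ht)
    rw [e] at h1
    refine ⟨_, (h1.comp_hasDerivAt t hσ).hasDerivWithinAt.congr_of_eventuallyEq_of_mem ?_ ht, ?_⟩
    · filter_upwards [(hc t ht).eventually hD.eventually_left_inverse, self_mem_nhdsWithin]
        with s h2 h3
      rw [← h2]
      exact congrArg (fun z => hD.localInverse _ _ _ (𝒜.φ i z)) (hl s h3)
    · have h2 := X.expand h m (c t)
        (D.symm (deriv (𝒜.φ i ∘ fun t : ℝ => X.exp y (t • w)) t)) i hi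
      have h3 := X.speed y w t
      rw [𝒜.ipf_eq (RAtlas.IsGeo.isField_vel 𝒜 hγ) (RAtlas.IsGeo.isField_vel 𝒜 hγ) hi'] at h3
      have h4 : fderiv ℝ (𝒜.φ i ∘ X.exp m) (c t)
          (D.symm (deriv (𝒜.φ i ∘ fun t : ℝ => X.exp y (t • w)) t)) =
          deriv (𝒜.φ i ∘ fun t : ℝ => X.exp y (t • w)) t := D.apply_symm_apply _
      rw [h4, hl t ht] at h2
      exact (pow_le_pow_iff_left₀ (norm_nonneg _) (norm_nonneg _) two_ne_zero).1
        (h2.trans_eq h3)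
  choose! c' h1 h2 using key
  exact norm_image_sub_le_of_norm_deriv_le_segment_01' h1 fun t ht => h2 t (Ico_subset_Icc_self ht)

theorem nonempty_npcExp (X : ExpData 𝒜) [T2Space M] [PreconnectedSpace M] (h : 𝒜.NPC) :
    Nonempty (NPCExp n M) := by
  have hc : ∀ m, IsCoveringMap (X.exp m) := fun m =>
    isCoveringMap_of_gauss 𝒜 (X.cont m) (X.strict m) (X.injective_of_npc h m)
      fun v w i hi => X.gauss m v w i hi
  exact ⟨⟨X.exp, X.zero, hc, fun m => surjective_of_isCoveringMap (hc m), X.rebase, X.lift_le h⟩⟩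

end ExpData

end Crest.Agent.R244
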