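import Crest.Agent.R244.CalcA

/-! Row 244: invariance of the geodesic and Jacobi equations under local isometries; consequences
for `RAtlas` (one chart per parameter suffices, chart independence of `ipf`). -/

set_option autoImplicit false
set_option maxSynthPendingDepth 3
open Set Filter Topology
open scoped ContDiff
open Crest.GeometryTopology.CoordMetric Crest.GeometryTopology.ChartCurvature
open Crest.GeometryTopology.Geodesic

noncomputable section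
namespace Crest.Agent.R244

section coord
variable {n : ℕ} {g g' : MetricField n} {U U' : Set (E n)} {τ : E n → E n} {y : E n}

theorem Trans.hasDerivAt_comp {F : Type} [NormedAddCommGroup F] [NormedSpace ℝ F] {f : E n → F}
    {c : ℝ → E n} {t : ℝ} (hf : ContDiffAt ℝ 2 f (c t))
    (hc : ∀ᶠ s in 𝓝 t, DifferentiableAt ℝ c s) :
    ∀ᶠ s in 𝓝 t, HasDerivAt (f ∘ c) (fderiv ℝ f (c s) (deriv c s)) s := by
  filter_upwards [hc, hc.self_of_nhds.continuousAt.eventually (hf.eventually (by simp))]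
    with s a1 a2
  exact (a2.differentiableAt (by simp)).hasFDerivAt.comp_hasDerivAt s a1.hasDerivAt

/-- Transformation law of the Christoffel symbols under a local isometry `τ`. -/
theorem Gam_trans (hg : IsRiemannianOn g U) (hg' : IsRiemannianOn g' U') (hy : y ∈ U)
    (hy' : τ y ∈ U') (hτ : ContDiffAt ℝ 2 τ y)
    (hiso : ∀ᶠ z in 𝓝 y, ∀ u v, bil g z u v = bil g' (τ z) (fderiv ℝ τ z u) (fderiv ℝ τ z v))
    (u v : E n) :
    fderiv ℝ τ y (Gam g y u v) =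
      fderiv ℝ (fderiv ℝ τ) y u v + Gam g' (τ y) (fderiv ℝ τ y u) (fderiv ℝ τ y v) := by
  have hb := ((contDiffAt_bil hg hy).differentiableAt (by simp)).hasFDerivAt
  have hb' := ((contDiffAt_bil hg' hy').differentiableAt (by simp)).hasFDerivAt
  have h1 := (hτ.differentiableAt (by simp)).hasFDerivAt
  have h2 := ((hτ.fderiv_right (m := 1) (by norm_num)).differentiableAt (by simp)).hasFDerivAt
  have hs := hτ.isSymmSndFDerivAt (by simp)
  have hd : ∀ w u v, fderiv ℝ (bil g) y w u v =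
      fderiv ℝ (bil g') (τ y) (fderiv ℝ τ y w) (fderiv ℝ τ y u) (fderiv ℝ τ y v) +
        bil g' (τ y) (fderiv ℝ (fderiv ℝ τ) y w u) (fderiv ℝ τ y v) +
        bil g' (τ y) (fderiv ℝ τ y u) (fderiv ℝ (fderiv ℝ τ) y w v) := fun w u v => by
    have a1 := (hb.clm_apply (hasFDerivAt_const u y)).clm_apply (hasFDerivAt_const v y)
    have a2 := (((hb'.comp y h1).clm_apply (h2.clm_apply (hasFDerivAt_const u y))).clm_apply
      (h2.clm_apply (hasFDerivAt_const v y))).congr_of_eventuallyEq (hiso.mono fun z hz => hz u v)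
    have a3 := DFunLike.congr_fun (a1.unique a2) w
    simp only [ContinuousLinearMap.comp_zero, zero_add, add_apply,
      ContinuousLinearMap.flip_apply, ContinuousLinearMap.comp_apply, Function.comp_apply] at a3
    rw [a3]
    ring
  have hinj : Function.Injective (fderiv ℝ τ y) := (injective_iff_map_eq_zero _).2 fun w hw => by
    by_contra h
    have := bil_pos hg hy h
    rw [hiso.self_of_nhds, hw] at this
    simp at this
  have hsurj : Function.Surjective (fderiv ℝ τ y) :=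
    (LinearMap.injective_iff_surjective (f := (fderiv ℝ τ y : E n →ₗ[ℝ] E n))).1 hinj
  refine eq_of_bil_eq hg' hy' fun w' => ?_
  obtain ⟨w, rfl⟩ := hsurj w'
  have k1 := koszul hg hy u v w
  have k2 := koszul hg' hy' (fderiv ℝ τ y u) (fderiv ℝ τ y v) (fderiv ℝ τ y w)
  rw [hiso.self_of_nhds, hd, hd, hd, hs.eq v u, hs.eq w u, hs.eq w v,
    bil_symm hg' hy' (fderiv ℝ τ y v) (fderiv ℝ (fderiv ℝ τ) y u w)] at k1
  rw [map_add, add_apply]
  linarith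

theorem GeoAt.trans {c : ℝ → E n} {t : ℝ} (hg : IsRiemannianOn g U) (hg' : IsRiemannianOn g' U')
    (hy : c t ∈ U) (hy' : τ (c t) ∈ U') (hτ : ContDiffAt ℝ ∞ τ (c t))
    (hiso : ∀ᶠ z in 𝓝 (c t), ∀ u v,
      bil g z u v = bil g' (τ z) (fderiv ℝ τ z u) (fderiv ℝ τ z v))
    (h : GeoAt g c t) : GeoAt g' (τ ∘ c) t := by
  have h2 : ContDiffAt ℝ 2 τ (c t) := hτ.of_le (by norm_cast)
  have hc := h.1.self_of_nhds
  have hA := ((h2.fderiv_right (m := 1) (by norm_num)).differentiableAt (by simp)).hasFDerivAt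
  have e := Trans.hasDerivAt_comp h2 h.1
  have e' : deriv (τ ∘ c) =ᶠ[𝓝 t] fun s => fderiv ℝ τ (c s) (deriv c s) :=
    e.mono fun s hs => hs.deriv
  refine ⟨e.mono fun s hs => hs.differentiableAt, ?_⟩
  refine (((hA.comp_hasDerivAt t hc.hasDerivAt).clm_apply h.2).congr_of_eventuallyEq
    e').congr_deriv ?_
  rw [e'.self_of_nhds, map_neg, Function.comp_apply, Function.comp_apply,
    Gam_trans hg hg' hy hy' h2 hiso]
  abel

theorem VarAt.trans {c J : ℝ → E n} {t : ℝ} (hg : IsRiemannianOn g U)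
    (hg' : IsRiemannianOn g' U') (hy : c t ∈ U) (hy' : τ (c t) ∈ U')
    (hτ : ContDiffAt ℝ ∞ τ (c t))
    (hiso : ∀ᶠ z in 𝓝 (c t), ∀ u v,
      bil g z u v = bil g' (τ z) (fderiv ℝ τ z u) (fderiv ℝ τ z v))
    (h : GeoAt g c t) (hJ : VarAt g c J t) :
    VarAt g' (τ ∘ c) (fun s => fderiv ℝ τ (c s) (J s)) t := by
  have h3 : ContDiffAt ℝ 3 τ (c t) := hτ.of_le (by norm_cast)
  have h2 : ContDiffAt ℝ 2 τ (c t) := h3.of_le (by norm_num)
  have hA2 : ContDiffAt ℝ 2 (fderiv ℝ τ) (c t) := h3.fderiv_right (by norm_num)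
  have hc := h.1.self_of_nhds
  have h1 := (h3.differentiableAt (by simp)).hasFDerivAt
  have hA := (hA2.differentiableAt (by simp)).hasFDerivAt
  have hB := ((hA2.fderiv_right (m := 1) (by norm_num)).differentiableAt (by simp)).hasFDerivAt
  have hG := ((contDiffAt_Gam hg hy).differentiableAt (by simp)).hasFDerivAt
  have hG' := ((contDiffAt_Gam hg' hy').differentiableAt (by simp)).hasFDerivAt
  have ev2 := h2.eventually (by simp)
  have hs := h2.isSymmSndFDerivAt (by simp)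
  have hs1 := hA2.isSymmSndFDerivAt (by simp)
  have hs2 : ∀ a u v, fderiv ℝ (fderiv ℝ (fderiv ℝ τ)) (c t) a u v =
      fderiv ℝ (fderiv ℝ (fderiv ℝ τ)) (c t) a v u := fun a u v => by
    have a1 := (hB.clm_apply (hasFDerivAt_const u _)).clm_apply (hasFDerivAt_const v _)
    have a2 := ((hB.clm_apply (hasFDerivAt_const v _)).clm_apply
      (hasFDerivAt_const u _)).congr_of_eventuallyEq
        (ev2.mono fun z hz => (hz.isSymmSndFDerivAt (by simp)).eq u v)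
    simpa using DFunLike.congr_fun (a1.unique a2) a
  have hP : ∀ᶠ z in 𝓝 (c t), ∀ u v, fderiv ℝ τ z (Gam g z u v) =
      fderiv ℝ (fderiv ℝ τ) z u v + Gam g' (τ z) (fderiv ℝ τ z u) (fderiv ℝ τ z v) := by
    filter_upwards [hg.isOpen.mem_nhds hy, h1.continuousAt (hg'.isOpen.mem_nhds hy'), ev2,
      hiso.eventually_nhds] with z a1 a2 a3 a4
    exact Gam_trans hg hg' a1 a2 a3 a4
  set v := deriv c t with hv
  have hd : fderiv ℝ τ (c t) (fderiv ℝ (Gam g) (c t) (J t) v v) +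
      fderiv ℝ (fderiv ℝ τ) (c t) (J t) (Gam g (c t) v v) =
      fderiv ℝ (fderiv ℝ (fderiv ℝ τ)) (c t) (J t) v v +
        (Gam g' (τ (c t)) (fderiv ℝ τ (c t) v) (fderiv ℝ (fderiv ℝ τ) (c t) (J t) v) +
        (Gam g' (τ (c t)) (fderiv ℝ (fderiv ℝ τ) (c t) (J t) v) (fderiv ℝ τ (c t) v) +
        fderiv ℝ (Gam g') (τ (c t)) (fderiv ℝ τ (c t) (J t)) (fderiv ℝ τ (c t) v)
          (fderiv ℝ τ (c t) v))) := by
    have a1 := hA.clm_apply ((hG.clm_apply (hasFDerivAt_const v _)).clm_apply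
      (hasFDerivAt_const v _))
    have a2 := (((hB.clm_apply (hasFDerivAt_const v _)).clm_apply (hasFDerivAt_const v _)).fun_add
      (((hG'.comp _ h1).clm_apply (hA.clm_apply (hasFDerivAt_const v _))).clm_apply
        (hA.clm_apply (hasFDerivAt_const v _)))).congr_of_eventuallyEq (hP.mono fun z hz => hz v v)
    simpa only [ContinuousLinearMap.comp_zero, zero_add, add_apply,
      ContinuousLinearMap.flip_apply, ContinuousLinearMap.comp_apply, Function.comp_apply]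
      using DFunLike.congr_fun (a1.unique a2) (J t)
  have e : ∀ᶠ s in 𝓝 t, HasDerivAt (fun s => fderiv ℝ τ (c s) (J s))
      (fderiv ℝ (fderiv ℝ τ) (c s) (deriv c s) (J s) + fderiv ℝ τ (c s) (deriv J s)) s := by
    filter_upwards [Trans.hasDerivAt_comp hA2 h.1, hJ.1] with s a1 a2
    exact a1.clm_apply a2.hasDerivAt
  have e' : deriv (fun s => fderiv ℝ τ (c s) (J s)) =ᶠ[𝓝 t] fun s =>
      fderiv ℝ (fderiv ℝ τ) (c s) (deriv c s) (J s) + fderiv ℝ τ (c s) (deriv J s) :=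
    e.mono fun s hs => hs.deriv
  refine ⟨e.mono fun s hs => hs.differentiableAt, ?_⟩
  refine (((((hB.comp_hasDerivAt t hc.hasDerivAt).clm_apply h.2).clm_apply
    hJ.1.self_of_nhds.hasDerivAt).fun_add ((hA.comp_hasDerivAt t hc.hasDerivAt).clm_apply
      hJ.2)).congr_of_eventuallyEq e').congr_deriv ?_
  rw [e'.self_of_nhds, (Trans.hasDerivAt_comp h2 h.1).self_of_nhds.deriv]
  rw [Gam_symm hg' hy' (fderiv ℝ (fderiv ℝ τ) (c t) (J t) v), hs.eq (J t), hs.eq (J t),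
    hs1.eq (J t), hs2 v (J t)] at hd
  simp only [Function.comp_apply, ← hv, add_apply, map_neg, map_sub, map_smul,
    map_add, neg_apply, hP.self_of_nhds v (deriv J t)]
  linear_combination (norm := module) (-1 : ℝ) • hd

end coord

namespace RAtlas
variable {n : ℕ} {M : Type} [TopologicalSpace M] (𝒜 : RAtlas n M)

theorem isom_eventually {i j : 𝒜.ι} {x : M} (hi : x ∈ (𝒜.φ i).source) (hj : x ∈ (𝒜.φ j).source) :
    ∀ᶠ z in 𝓝 (𝒜.φ i x), ∀ u v, bil (𝒜.g i) z u v =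
      bil (𝒜.g j) ((𝒜.φ j ∘ (𝒜.φ i).symm) z) (fderiv ℝ (𝒜.φ j ∘ (𝒜.φ i).symm) z u)
        (fderiv ℝ (𝒜.φ j ∘ (𝒜.φ i).symm) z v) := by
  filter_upwards [(𝒜.φ i).open_target.mem_nhds ((𝒜.φ i).map_source hi),
    ((𝒜.φ i).continuousAt_symm ((𝒜.φ i).map_source hi)).eventually
      ((𝒜.φ j).open_source.mem_nhds (by rwa [(𝒜.φ i).left_inv hi]))] with z hz hz'
  have := 𝒜.isom i j _ ((𝒜.φ i).map_target hz) hz'
  rwa [(𝒜.φ i).right_inv hz] at this

/-- Along a curve continuous at `t`, the expression in chart `j` is the transition map applied to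
the expression in chart `i`. -/
theorem comp_eventuallyEq {γ : ℝ → M} {t : ℝ} (hγ : ContinuousAt γ t) {i j : 𝒜.ι}
    (hi : γ t ∈ (𝒜.φ i).source) :
    (𝒜.φ j ∘ (𝒜.φ i).symm) ∘ (𝒜.φ i ∘ γ) =ᶠ[𝓝 t] 𝒜.φ j ∘ γ := by
  filter_upwards [hγ.eventually ((𝒜.φ i).open_source.mem_nhds hi)] with s hs
  simp only [Function.comp_apply, (𝒜.φ i).left_inv hs]

/-- Cocycle rule for the derivatives of the transition maps. -/
theorem fderiv_cocycle {i j k : 𝒜.ι} {x : M} (hi : x ∈ (𝒜.φ i).source)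
    (hj : x ∈ (𝒜.φ j).source) (hk : x ∈ (𝒜.φ k).source) (u : E n) :
    fderiv ℝ (𝒜.φ k ∘ (𝒜.φ j).symm) (𝒜.φ j x) (fderiv ℝ (𝒜.φ j ∘ (𝒜.φ i).symm) (𝒜.φ i x) u)
      = fderiv ℝ (𝒜.φ k ∘ (𝒜.φ i).symm) (𝒜.φ i x) u := by
  have h1 := ((𝒜.smooth i j x hi hj).differentiableAt (by simp)).hasFDerivAt
  have h2 := ((𝒜.smooth j k x hj hk).differentiableAt (by simp)).hasFDerivAt
  have e : (𝒜.φ j ∘ (𝒜.φ i).symm) (𝒜.φ i x) = 𝒜.φ j x := by
    rw [Function.comp_apply, (𝒜.φ i).left_inv hi]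
  have h3 := HasFDerivAt.comp (𝒜.φ i x) (e ▸ h2) h1
  have h4 : 𝒜.φ k ∘ (𝒜.φ i).symm =ᶠ[𝓝 (𝒜.φ i x)]
      (𝒜.φ k ∘ (𝒜.φ j).symm) ∘ 𝒜.φ j ∘ (𝒜.φ i).symm := by
    filter_upwards [((𝒜.φ i).continuousAt_symm ((𝒜.φ i).map_source hi)).eventually
      ((𝒜.φ j).open_source.mem_nhds (by rwa [(𝒜.φ i).left_inv hi]))] with z hz
    simp only [Function.comp_apply, (𝒜.φ j).left_inv hz]
  rw [(h3.congr_of_eventuallyEq h4).fderiv, e]
  rfl

theorem fderiv_self {i : 𝒜.ι} {x : M} (hi : x ∈ (𝒜.φ i).source) (u : E n) :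
    fderiv ℝ (𝒜.φ i ∘ (𝒜.φ i).symm) (𝒜.φ i x) u = u := by
  have h : 𝒜.φ i ∘ (𝒜.φ i).symm =ᶠ[𝓝 (𝒜.φ i x)] id :=
    (𝒜.φ i).eventually_right_inverse' hi
  rw [h.fderiv_eq, fderiv_id]
  rfl

theorem isGeoAt_of_chart {γ : ℝ → M} {t : ℝ} (hγ : ContinuousAt γ t) {i : 𝒜.ι}
    (hi : γ t ∈ (𝒜.φ i).source) (h : GeoAt (𝒜.g i) (𝒜.φ i ∘ γ) t) : 𝒜.IsGeoAt γ t := by
  refine ⟨hγ, fun j hj => ?_⟩
  refine (h.trans (𝒜.riem i) (𝒜.riem j) ((𝒜.φ i).map_source hi) ?_ (𝒜.smooth i j _ hi hj)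
    (𝒜.isom_eventually hi hj)).congr (𝒜.comp_eventuallyEq hγ hi)
  simp only [Function.comp_apply, (𝒜.φ i).left_inv hi]
  exact (𝒜.φ j).map_source hj

theorem IsGeo.continuous {γ : ℝ → M} (h : 𝒜.IsGeo γ) : Continuous γ :=
  continuous_iff_continuousAt.2 fun t => (h t).1

theorem isJac_of_chart {γ : ℝ → M} {J : 𝒜.ι → ℝ → E n} (hγ : 𝒜.IsGeo γ) (hJ : 𝒜.IsField γ J)
    (h : ∀ t, ∃ i, γ t ∈ (𝒜.φ i).source ∧ VarAt (𝒜.g i) (𝒜.φ i ∘ γ) (J i) t) : 𝒜.IsJac γ J := by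
  refine ⟨hJ, fun j t hj => ?_⟩
  obtain ⟨i, hi, hV⟩ := h t
  refine (hV.trans (𝒜.riem i) (𝒜.riem j) ((𝒜.φ i).map_source hi) ?_ (𝒜.smooth i j _ hi hj)
    (𝒜.isom_eventually hi hj) ((hγ t).2 i hi)).congr (𝒜.comp_eventuallyEq (hγ t).1 hi) ?_
  · simp only [Function.comp_apply, (𝒜.φ i).left_inv hi]
    exact (𝒜.φ j).map_source hj
  · filter_upwards [(hγ t).1.eventually ((𝒜.φ i).open_source.mem_nhds hi),
      (hγ t).1.eventually ((𝒜.φ j).open_source.mem_nhds hj)] with s a1 a2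
    exact (hJ i j s a1 a2).symm

theorem van_of_chart {γ : ℝ → M} {J : 𝒜.ι → ℝ → E n} (hJ : 𝒜.IsField γ J) {t : ℝ} {i : 𝒜.ι}
    (hi : γ t ∈ (𝒜.φ i).source) (h : J i t = 0) : 𝒜.Van γ J t := by
  intro j hj
  rw [hJ i j t hi hj, h, map_zero]

/-- Velocities in two charts are related by the derivative of the transition map. -/
theorem IsGeoAt.vel_eq {γ : ℝ → M} {t : ℝ} (h : 𝒜.IsGeoAt γ t) {i j : 𝒜.ι}
    (hi : γ t ∈ (𝒜.φ i).source) (hj : γ t ∈ (𝒜.φ j).source) :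
    deriv (𝒜.φ j ∘ γ) t =
      fderiv ℝ (𝒜.φ j ∘ (𝒜.φ i).symm) (𝒜.φ i (γ t)) (deriv (𝒜.φ i ∘ γ) t) := by
  rw [← (𝒜.comp_eventuallyEq (j := j) h.1 hi).deriv_eq]
  exact (((𝒜.smooth i j _ hi hj).differentiableAt (by simp)).hasFDerivAt.comp_hasDerivAt t
    (h.2 i hi).1.self_of_nhds.hasDerivAt).deriv

theorem IsGeo.isField_vel {γ : ℝ → M} (h : 𝒜.IsGeo γ) : 𝒜.IsField γ (𝒜.vel γ) :=
  fun _ _ t hi hj => IsGeoAt.vel_eq 𝒜 (h t) hi hj

theorem ipf_eq {γ : ℝ → M} {J K : 𝒜.ι → ℝ → E n} (hJ : 𝒜.IsField γ J) (hK : 𝒜.IsField γ K)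
    {t : ℝ} {i : 𝒜.ι} (hi : γ t ∈ (𝒜.φ i).source) :
    𝒜.ipf γ J K t = bil (𝒜.g i) (𝒜.φ i (γ t)) (J i t) (K i t) := by
  rw [ipf, 𝒜.isom i _ _ hi (𝒜.mem_pick _), hJ i _ t hi (𝒜.mem_pick _), hK i _ t hi (𝒜.mem_pick _)]

theorem ipf_eventuallyEq {γ : ℝ → M} {J K : 𝒜.ι → ℝ → E n} (hJ : 𝒜.IsField γ J)
    (hK : 𝒜.IsField γ K) {t : ℝ} (hγ : ContinuousAt γ t) {i : 𝒜.ι}
    (hi : γ t ∈ (𝒜.φ i).source) :
    𝒜.ipf γ J K =ᶠ[𝓝 t] fun s => bil (𝒜.g i) ((𝒜.φ i ∘ γ) s) (J i s) (K i s) := by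
  filter_upwards [hγ.eventually ((𝒜.φ i).open_source.mem_nhds hi)] with s hs
  exact 𝒜.ipf_eq hJ hK hs

end RAtlas

end Crest.Agent.R244
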