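import Crest.Agent.R244.CalcB
import Crest.Agent.R244.Trans
import Crest.Agent.R244.Flow

/-! Row 244: uniqueness and global existence of geodesics, uniqueness of Jacobi fields. -/

set_option autoImplicit false
set_option maxSynthPendingDepth 3
open Set Filter Topology
open scoped ContDiff
open Crest.GeometryTopology.CoordMetric Crest.GeometryTopology.ChartCurvature
open Crest.GeometryTopology.Geodesic

noncomputable section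
namespace Crest.Agent.R244

section spray
variable {n : ℕ} {g : MetricField n} {U : Set (E n)}

/-- The geodesic spray in a chart. -/
def spray (g : MetricField n) (z : E n × E n) : E n × E n := (z.2, -(Gam g z.1 z.2 z.2))

theorem contDiffOn_spray (hg : IsRiemannianOn g U) : ContDiffOn ℝ ∞ (spray g) (U ×ˢ univ) := by
  have h1 : ContDiffOn ℝ ∞ (fun z : E n × E n => Gam g z.1) (U ×ˢ univ) :=
    (contDiffOn_Gam hg).comp contDiffOn_fst (fun z hz => hz.1)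
  exact contDiffOn_snd.prodMk ((h1.clm_apply contDiffOn_snd).clm_apply contDiffOn_snd).neg

theorem fderiv_spray (hg : IsRiemannianOn g U) {z : E n × E n} (hz : z.1 ∈ U) (ζ : E n × E n) :
    fderiv ℝ (spray g) z ζ =
      (ζ.2, -(fderiv ℝ (Gam g) z.1 ζ.1 z.2 z.2) - (2 : ℝ) • Gam g z.1 z.2 ζ.2) := by
  have hG : HasFDerivAt (Gam g) (fderiv ℝ (Gam g) z.1) z.1 :=
    ((contDiffAt_Gam hg hz).differentiableAt (by simp)).hasFDerivAt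
  have h1 : HasFDerivAt (fun z : E n × E n => Gam g z.1)
      ((fderiv ℝ (Gam g) z.1).comp (ContinuousLinearMap.fst ℝ (E n) (E n))) z :=
    hG.comp z hasFDerivAt_fst
  have h2 := (h1.clm_apply (hasFDerivAt_snd (p := z))).clm_apply (hasFDerivAt_snd (p := z))
  have h3 := (hasFDerivAt_snd (𝕜 := ℝ) (p := z)).prodMk h2.neg
  have h4 : fderiv ℝ (spray g) z = _ := h3.fderiv
  rw [h4]
  have hs := Gam_symm hg hz ζ.2 z.2
  refine Prod.ext rfl ?_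
  simp only [ContinuousLinearMap.prod_apply, neg_apply,
    add_apply, ContinuousLinearMap.comp_apply, ContinuousLinearMap.flip_apply,
    ContinuousLinearMap.coe_snd', ContinuousLinearMap.coe_fst', hs, two_smul]
  abel

theorem GeoAt.hasDerivAt_spray {c : ℝ → E n} {t : ℝ} (h : GeoAt g c t) :
    HasDerivAt (fun s => (c s, deriv c s)) (spray g (c t, deriv c t)) t :=
  h.1.self_of_nhds.hasDerivAt.prodMk h.2

theorem hasDerivAt_fst' {z : ℝ → E n × E n} {w : E n × E n} {t : ℝ} (h : HasDerivAt z w t) :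
    HasDerivAt (fun s => (z s).1) w.1 t :=
  (ContinuousLinearMap.fst ℝ (E n) (E n)).hasFDerivAt.comp_hasDerivAt t h

theorem hasDerivAt_snd' {z : ℝ → E n × E n} {w : E n × E n} {t : ℝ} (h : HasDerivAt z w t) :
    HasDerivAt (fun s => (z s).2) w.2 t :=
  (ContinuousLinearMap.snd ℝ (E n) (E n)).hasFDerivAt.comp_hasDerivAt t h

/-- An integral curve of the spray projects to a geodesic. -/
theorem geoAt_of_spray {z : ℝ → E n × E n} {t : ℝ}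
    (h : ∀ᶠ s in 𝓝 t, HasDerivAt z (spray g (z s)) s) :
    GeoAt g (fun s => (z s).1) t ∧ deriv (fun s => (z s).1) t = (z t).2 := by
  have h1 : ∀ᶠ s in 𝓝 t, HasDerivAt (fun s => (z s).1) (z s).2 s :=
    h.mono fun s hs => hasDerivAt_fst' hs
  have h2 : deriv (fun s => (z s).1) =ᶠ[𝓝 t] fun s => (z s).2 := h1.mono fun s hs => hs.deriv
  refine ⟨⟨h1.mono fun s hs => hs.differentiableAt, ?_⟩, h2.self_of_nhds⟩
  rw [h2.self_of_nhds]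
  exact (hasDerivAt_snd' h.self_of_nhds).congr_of_eventuallyEq h2

theorem VarAt.hasDerivAt_spray (hg : IsRiemannianOn g U) {c J : ℝ → E n} {t : ℝ} (hc : c t ∈ U)
    (h : VarAt g c J t) :
    HasDerivAt (fun s => (J s, deriv J s))
      (fderiv ℝ (spray g) (c t, deriv c t) (J t, deriv J t)) t := by
  rw [fderiv_spray hg (z := (c t, deriv c t)) hc]
  exact h.1.self_of_nhds.hasDerivAt.prodMk h.2

/-- A solution of the linearised spray equation projects to a Jacobi field. -/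
theorem varAt_of_spray (hg : IsRiemannianOn g U) {c : ℝ → E n} {ζ : ℝ → E n × E n} {t : ℝ}
    (hc : ∀ᶠ s in 𝓝 t, c s ∈ U)
    (h : ∀ᶠ s in 𝓝 t, HasDerivAt ζ (fderiv ℝ (spray g) (c s, deriv c s) (ζ s)) s) :
    VarAt g c (fun s => (ζ s).1) t ∧ deriv (fun s => (ζ s).1) t = (ζ t).2 := by
  have h0 : ∀ᶠ s in 𝓝 t, HasDerivAt ζ ((ζ s).2,
      -(fderiv ℝ (Gam g) (c s) (ζ s).1 (deriv c s) (deriv c s))
        - (2 : ℝ) • Gam g (c s) (deriv c s) (ζ s).2) s := by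
    filter_upwards [hc, h] with s hs hs'
    rwa [fderiv_spray hg (z := (c s, deriv c s)) hs] at hs'
  have h1 : ∀ᶠ s in 𝓝 t, HasDerivAt (fun s => (ζ s).1) (ζ s).2 s :=
    h0.mono fun s hs => hasDerivAt_fst' hs
  have h2 : deriv (fun s => (ζ s).1) =ᶠ[𝓝 t] fun s => (ζ s).2 := h1.mono fun s hs => hs.deriv
  refine ⟨⟨h1.mono fun s hs => hs.differentiableAt, ?_⟩, h2.self_of_nhds⟩
  rw [h2.self_of_nhds]
  exact (hasDerivAt_snd' h0.self_of_nhds).congr_of_eventuallyEq h2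


theorem GeoAt.affine {c : ℝ → E n} (a b t : ℝ) (h : GeoAt g c (a * t + b)) :
    GeoAt g (fun t => c (a * t + b)) t := by
  have hl : ∀ s : ℝ, HasDerivAt (fun s : ℝ => a * s + b) a s := fun s => by
    simpa using ((hasDerivAt_id s).const_mul a).add_const b
  have h1 : ∀ᶠ s in 𝓝 t, DifferentiableAt ℝ c (a * s + b) :=
    (hl t).continuousAt.tendsto.eventually h.1
  have h2 : ∀ᶠ s in 𝓝 t, HasDerivAt (fun t => c (a * t + b)) (a • deriv c (a * s + b)) s :=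
    h1.mono fun s hs => hs.hasDerivAt.scomp s (hl s)
  have h3 : deriv (fun t => c (a * t + b)) =ᶠ[𝓝 t] fun s => a • deriv c (a * s + b) :=
    h2.mono fun s hs => hs.deriv
  refine ⟨h2.mono fun s hs => hs.differentiableAt, ?_⟩
  rw [h3.self_of_nhds]
  have h4 := (h.2.scomp t (hl t)).const_smul a
  refine (h4.congr_of_eventuallyEq h3).congr_deriv ?_
  simp only [map_smul, smul_neg, smul_apply]

end spray

namespace RAtlas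
variable {n : ℕ} {M : Type} [TopologicalSpace M] (𝒜 : RAtlas n M)

theorem contDiffAt_spray {i : 𝒜.ι} {z : E n × E n} (hz : z.1 ∈ (𝒜.φ i).target) :
    ContDiffAt ℝ ∞ (spray (𝒜.g i)) z :=
  (contDiffOn_spray (𝒜.riem i)).contDiffAt
    (((𝒜.φ i).open_target.prod isOpen_univ).mem_nhds ⟨hz, mem_univ _⟩)

theorem geo_eventuallyEq {γ₁ γ₂ : ℝ → M} {t₀ : ℝ} (h₁ : ∀ᶠ t in 𝓝 t₀, 𝒜.IsGeoAt γ₁ t)
    (h₂ : ∀ᶠ t in 𝓝 t₀, 𝒜.IsGeoAt γ₂ t) {i : 𝒜.ι} (hi : γ₁ t₀ ∈ (𝒜.φ i).source)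
    (h₀ : γ₁ t₀ = γ₂ t₀) (hv : deriv (𝒜.φ i ∘ γ₁) t₀ = deriv (𝒜.φ i ∘ γ₂) t₀) :
    γ₁ =ᶠ[𝓝 t₀] γ₂ := by
  have e₁ : ∀ᶠ t in 𝓝 t₀, γ₁ t ∈ (𝒜.φ i).source :=
    h₁.self_of_nhds.1.eventually ((𝒜.φ i).open_source.mem_nhds hi)
  have e₂ : ∀ᶠ t in 𝓝 t₀, γ₂ t ∈ (𝒜.φ i).source :=
    h₂.self_of_nhds.1.eventually ((𝒜.φ i).open_source.mem_nhds (h₀ ▸ hi))
  have key := ode_eventuallyEq (f := spray (𝒜.g i))
    (c₁ := fun s => ((𝒜.φ i ∘ γ₁) s, deriv (𝒜.φ i ∘ γ₁) s))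
    (c₂ := fun s => ((𝒜.φ i ∘ γ₂) s, deriv (𝒜.φ i ∘ γ₂) s)) (t₀ := t₀)
    ((𝒜.contDiffAt_spray ((𝒜.φ i).map_source hi)).of_le (by simp))
    (by filter_upwards [h₁, e₁] with t ht ht' using (ht.2 i ht').hasDerivAt_spray)
    (by filter_upwards [h₂, e₂] with t ht ht' using (ht.2 i ht').hasDerivAt_spray)
    (by simp only [Function.comp_apply, h₀, hv])
  filter_upwards [key, e₁, e₂] with t ht h1 h2
  exact (𝒜.φ i).injOn h1 h2 (congrArg Prod.fst ht)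

theorem geo_eqOn [T2Space M] {γ₁ γ₂ : ℝ → M} {I : Set ℝ} (hI : IsOpen I) (hI' : IsPreconnected I)
    (h₁ : ∀ t ∈ I, 𝒜.IsGeoAt γ₁ t) (h₂ : ∀ t ∈ I, 𝒜.IsGeoAt γ₂ t) {t₀ : ℝ} (ht₀ : t₀ ∈ I)
    {i : 𝒜.ι} (hi : γ₁ t₀ ∈ (𝒜.φ i).source) (h₀ : γ₁ t₀ = γ₂ t₀)
    (hv : deriv (𝒜.φ i ∘ γ₁) t₀ = deriv (𝒜.φ i ∘ γ₂) t₀) : EqOn γ₁ γ₂ I := by
  have ev₁ : ∀ t ∈ I, ∀ᶠ s in 𝓝 t, 𝒜.IsGeoAt γ₁ s := fun t ht =>
    mem_of_superset (hI.mem_nhds ht) h₁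
  have ev₂ : ∀ t ∈ I, ∀ᶠ s in 𝓝 t, 𝒜.IsGeoAt γ₂ s := fun t ht =>
    mem_of_superset (hI.mem_nhds ht) h₂
  have key : I ⊆ {t | ∀ᶠ s in 𝓝 t, γ₁ s = γ₂ s} := by
    refine hI'.subset_of_closure_inter_subset isOpen_setOfPred_eventually_nhds
      ⟨t₀, ht₀, 𝒜.geo_eventuallyEq (ev₁ _ ht₀) (ev₂ _ ht₀) hi h₀ hv⟩ ?_
    rintro t ⟨htc, ht⟩
    have hfr : ∃ᶠ s in 𝓝 t, ∀ᶠ s' in 𝓝 s, γ₁ s' = γ₂ s' := mem_closure_iff_frequently.1 htc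
    have e0 : γ₁ t = γ₂ t :=
      tendsto_nhds_unique_of_frequently_eq (h₁ t ht).1 (h₂ t ht).1
        (hfr.mono fun s hs => hs.self_of_nhds)
    have hj := 𝒜.mem_pick (γ₁ t)
    refine 𝒜.geo_eventuallyEq (ev₁ _ ht) (ev₂ _ ht) hj e0 ?_
    refine tendsto_nhds_unique_of_frequently_eq ((h₁ t ht).2 _ hj).2.continuousAt
      ((h₂ t ht).2 _ (e0 ▸ hj)).2.continuousAt (hfr.mono fun s hs => ?_)
    exact Filter.EventuallyEq.deriv_eq (hs.mono fun s' hs' => by simp only [Function.comp_apply, hs'])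
  exact fun t ht => (key ht).self_of_nhds

theorem IsGeoAt.congr {γ γ' : ℝ → M} {t : ℝ} (h : 𝒜.IsGeoAt γ t) (e : γ =ᶠ[𝓝 t] γ') :
    𝒜.IsGeoAt γ' t :=
  ⟨h.1.congr e, fun i hi => (h.2 i (e.self_of_nhds ▸ hi)).congr (e.fun_comp _)⟩

theorem IsGeoAt.affine {γ : ℝ → M} (a b t : ℝ) (h : 𝒜.IsGeoAt γ (a * t + b)) :
    𝒜.IsGeoAt (fun t => γ (a * t + b)) t :=
  ⟨ContinuousAt.comp (f := fun t : ℝ => a * t + b) h.1 (by fun_prop),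
    fun i hi => GeoAt.affine a b t (h.2 i hi)⟩

/-- An integral curve of the spray of a chart, pulled back to `M`, is a geodesic. -/
theorem isGeoAt_symm_of_spray {i : 𝒜.ι} {z : ℝ → E n × E n} {t : ℝ}
    (hz : (z t).1 ∈ (𝒜.φ i).target) (h : ∀ᶠ s in 𝓝 t, HasDerivAt z (spray (𝒜.g i) (z s)) s) :
    𝒜.IsGeoAt (fun s => (𝒜.φ i).symm (z s).1) t ∧
      deriv (𝒜.φ i ∘ fun s => (𝒜.φ i).symm (z s).1) t = (z t).2 := by
  have hc : ContinuousAt (fun s => (z s).1) t := (hasDerivAt_fst' h.self_of_nhds).continuousAt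
  have e : (fun s => (z s).1) =ᶠ[𝓝 t] (𝒜.φ i ∘ fun s => (𝒜.φ i).symm (z s).1) := by
    filter_upwards [hc.eventually ((𝒜.φ i).open_target.mem_nhds hz)] with s hs
    exact ((𝒜.φ i).right_inv hs).symm
  obtain ⟨h1, h2⟩ := geoAt_of_spray h
  refine ⟨𝒜.isGeoAt_of_chart ?_ ((𝒜.φ i).map_target hz) (h1.congr e), e.deriv_eq ▸ h2⟩
  exact ContinuousAt.comp (f := fun s => (z s).1) ((𝒜.φ i).continuousAt_symm hz) hc

theorem IsGeo.affine {γ : ℝ → M} (h : 𝒜.IsGeo γ) (a b : ℝ) : 𝒜.IsGeo fun t => γ (a * t + b) :=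
  fun t => IsGeoAt.affine 𝒜 a b t (h _)

theorem IsGeoAt.speed_eq {γ : ℝ → M} {t : ℝ} (h : 𝒜.IsGeoAt γ t) {i : 𝒜.ι}
    (hi : γ t ∈ (𝒜.φ i).source) :
    𝒜.ipf γ (𝒜.vel γ) (𝒜.vel γ) t =
      bil (𝒜.g i) (𝒜.φ i (γ t)) (deriv (𝒜.φ i ∘ γ) t) (deriv (𝒜.φ i ∘ γ) t) := by
  unfold ipf vel
  rw [IsGeoAt.vel_eq 𝒜 h hi (𝒜.mem_pick _)]
  exact (𝒜.isom i _ _ hi (𝒜.mem_pick _) _ _).symm

theorem hasDerivAt_speed {γ : ℝ → M} {t : ℝ} (h : ∀ᶠ s in 𝓝 t, 𝒜.IsGeoAt γ s) :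
    HasDerivAt (𝒜.ipf γ (𝒜.vel γ) (𝒜.vel γ)) 0 t := by
  have hi := 𝒜.mem_pick (γ t)
  generalize 𝒜.pick (γ t) = i at hi
  have ht := h.self_of_nhds
  have hg := ht.2 i hi
  have h1 := hasDerivAt_bil (𝒜.riem i) (c := 𝒜.φ i ∘ γ) (t := t) ((𝒜.φ i).map_source hi)
    hg.1.self_of_nhds hg.2.differentiableAt hg.2.differentiableAt
  rw [hg.cov_eq_zero] at h1
  simp only [map_zero, zero_apply, add_zero] at h1
  refine h1.congr_of_eventuallyEq ?_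
  filter_upwards [h, ht.1.eventually ((𝒜.φ i).open_source.mem_nhds hi)] with s hs hs'
  exact IsGeoAt.speed_eq 𝒜 hs hs'

theorem speed_const_on {γ : ℝ → M} {I : Set ℝ} (hI : IsOpen I) (hI' : IsPreconnected I)
    (h : ∀ t ∈ I, 𝒜.IsGeoAt γ t) {s t : ℝ} (hs : s ∈ I) (ht : t ∈ I) :
    𝒜.ipf γ (𝒜.vel γ) (𝒜.vel γ) s = 𝒜.ipf γ (𝒜.vel γ) (𝒜.vel γ) t := by
  have hd : ∀ u ∈ I, HasDerivAt (𝒜.ipf γ (𝒜.vel γ) (𝒜.vel γ)) 0 u := fun u hu =>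
    𝒜.hasDerivAt_speed (mem_of_superset (hI.mem_nhds hu) h)
  exact hI.is_const_of_deriv_eq_zero hI'
    (fun u hu => (hd u hu).differentiableAt.differentiableWithinAt) (fun u hu => (hd u hu).deriv) hs ht

theorem IsGeo.speed_const {γ : ℝ → M} (h : 𝒜.IsGeo γ) (s t : ℝ) :
    𝒜.ipf γ (𝒜.vel γ) (𝒜.vel γ) s = 𝒜.ipf γ (𝒜.vel γ) (𝒜.vel γ) t :=
  𝒜.speed_const_on isOpen_univ isPreconnected_univ (fun t _ => h t) (mem_univ s) (mem_univ t)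

theorem geo_unique [T2Space M] {γ₁ γ₂ : ℝ → M} (h₁ : 𝒜.IsGeo γ₁) (h₂ : 𝒜.IsGeo γ₂) {t₀ : ℝ}
    {i : 𝒜.ι} (hi : γ₁ t₀ ∈ (𝒜.φ i).source) (h₀ : γ₁ t₀ = γ₂ t₀)
    (hv : deriv (𝒜.φ i ∘ γ₁) t₀ = deriv (𝒜.φ i ∘ γ₂) t₀) : γ₁ = γ₂ :=
  funext fun t => 𝒜.geo_eqOn isOpen_univ isPreconnected_univ (fun t _ => h₁ t) (fun t _ => h₂ t)
    (mem_univ t₀) hi h₀ hv (mem_univ t)


/-- Uniform existence time for the spray on a compact set of initial data. -/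
theorem spray_unif {i : 𝒜.ι} {C : Set (E n × E n)} (hC : IsCompact C)
    (hC' : ∀ z ∈ C, z.1 ∈ (𝒜.φ i).target) :
    ∃ δ > (0 : ℝ), ∀ z ∈ C, ∃ Φ : ℝ → E n × E n, Φ 0 = z ∧ ∀ t ∈ Ioo (-δ) δ,
      (Φ t).1 ∈ (𝒜.φ i).target ∧ HasDerivAt Φ (spray (𝒜.g i) (Φ t)) t := by
  refine hC.induction_on (p := fun C => ∃ δ > (0 : ℝ), ∀ z ∈ C, ∃ Φ : ℝ → E n × E n, Φ 0 = z ∧
      ∀ t ∈ Ioo (-δ) δ, (Φ t).1 ∈ (𝒜.φ i).target ∧ HasDerivAt Φ (spray (𝒜.g i) (Φ t)) t)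
    ⟨1, one_pos, fun z hz => hz.elim⟩ ?_ ?_ ?_
  · rintro s t hst ⟨δ, hδ, h⟩
    exact ⟨δ, hδ, fun z hz => h z (hst hz)⟩
  · rintro s t ⟨δ₁, hδ₁, h₁⟩ ⟨δ₂, hδ₂, h₂⟩
    refine ⟨min δ₁ δ₂, lt_min hδ₁ hδ₂, ?_⟩
    rintro z (hz | hz)
    · obtain ⟨Φ, h0, h⟩ := h₁ z hz
      exact ⟨Φ, h0, fun t ht => h t
        (Ioo_subset_Ioo (neg_le_neg (min_le_left _ _)) (min_le_left _ _) ht)⟩
    · obtain ⟨Φ, h0, h⟩ := h₂ z hz
      exact ⟨Φ, h0, fun t ht => h t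
        (Ioo_subset_Ioo (neg_le_neg (min_le_right _ _)) (min_le_right _ _) ht)⟩
  · intro z₀ hz₀
    obtain ⟨r, hr, δ, hδ, Φ, D, -, h⟩ := exists_local_flow (f := spray (𝒜.g i))
      ((𝒜.φ i).open_target.prod isOpen_univ) ((contDiffOn_spray (𝒜.riem i)).of_le (by simp))
      (z₀ := z₀) ⟨hC' z₀ hz₀, mem_univ _⟩
    refine ⟨Metric.ball z₀ r, mem_nhdsWithin_of_mem_nhds (Metric.ball_mem_nhds z₀ hr), δ, hδ,
      fun z hz => ⟨Φ z, (h z hz).1, fun t ht => ⟨((h z hz).2.2 t ht).1.1, ((h z hz).2.2 t ht).2.1⟩⟩⟩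

/-- Geodesics through `m` of squared speed at most `R` exist on `(-δ, δ)`. -/
def Unif (R δ : ℝ) (m : M) : Prop :=
  ∀ i, m ∈ (𝒜.φ i).source → ∀ v, bil (𝒜.g i) (𝒜.φ i m) v v ≤ R →
    ∃ γ : ℝ → M, (∀ t ∈ Ioo (-δ) δ, 𝒜.IsGeoAt γ t) ∧ γ 0 = m ∧ deriv (𝒜.φ i ∘ γ) 0 = v

theorem Unif.mono {R δ δ' : ℝ} {m : M} (h : 𝒜.Unif R δ m) (hδ : δ' ≤ δ) : 𝒜.Unif R δ' m := by
  intro i hi v hv
  obtain ⟨γ, h1, h2⟩ := h i hi v hv
  exact ⟨γ, fun t ht => h1 t (Ioo_subset_Ioo (neg_le_neg hδ) hδ ht), h2⟩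

theorem unif_local (R : ℝ) (x : M) : ∃ N ∈ 𝓝 x, ∃ δ > (0 : ℝ), ∀ m ∈ N, 𝒜.Unif R δ m := by
  have hj := 𝒜.mem_pick x
  generalize 𝒜.pick x = j at hj
  obtain ⟨K, hKn, hKU, hK⟩ := local_compact_nhds
    ((𝒜.φ j).open_target.mem_nhds ((𝒜.φ j).map_source hj))
  obtain ⟨c, C, hc, -, hb⟩ := exists_bil_bounds (𝒜.riem j) hK hKU
  obtain ⟨δ, hδ, h⟩ := 𝒜.spray_unif (i := j)
    (hK.prod (isCompact_closedBall (0 : E n) (R / c + 1))) (fun z hz => hKU hz.1)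
  refine ⟨(𝒜.φ j).source ∩ 𝒜.φ j ⁻¹' K, inter_mem ((𝒜.φ j).open_source.mem_nhds hj)
    (((𝒜.φ j).continuousAt hj).preimage_mem_nhds hKn), δ, hδ, ?_⟩
  rintro m ⟨hmj, hmK⟩ i hi v hv
  set w := fderiv ℝ (𝒜.φ j ∘ (𝒜.φ i).symm) (𝒜.φ i m) v with hw
  have hw1 : bil (𝒜.g j) (𝒜.φ j m) w w ≤ R := (𝒜.isom i j m hi hmj v v) ▸ hv
  have hw2 : ‖w‖ ≤ R / c + 1 := by
    have h1 : ‖w‖ ^ 2 ≤ R / c := by
      rw [le_div_iff₀ hc]; have := (hb _ hmK w).1; linarith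
    nlinarith [norm_nonneg w, sq_nonneg (‖w‖ - 1)]
  obtain ⟨Φ, h0, hΦ⟩ := h (𝒜.φ j m, w) ⟨hmK, by simpa using hw2⟩
  have key : ∀ t ∈ Ioo (-δ) δ, 𝒜.IsGeoAt (fun s => (𝒜.φ j).symm (Φ s).1) t ∧
      deriv (𝒜.φ j ∘ fun s => (𝒜.φ j).symm (Φ s).1) t = (Φ t).2 := fun t ht =>
    𝒜.isGeoAt_symm_of_spray (hΦ t ht).1
      (mem_of_superset (isOpen_Ioo.mem_nhds ht) fun s hs => (hΦ s hs).2)
  have hz : (0 : ℝ) ∈ Ioo (-δ) δ := ⟨by linarith, hδ⟩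
  have e0 : (𝒜.φ j).symm (Φ 0).1 = m := by rw [h0]; exact (𝒜.φ j).left_inv hmj
  refine ⟨fun s => (𝒜.φ j).symm (Φ s).1, fun t ht => (key t ht).1, e0, ?_⟩
  rw [IsGeoAt.vel_eq 𝒜 (key 0 hz).1 (i := j) (j := i) (by simpa only [e0] using hmj)
    (by simpa only [e0] using hi), (key 0 hz).2]
  simp only [e0]
  rw [h0, hw, 𝒜.fderiv_cocycle hi hmj hi, 𝒜.fderiv_self hi]

theorem unif_global [CompactSpace M] (R : ℝ) : ∃ δ > (0 : ℝ), ∀ m, 𝒜.Unif R δ m := by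
  have := (isCompact_univ (X := M)).induction_on
    (p := fun S => ∃ δ > (0 : ℝ), ∀ m ∈ S, 𝒜.Unif R δ m) ⟨1, one_pos, fun z hz => hz.elim⟩ ?_ ?_ ?_
  · obtain ⟨δ, hδ, h⟩ := this
    exact ⟨δ, hδ, fun m => h m (mem_univ m)⟩
  · rintro s t hst ⟨δ, hδ, h⟩
    exact ⟨δ, hδ, fun z hz => h z (hst hz)⟩
  · rintro s t ⟨δ₁, hδ₁, h₁⟩ ⟨δ₂, hδ₂, h₂⟩
    refine ⟨min δ₁ δ₂, lt_min hδ₁ hδ₂, ?_⟩
    rintro z (hz | hz)
    · exact Unif.mono 𝒜 (h₁ z hz) (min_le_left _ _)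
    · exact Unif.mono 𝒜 (h₂ z hz) (min_le_right _ _)
  · intro x _
    obtain ⟨N, hN, h⟩ := 𝒜.unif_local R x
    exact ⟨N, mem_nhdsWithin_of_mem_nhds hN, h⟩

/-- Gluing two geodesics with the same data at a common parameter. -/
theorem geo_glue [T2Space M] {γ η : ℝ → M} {a b a' b' s : ℝ}
    (hγ : ∀ t ∈ Ioo a b, 𝒜.IsGeoAt γ t) (hη : ∀ t ∈ Ioo a' b', 𝒜.IsGeoAt η t)
    (hs : s ∈ Ioo a b) (hs' : s ∈ Ioo a' b') {i : 𝒜.ι} (hi : γ s ∈ (𝒜.φ i).source)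
    (h₀ : γ s = η s) (hv : deriv (𝒜.φ i ∘ γ) s = deriv (𝒜.φ i ∘ η) s) :
    ∃ γ' : ℝ → M, (∀ t ∈ Ioo a b ∪ Ioo a' b', 𝒜.IsGeoAt γ' t) ∧ EqOn γ γ' (Ioo a b) := by
  classical
  have he : EqOn γ η (Ioo a b ∩ Ioo a' b') :=
    𝒜.geo_eqOn (isOpen_Ioo.inter isOpen_Ioo)
      ((convex_Ioo a b).inter (convex_Ioo a' b')).isPreconnected
      (fun t ht => hγ t ht.1) (fun t ht => hη t ht.2) ⟨hs, hs'⟩ hi h₀ hv
  have e1 : EqOn γ (fun t => if t ∈ Ioo a b then γ t else η t) (Ioo a b) := fun t ht => by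
    simp only [if_pos ht]
  have e2 : EqOn η (fun t => if t ∈ Ioo a b then γ t else η t) (Ioo a' b') := fun t ht => by
    by_cases h : t ∈ Ioo a b
    · simp only [if_pos h]; exact (he ⟨h, ht⟩).symm
    · simp only [if_neg h]
  refine ⟨fun t => if t ∈ Ioo a b then γ t else η t, ?_, e1⟩
  rintro t (ht | ht)
  · exact IsGeoAt.congr 𝒜 (hγ t ht) (e1.eventuallyEq_of_mem (isOpen_Ioo.mem_nhds ht))
  · exact IsGeoAt.congr 𝒜 (hη t ht) (e2.eventuallyEq_of_mem (isOpen_Ioo.mem_nhds ht))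

/-- One extension step. -/
theorem geo_extend [T2Space M] {m : M} {i : 𝒜.ι} (hi : m ∈ (𝒜.φ i).source) {v : E n} {δ : ℝ}
    (hδ : 0 < δ) (hU : ∀ x, 𝒜.Unif (bil (𝒜.g i) (𝒜.φ i m) v v) δ x) {a b s : ℝ}
    (h0 : (0 : ℝ) ∈ Ioo a b) (hs : s ∈ Ioo a b) {γ : ℝ → M} (hγ : ∀ t ∈ Ioo a b, 𝒜.IsGeoAt γ t)
    (hm : γ 0 = m) (hv : deriv (𝒜.φ i ∘ γ) 0 = v) :
    ∃ γ' : ℝ → M, (∀ t ∈ Ioo a b ∪ Ioo (s - δ) (s + δ), 𝒜.IsGeoAt γ' t) ∧ γ' 0 = m ∧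
      deriv (𝒜.φ i ∘ γ') 0 = v := by
  have hj := 𝒜.mem_pick (γ s)
  generalize 𝒜.pick (γ s) = j at hj
  have hsp : bil (𝒜.g j) (𝒜.φ j (γ s)) (deriv (𝒜.φ j ∘ γ) s) (deriv (𝒜.φ j ∘ γ) s) ≤
      bil (𝒜.g i) (𝒜.φ i m) v v := by
    rw [← IsGeoAt.speed_eq 𝒜 (hγ s hs) hj,
      𝒜.speed_const_on isOpen_Ioo isPreconnected_Ioo hγ hs h0,
      IsGeoAt.speed_eq 𝒜 (hγ 0 h0) (i := i) (hm ▸ hi), hm, hv]
  obtain ⟨η, hη, hη0, hηv⟩ := hU (γ s) j hj _ hsp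
  obtain ⟨γ', h1, h2⟩ := 𝒜.geo_glue (η := fun t => η (1 * t + -s)) (a' := s - δ) (b' := s + δ) hγ
    (fun t ht => IsGeoAt.affine 𝒜 1 (-s) t (hη _ ⟨by linarith [ht.1], by linarith [ht.2]⟩)) hs
    ⟨by linarith, by linarith⟩ hj (by simp [hη0]) (by
      have : (𝒜.φ j ∘ fun t => η (1 * t + -s)) = fun t => (𝒜.φ j ∘ η) (t + -s) := by
        funext t; simp
      rw [this, deriv_comp_add_const, add_neg_cancel, hηv])
  have e : γ =ᶠ[𝓝 0] γ' := h2.eventuallyEq_of_mem (isOpen_Ioo.mem_nhds h0)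
  exact ⟨γ', h1, e.self_of_nhds ▸ hm, by rw [← (e.fun_comp (𝒜.φ i)).deriv_eq, hv]⟩

theorem geo_exists_on [T2Space M] [CompactSpace M] {m : M} {i : 𝒜.ι} (hi : m ∈ (𝒜.φ i).source)
    (v : E n) (T : ℝ) : ∃ γ : ℝ → M, (∀ t ∈ Ioo (-T) T, 𝒜.IsGeoAt γ t) ∧ γ 0 = m ∧
      deriv (𝒜.φ i ∘ γ) 0 = v := by
  obtain ⟨δ, hδ, hU⟩ := 𝒜.unif_global (bil (𝒜.g i) (𝒜.φ i m) v v)
  have key : ∀ k : ℕ, ∃ γ : ℝ → M, (∀ t ∈ Ioo (-(δ + k * (δ / 2))) (δ + k * (δ / 2)),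
      𝒜.IsGeoAt γ t) ∧ γ 0 = m ∧ deriv (𝒜.φ i ∘ γ) 0 = v := by
    intro k
    induction k with
    | zero => simpa using hU m i hi v le_rfl
    | succ k ih =>
      obtain ⟨γ, h1, h2, h3⟩ := ih
      have hk : 0 ≤ k * (δ / 2) := by positivity
      have hk' : ((k + 1 : ℕ) : ℝ) * (δ / 2) = k * (δ / 2) + δ / 2 := by push_cast; ring
      rw [hk']
      generalize k * (δ / 2) = κ at *
      obtain ⟨γ₁, g1, g2, g3⟩ := 𝒜.geo_extend hi hδ hU (s := δ / 2 + κ)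
        ⟨by linarith, by linarith⟩ ⟨by linarith, by linarith⟩ h1 h2 h3
      obtain ⟨γ₂, f1, f2, f3⟩ := 𝒜.geo_extend hi hδ hU (s := -(δ / 2 + κ)) (a := -(δ + κ))
        (b := δ + (κ + δ / 2)) (γ := γ₁) ⟨by linarith, by linarith⟩ ⟨by linarith, by linarith⟩
        (fun t ht => g1 t (by
          by_cases h : t < δ + κ
          · exact Or.inl ⟨ht.1, h⟩
          · exact Or.inr ⟨by linarith [not_lt.1 h], by linarith [ht.2]⟩)) g2 g3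
      refine ⟨γ₂, fun t ht => f1 t ?_, f2, f3⟩
      by_cases h : -(δ + κ) < t
      · exact Or.inl ⟨h, ht.2⟩
      · exact Or.inr ⟨by linarith [ht.1], by linarith [not_lt.1 h]⟩
  obtain ⟨k, hk⟩ := exists_nat_ge (T / (δ / 2))
  rw [div_le_iff₀ (by positivity)] at hk
  obtain ⟨γ, h1, h2⟩ := key k
  exact ⟨γ, fun t ht => h1 t ⟨by linarith [ht.1], by linarith [ht.2]⟩, h2⟩

theorem geo_exists [T2Space M] [CompactSpace M] {m : M} {i : 𝒜.ι} (hi : m ∈ (𝒜.φ i).source)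
    (v : E n) : ∃ γ : ℝ → M, 𝒜.IsGeo γ ∧ γ 0 = m ∧ deriv (𝒜.φ i ∘ γ) 0 = v := by
  choose Γ h1 h2 h3 using 𝒜.geo_exists_on hi v
  have hmem : ∀ t : ℝ, t ∈ Ioo (-(|t| + 1)) (|t| + 1) := fun t =>
    ⟨by linarith [neg_abs_le t], by linarith [le_abs_self t]⟩
  have he : ∀ T, 0 < T → EqOn (Γ T) (fun t => Γ (|t| + 1) t) (Ioo (-T) T) := by
    intro T hT t ht
    have hT' : 0 < |t| + 1 := by positivity
    exact 𝒜.geo_eqOn (isOpen_Ioo.inter isOpen_Ioo)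
      ((convex_Ioo (-T) T).inter (convex_Ioo (-(|t| + 1)) (|t| + 1))).isPreconnected
      (fun s hs => h1 T s hs.1) (fun s hs => h1 _ s hs.2) (t₀ := 0)
      ⟨⟨by linarith, hT⟩, ⟨by linarith, hT'⟩⟩ (i := i) (by rw [h2]; exact hi)
      (by rw [h2, h2]) (by rw [h3, h3]) ⟨ht, hmem t⟩
  have hev : ∀ t : ℝ, Γ (|t| + 1) =ᶠ[𝓝 t] fun t => Γ (|t| + 1) t := fun t =>
    (he _ (by positivity)).eventuallyEq_of_mem (isOpen_Ioo.mem_nhds (hmem t))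
  refine ⟨fun t => Γ (|t| + 1) t, fun t => IsGeoAt.congr 𝒜 (h1 _ t (hmem t)) (hev t), h2 _, ?_⟩
  rw [← ((hev 0).fun_comp (𝒜.φ i)).deriv_eq, h3]

theorem jac_van_eventually {γ : ℝ → M} {J : 𝒜.ι → ℝ → E n} (hγ : 𝒜.IsGeo γ) (hJ : 𝒜.IsJac γ J)
    {a : ℝ} {i : 𝒜.ι} (hi : γ a ∈ (𝒜.φ i).source) (h₀ : J i a = 0) (h₁ : deriv (J i) a = 0) :
    ∀ᶠ s in 𝓝 a, 𝒜.Van γ J s := by
  have e : ∀ᶠ t in 𝓝 a, γ t ∈ (𝒜.φ i).source :=
    (hγ a).1.eventually ((𝒜.φ i).open_source.mem_nhds hi)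
  have hA : ContinuousAt
      (fun s => fderiv ℝ (spray (𝒜.g i)) ((𝒜.φ i ∘ γ) s, deriv (𝒜.φ i ∘ γ) s)) a :=
    ContinuousAt.comp (f := fun s => ((𝒜.φ i ∘ γ) s, deriv (𝒜.φ i ∘ γ) s))
      ((𝒜.contDiffAt_spray ((𝒜.φ i).map_source hi)).continuousAt_fderiv (by simp))
      ((hγ a).2 i hi).hasDerivAt_spray.continuousAt
  have key := linear_ode_eventuallyEq hA (c₁ := fun s => (J i s, deriv (J i) s)) (c₂ := fun _ => 0)
    (e.mono fun t ht => (hJ.2 i t ht).hasDerivAt_spray (𝒜.riem i) ((𝒜.φ i).map_source ht))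
    (Eventually.of_forall fun t => by simpa using hasDerivAt_const t (0 : E n × E n))
    (by simp only [h₀, h₁]; rfl)
  filter_upwards [key, e] with t ht ht'
  exact 𝒜.van_of_chart hJ.1 ht' (congrArg Prod.fst ht)

theorem jac_unique {γ : ℝ → M} {J : 𝒜.ι → ℝ → E n} (hγ : 𝒜.IsGeo γ) (hJ : 𝒜.IsJac γ J) {a : ℝ}
    {i : 𝒜.ι} (hi : γ a ∈ (𝒜.φ i).source) (h₀ : J i a = 0) (h₁ : deriv (J i) a = 0) (t : ℝ) :
    𝒜.Van γ J t := by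
  have key : (univ : Set ℝ) ⊆ {t | ∀ᶠ s in 𝓝 t, 𝒜.Van γ J s} := by
    refine isPreconnected_univ.subset_of_closure_inter_subset isOpen_setOfPred_eventually_nhds
      ⟨a, mem_univ a, 𝒜.jac_van_eventually hγ hJ hi h₀ h₁⟩ ?_
    rintro t ⟨htc, -⟩
    have hfr : ∃ᶠ s in 𝓝 t, ∀ᶠ s' in 𝓝 s, 𝒜.Van γ J s' := mem_closure_iff_frequently.1 htc
    have hj := 𝒜.mem_pick (γ t)
    generalize 𝒜.pick (γ t) = j at hj
    have e : ∀ᶠ s in 𝓝 t, γ s ∈ (𝒜.φ j).source :=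
      (hγ t).1.eventually ((𝒜.φ j).open_source.mem_nhds hj)
    have hfr' : ∃ᶠ s in 𝓝 t, J j =ᶠ[𝓝 s] fun _ => 0 := by
      refine (hfr.and_eventually e.eventually_nhds).mono ?_
      rintro s ⟨h1, h2⟩
      filter_upwards [h1, h2] with s' h1 h2 using h1 j h2
    have hV := hJ.2 j t hj
    refine 𝒜.jac_van_eventually hγ hJ hj ?_ ?_
    · exact tendsto_nhds_unique_of_frequently_eq hV.1.self_of_nhds.continuousAt
        (tendsto_const_nhds (x := (0 : E n))) (hfr'.mono fun s hs => hs.self_of_nhds)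
    · exact tendsto_nhds_unique_of_frequently_eq hV.2.continuousAt
        (tendsto_const_nhds (x := (0 : E n)))
        (hfr'.mono fun s hs => by rw [hs.deriv_eq, deriv_const])
  exact (key (mem_univ t)).self_of_nhds

end RAtlas

end Crest.Agent.R244
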