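import Crest.Agent.R244.CalcA

/-! Row 244: gluing open pieces of `ℝⁿ` into a space with an oriented Riemannian atlas. -/

set_option autoImplicit false
set_option maxSynthPendingDepth 3
open Set Filter Topology
open scoped ContDiff
open Crest.GeometryTopology.CoordMetric Crest.GeometryTopology.ChartCurvature
open Crest.GeometryTopology.Geodesic

noncomputable section
namespace Crest.Agent.R244

/-- Local inverse of an orientation preserving local isometry (to get `GlueData.loc` backwards). -/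
theorem exists_loc_inverse {n : ℕ} {g g' : MetricField n} {τ : E n → E n} {y : E n}
    (hτ : ContDiffAt ℝ ∞ τ y)
    (hiso : ∀ u v, bil g y u v = bil g' (τ y) (fderiv ℝ τ y u) (fderiv ℝ τ y v))
    (hdet : 0 < LinearMap.det (fderiv ℝ τ y : E n →ₗ[ℝ] E n)) :
    ∃ σ : E n → E n, ContDiffAt ℝ ∞ σ (τ y) ∧ σ (τ y) = y ∧ (∀ᶠ z in 𝓝 (τ y), τ (σ z) = z) ∧
      (∀ u v, bil g' (τ y) u v = bil g y (fderiv ℝ σ (τ y) u) (fderiv ℝ σ (τ y) v)) ∧
      0 < LinearMap.det (fderiv ℝ σ (τ y) : E n →ₗ[ℝ] E n) := by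
  have hn : (∞ : WithTop ℕ∞) ≠ 0 := by simp
  have hd : (fderiv ℝ τ y).det ≠ 0 := hdet.ne'
  set L : E n ≃L[ℝ] E n := (fderiv ℝ τ y).toContinuousLinearEquivOfDetNeZero hd with hL
  have hL' : (L : E n →L[ℝ] E n) = fderiv ℝ τ y :=
    ContinuousLinearMap.coe_toContinuousLinearEquivOfDetNeZero _ hd
  have hf : HasFDerivAt τ (L : E n →L[ℝ] E n) y := by
    rw [hL']
    exact (hτ.differentiableAt hn).hasFDerivAt
  have hs := hτ.hasStrictFDerivAt' hf hn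
  have hσ : fderiv ℝ (hτ.localInverse hf hn) (τ y) = (L.symm : E n →L[ℝ] E n) :=
    hs.to_localInverse.hasFDerivAt.fderiv
  refine ⟨hτ.localInverse hf hn, hτ.to_localInverse hf hn, hτ.localInverse_apply_image hf hn,
    hs.eventually_right_inverse, fun u v => ?_, ?_⟩
  · rw [hσ, hiso, ← hL']
    simp
  · have h1 : LinearMap.det ((L : E n →L[ℝ] E n) : E n →ₗ[ℝ] E n) *
        LinearMap.det ((L.symm : E n →L[ℝ] E n) : E n →ₗ[ℝ] E n) = 1 := by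
      rw [← LinearMap.det_comp, ← LinearMap.det_id (A := ℝ) (M := E n)]
      congr 1
      ext v
      simp
    rw [hσ]
    rw [← hL'] at hdet
    exact pos_of_mul_pos_left (by rw [mul_comm, h1]; exact one_pos) hdet.le

namespace GlueData

variable {n : ℕ} {κ : Type} (G : GlueData n κ)

/-- The gluing relation on the disjoint union of the pieces. -/
def setoid : Setoid (Σ k, G.W k) where
  r p q := G.R p.1 p.2 q.1 q.2
  iseqv := ⟨fun p => G.refl _ _ p.2.2, fun {p q} h => G.symm _ _ _ p.2.2 _ q.2.2 h,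
    fun {p q r} h h' => G.trans _ _ _ _ p.2.2 _ q.2.2 _ r.2.2 h h'⟩

theorem mk_eq (p q : Σ k, G.W k) :
    Quotient.mk G.setoid p = Quotient.mk G.setoid q ↔ G.R p.1 p.2 q.1 q.2 := Quotient.eq

theorem isOpenMap_mk : IsOpenMap (Quotient.mk G.setoid) := by
  intro U hU
  rw [← isQuotientMap_quotient_mk'.isOpen_preimage, isOpen_sigma_iff]
  intro k
  rw [isOpen_iff_mem_nhds]
  rintro ⟨y, hy⟩ ⟨⟨l, z, hz⟩, hzU, hzy⟩
  obtain ⟨τ, hτ, hτy, hR, -⟩ := G.loc k l y hy z hz ((G.mk_eq ⟨k, y, hy⟩ ⟨l, z, hz⟩).1 hzy.symm)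
  obtain ⟨V, hV, hVU⟩ := isOpen_induced_iff.1 (isOpen_sigma_iff.1 hU l)
  have hzV : z ∈ V := by
    have : (⟨z, hz⟩ : G.W l) ∈ Subtype.val ⁻¹' V := by rw [hVU]; exact hzU
    exact this
  have h1 : ∀ᶠ y' in 𝓝 y, τ y' ∈ V ∩ G.W l :=
    hτ.continuousAt.eventually_mem
      (by rw [hτy]; exact (hV.inter (G.riem l).isOpen).mem_nhds ⟨hzV, hz⟩)
  have h2 := (continuous_subtype_val (p := (· ∈ G.W k))).continuousAt (x := ⟨y, hy⟩) (h1.and hR)
  filter_upwards [h2] with y' hy'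
  obtain ⟨⟨h3, h4⟩, h5⟩ := hy'
  refine ⟨⟨l, τ y', h4⟩, ?_, ((G.mk_eq ⟨k, y'⟩ ⟨l, τ y', h4⟩).2 h5).symm⟩
  have : (⟨τ y', h4⟩ : G.W l) ∈ Subtype.val ⁻¹' V := h3
  rw [hVU] at this
  exact this

theorem isOpenQuotientMap_mk : IsOpenQuotientMap (Quotient.mk G.setoid) :=
  ⟨Quotient.mk_surjective, continuous_quotient_mk', G.isOpenMap_mk⟩

theorem t2Space : T2Space (Quotient G.setoid) := by
  rw [t2Space_iff_of_isOpenQuotientMap G.isOpenQuotientMap_mk, ← isOpen_compl_iff,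
    isOpen_iff_mem_nhds]
  rintro ⟨⟨k, y⟩, ⟨l, z⟩⟩ h
  have h1 := ((IsOpenEmbedding.sigmaMk (σ := fun k => G.W k) (i := k)).prodMap
    (IsOpenEmbedding.sigmaMk (σ := fun k => G.W k) (i := l))).map_nhds_eq (y, z)
  have h2 : {p : G.W k × G.W l | G.R k p.1 l p.2}ᶜ ∈ 𝓝 (y, z) :=
    (G.closed k l).isOpen_compl.mem_nhds fun h' => h ((G.mk_eq ⟨k, y⟩ ⟨l, z⟩).2 h')
  rw [Prod.map_apply] at h1
  rw [← h1, mem_map]
  filter_upwards [h2] with p hp h'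
  exact hp ((G.mk_eq ⟨k, p.1⟩ ⟨l, p.2⟩).1 h')

open Classical in
/-- The parametrisation of the glued space by the `k`-th piece. -/
def Ψ (x₀ : Quotient G.setoid) (k : κ) (y : E n) : Quotient G.setoid :=
  if h : y ∈ G.W k then Quotient.mk G.setoid ⟨k, y, h⟩ else x₀

variable (x₀ : Quotient G.setoid)

theorem Ψ_of_mem {k : κ} {y : E n} (h : y ∈ G.W k) :
    G.Ψ x₀ k y = Quotient.mk G.setoid ⟨k, y, h⟩ := dif_pos h

theorem Ψ_eq_iff {k l : κ} {y z : E n} (hy : y ∈ G.W k) (hz : z ∈ G.W l) :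
    G.Ψ x₀ k y = G.Ψ x₀ l z ↔ G.R k y l z := by
  rw [G.Ψ_of_mem x₀ hy, G.Ψ_of_mem x₀ hz, G.mk_eq]

theorem restrict_Ψ (k : κ) :
    (G.W k).domRestrict (G.Ψ x₀ k) = Quotient.mk G.setoid ∘ Sigma.mk k :=
  funext fun y => G.Ψ_of_mem x₀ y.2

theorem continuousOn_Ψ (k : κ) : ContinuousOn (G.Ψ x₀ k) (G.W k) := by
  rw [continuousOn_iff_continuous_domRestrict, G.restrict_Ψ]
  exact continuous_quotient_mk'.comp continuous_sigmaMk

theorem exists_chart {k : κ} {y : E n} (hy : y ∈ G.W k) :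
    ∃ e : OpenPartialHomeomorph (E n) (Quotient G.setoid),
      y ∈ e.source ∧ e.source ⊆ G.W k ∧ ⇑e = G.Ψ x₀ k := by
  obtain ⟨U, hU, hinj⟩ := G.inj k y hy
  obtain ⟨V, hVU, hV, hyV⟩ := mem_nhds_iff.1 (inter_mem hU ((G.riem k).isOpen.mem_nhds hy))
  have hVW : V ⊆ G.W k := fun y' h => (hVU h).2
  have h1 : InjOn (G.Ψ x₀ k) V := fun a ha b hb h =>
    hinj a (hVU ha).1 b (hVU hb).1 ((G.Ψ_eq_iff x₀ (hVW ha) (hVW hb)).1 h)
  have h2 : IsOpenMap (V.domRestrict (G.Ψ x₀ k)) := by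
    have h3 : V.domRestrict (G.Ψ x₀ k) =
        (Quotient.mk G.setoid ∘ Sigma.mk k) ∘ Set.inclusion hVW := by
      rw [← G.restrict_Ψ x₀]
      rfl
    rw [h3]
    exact (G.isOpenMap_mk.comp isOpenMap_sigmaMk).comp
      (IsOpenEmbedding.inclusion hVW (hV.preimage continuous_subtype_val)).isOpenMap
  exact ⟨OpenPartialHomeomorph.ofContinuousOpenRestrict (h1.toPartialEquiv _ _)
    ((G.continuousOn_Ψ x₀ k).mono hVW) h2 hV, hyV, hVW, rfl⟩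

theorem transition {k l : κ} {e e' : OpenPartialHomeomorph (E n) (Quotient G.setoid)}
    (he : e.source ⊆ G.W k) (he' : e'.source ⊆ G.W l) (h : ⇑e = G.Ψ x₀ k) (h' : ⇑e' = G.Ψ x₀ l)
    {x : Quotient G.setoid} (hx : x ∈ e.target) (hx' : x ∈ e'.target) :
    ContDiffAt ℝ ∞ (e'.symm ∘ e) (e.symm x) ∧
      (∀ u v, bil (G.g k) (e.symm x) u v = bil (G.g l) (e'.symm x)
        (fderiv ℝ (e'.symm ∘ e) (e.symm x) u) (fderiv ℝ (e'.symm ∘ e) (e.symm x) v)) ∧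
      0 < LinearMap.det (fderiv ℝ (e'.symm ∘ e) (e.symm x) : E n →ₗ[ℝ] E n) := by
  have hy := e.map_target hx
  have hz := e'.map_target hx'
  obtain ⟨τ, hτ, hτy, hR, hiso, hdet⟩ := G.loc k l _ (he hy) _ (he' hz)
    ((G.Ψ_eq_iff x₀ (he hy) (he' hz)).1 (by rw [← h, ← h', e.right_inv hx, e'.right_inv hx']))
  have h1 : ∀ᶠ y' in 𝓝 (e.symm x), τ y' ∈ e'.source :=
    hτ.continuousAt.eventually_mem (by rw [hτy]; exact e'.open_source.mem_nhds hz)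
  have h2 : e'.symm ∘ e =ᶠ[𝓝 (e.symm x)] τ := by
    filter_upwards [h1, hR, e.open_source.mem_nhds hy] with y' h3 h4 h5
    have h6 := (G.Ψ_eq_iff x₀ (he h5) (he' h3)).2 h4
    rw [← h, ← h'] at h6
    rw [Function.comp_apply, h6, e'.left_inv h3]
  rw [h2.fderiv_eq]
  exact ⟨hτ.congr_of_eventuallyEq h2, hiso, hdet⟩

end GlueData

theorem GlueData.exists_atlas {n : ℕ} {κ : Type} [Finite κ] (G : GlueData n κ) {k₀ : κ} {y₀ : E n}
    (h₀ : y₀ ∈ G.W k₀) :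
    ∃ (M : Type) (_ : TopologicalSpace M) (𝒜 : RAtlas n M) (Ψ : κ → E n → M),
      T2Space M ∧ SecondCountableTopology M ∧ 𝒜.Oriented ∧
      (∀ x, ∃ k, ∃ y ∈ G.W k, Ψ k y = x) ∧ (∀ k, ContinuousOn (Ψ k) (G.W k)) ∧
      (∀ k l, ∀ y ∈ G.W k, ∀ z ∈ G.W l, Ψ k y = Ψ l z ↔ G.R k y l z) ∧
      ∀ k, ∀ y ∈ G.W k, ∃ i, y ∈ (𝒜.φ i).target ∧ (𝒜.φ i).target ⊆ G.W k ∧
        EqOn (𝒜.φ i).symm (Ψ k) (𝒜.φ i).target ∧ 𝒜.g i = G.g k := by
  set x₀ : Quotient G.setoid := Quotient.mk G.setoid ⟨k₀, y₀, h₀⟩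
  choose e he1 he2 he3 using fun p : (Σ k, G.W k) => G.exists_chart x₀ p.2.2
  have hsurj : ∀ x, ∃ p : (Σ k, G.W k), G.Ψ x₀ p.1 p.2 = x := fun x => by
    obtain ⟨p, rfl⟩ := Quotient.mk_surjective x
    exact ⟨p, G.Ψ_of_mem x₀ p.2.2⟩
  let 𝒜 : RAtlas n (Quotient G.setoid) :=
    { ι := Σ k, G.W k
      φ := fun p => (e p).symm
      g := fun p => G.g p.1
      riem := fun p => (G.riem p.1).mono' (e p).open_source (he2 p)
      cover := fun x => by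
        obtain ⟨p, rfl⟩ := hsurj x
        exact ⟨p, he3 p ▸ (e p).map_source (he1 p)⟩
      smooth := fun p q x hp hq => (G.transition x₀ (he2 p) (he2 q) (he3 p) (he3 q) hp hq).1
      isom := fun p q x hp hq => (G.transition x₀ (he2 p) (he2 q) (he3 p) (he3 q) hp hq).2.1 }
  refine ⟨Quotient G.setoid, inferInstance, 𝒜, G.Ψ x₀, G.t2Space,
    G.isOpenQuotientMap_mk.isQuotientMap.secondCountableTopology G.isOpenMap_mk,
    fun p q x hp hq => (G.transition x₀ (he2 p) (he2 q) (he3 p) (he3 q) hp hq).2.2, fun x => ?_,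
    G.continuousOn_Ψ x₀, fun k l y hy z hz => G.Ψ_eq_iff x₀ hy hz, fun k y hy =>
      ⟨⟨k, y, hy⟩, he1 ⟨k, y, hy⟩, he2 ⟨k, y, hy⟩, fun z _ => congrFun (he3 ⟨k, y, hy⟩) z, rfl⟩⟩
  obtain ⟨p, hp⟩ := hsurj x
  exact ⟨p.1, p.2, p.2.2, hp⟩

end Crest.Agent.R244
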