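import Crest.Agent.R244.Defs

/-! Row 244: the algebraic inequalities behind the Lyapunov functions. -/

set_option autoImplicit false

namespace Crest.Agent.R244

namespace JetAlg

theorem cross {c t A B : ℝ} (Z Y : ℝ) (ht : |t| ≤ 1) (hA : |c| ≤ A) (hB : |c| ≤ B) :
    |2 * t * Z * c * Y| ≤ A * Y ^ 2 + B * Z ^ 2 := by
  have h1 : |2 * t * Z * c * Y| = |t| * (|c| * (2 * |Z| * |Y|)) := by
    simp only [abs_mul, abs_two]
    ring
  have h2 : 2 * |Z| * |Y| ≤ Y ^ 2 + Z ^ 2 := by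
    nlinarith [sq_nonneg (|Z| - |Y|), sq_abs Z, sq_abs Y]
  calc |2 * t * Z * c * Y| ≤ |c| * (2 * |Z| * |Y|) := by
        rw [h1]
        exact mul_le_of_le_one_left (by positivity) ht
    _ ≤ |c| * Y ^ 2 + |c| * Z ^ 2 := by
        rw [← mul_add]
        exact mul_le_mul_of_nonneg_left h2 (abs_nonneg c)
    _ ≤ _ := add_le_add (mul_le_mul_of_nonneg_right hA (sq_nonneg Y))
        (mul_le_mul_of_nonneg_right hB (sq_nonneg Z))

variable {j : Jet}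

theorem abs_n0 (h : j.Small) : |j.n0| ≤ 1 := abs_le.2 ⟨by linarith [h.n0_ge], h.n0_le⟩

theorem abs_n1 (h : j.Small) : |j.n1| ≤ 1 := abs_le.2 ⟨h.n1_ge, by linarith [h.n1_le]⟩

theorem v2_le (h : j.Small) (X Y : ℝ) : j.V2 X Y ≤ j.n2 * j.Z X Y ^ 2 / 2 := by
  unfold Jet.V2
  generalize j.Z X Y = Z
  have h1 := (abs_le.1 (cross Z Y (abs_n1 h) h.e1_m2 h.e1_n2)).2
  have h2 := (abs_le.1 (cross Z Y (abs_n0 h) h.e2_m2 h.e2_n2)).2
  have h3 : j.e1 ^ 2 ≤ 1 / 100 * (-j.m2 / 100) := by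
    rw [← sq_abs, sq]
    exact mul_le_mul h.e1_le h.e1_m2 (abs_nonneg _) (by norm_num)
  have h4 : j.n0 * (j.e1 * Y) ^ 2 ≤ 1 / 100 * (-j.m2 / 100) * Y ^ 2 := by
    refine (mul_le_of_le_one_left (sq_nonneg _) h.n0_le).trans ?_
    rw [mul_pow]
    exact mul_le_mul_of_nonneg_right h3 (sq_nonneg Y)
  have h5 := mul_nonneg (neg_nonneg.2 h.m2_le) (sq_nonneg Y)
  have h6 := mul_nonneg (neg_nonneg.2 h.n2_le) (sq_nonneg Z)
  linarith

theorem v2_nonpos (h : j.Small) (X Y : ℝ) : j.V2 X Y ≤ 0 := by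
  have h1 := v2_le h X Y
  have h6 := mul_nonneg (neg_nonneg.2 h.n2_le) (sq_nonneg (j.Z X Y))
  linarith

theorem right (h : j.Small) (X Y : ℝ) (hV : j.V1 X Y ≤ 0) :
    0 ≤ 4 * j.V1 X Y * j.xd1 X Y * j.xd X Y - 2 * j.V2 X Y * j.xd X Y ^ 2 -
      j.n0 * j.V1 X Y ^ 2 := by
  have h1 := mul_nonneg (neg_nonneg.2 (v2_nonpos h X Y)) (sq_nonneg (j.xd X Y))
  have h2 : 0 ≤ j.n0 * j.V1 X Y - 4 * j.xd1 X Y * j.xd X Y := by
    unfold Jet.V1 Jet.xd1 Jet.xd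
    generalize j.Z X Y = Z
    have h3 := (abs_le.1 (cross Z Y (abs_n0 h) h.e1_m1 h.e1_n1)).2
    have h4 := mul_nonneg h.m1_ge (sq_nonneg Y)
    have h5 := mul_nonneg (neg_nonneg.2 h.n1_le) (sq_nonneg Z)
    have h6 : 0 ≤ j.m1 * Y ^ 2 - 3 * j.n1 * Z ^ 2 - 2 * j.n0 * Z * j.e1 * Y := by linarith
    have h7 := mul_nonneg (show 0 ≤ j.n0 by linarith [h.n0_ge]) h6
    linarith
  have h3 := mul_nonneg (neg_nonneg.2 hV) h2
  linarith

theorem left (h : j.Small) (X Y : ℝ) (hV : 0 ≤ j.V1 X Y) (hY : Y ≠ 0) : j.yd X Y ≠ 0 ∧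
    0 ≤ 4 * j.V1 X Y * j.yd1 X Y * j.yd X Y - 2 * j.V2 X Y * j.yd X Y ^ 2 -
      j.qyy * j.V1 X Y ^ 2 := by
  have hv2 := v2_le h X Y
  have hY2 : 0 < Y ^ 2 := by positivity
  have hc := (abs_le.1 (cross (j.Z X Y) Y (abs_n0 h) h.e1_m1 h.e1_n1)).2
  have e1 : j.V1 X Y = j.m1 * Y ^ 2 + j.n1 * j.Z X Y ^ 2 + 2 * j.n0 * j.Z X Y * j.e1 * Y := rfl
  have e2 : j.yd X Y = j.m0 * Y + j.n0 * j.e0 * j.Z X Y := rfl
  have e3 : j.yd1 X Y = j.m1 * Y + (j.n0 * j.e1 + j.n1 * j.e0) * j.Z X Y +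
      j.n0 * j.e0 * j.e1 * Y := by unfold Jet.yd1; ring
  generalize j.V1 X Y = V at *
  generalize j.V2 X Y = W at *
  generalize j.yd X Y = y at *
  generalize j.yd1 X Y = y1 at *
  generalize j.Z X Y = Z at *
  have hn0 : 0 ≤ j.n0 := by linarith [h.n0_ge]
  have ha := mul_nonneg h.m1_ge hY2.le
  have hN := mul_nonneg (neg_nonneg.2 h.n1_le) (sq_nonneg Z)
  have haY : j.m1 * Y ^ 2 ≤ Y ^ 2 := mul_le_of_le_one_left hY2.le h.m1_le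
  have h1 : V ≤ 101 / 100 * (j.m1 * Y ^ 2) := by linarith
  have h2 : -j.n1 * Z ^ 2 ≤ 2 * Y ^ 2 := by linarith
  have he2 : j.e0 ^ 2 ≤ 1 / 100 * (-j.n1 / 100) := by
    rw [sq]
    exact mul_le_mul h.e0_le h.e0_n1 h.e0_ge (by norm_num)
  have h3 : (j.n0 * j.e0 * Z) ^ 2 ≤ 2 / 10000 * Y ^ 2 := by
    have h4 : j.n0 ^ 2 ≤ 1 := pow_le_one₀ hn0 h.n0_le
    have h5 := mul_le_mul_of_nonneg_right he2 (sq_nonneg Z)
    have h6 : j.n0 ^ 2 * (j.e0 ^ 2 * Z ^ 2) ≤ j.e0 ^ 2 * Z ^ 2 :=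
      mul_le_of_le_one_left (by positivity) h4
    linarith
  generalize j.n0 * j.e0 * Z = w at h3 e2
  have h4 : -(3 / 200 * Y ^ 2) ≤ w * Y := by nlinarith [sq_nonneg (w + 3 / 200 * Y)]
  have h5 : w * Y ≤ 3 / 200 * Y ^ 2 := by nlinarith [sq_nonneg (w - 3 / 200 * Y)]
  have hm1 := mul_le_mul_of_nonneg_right h.m0_ge hY2.le
  have hm2 := mul_le_mul_of_nonneg_right h.m0_le hY2.le
  have h6 : (j.m0 - 3 / 200) * Y ^ 2 ≤ Y * y := by rw [e2]; linarith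
  have h7 : Y * y ≤ 203 / 200 * Y ^ 2 := by rw [e2]; linarith
  have h8 : 0 < Y * y := by linarith
  refine ⟨fun h0 => by simp [h0] at h8, ?_⟩
  -- the main term
  have hq : j.qyy ≤ j.m0 + 1 / 10000 := by
    have h9 : j.e0 ^ 2 ≤ (1 / 100) ^ 2 := pow_le_pow_left₀ h.e0_ge h.e0_le 2
    have h10 : j.n0 * j.e0 ^ 2 ≤ j.e0 ^ 2 := mul_le_of_le_one_left (sq_nonneg _) h.n0_le
    unfold Jet.qyy
    linarith
  have h9 : j.qyy * V ≤ (j.m0 + 1 / 10000) * (101 / 100 * (j.m1 * Y ^ 2)) :=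
    mul_le_mul hq h1 hV (by linarith [h.m0_ge])
  have h10 := mul_le_mul_of_nonneg_left h6 h.m1_ge
  have h11 := mul_le_mul_of_nonneg_right h.m0_ge ha
  have h12 : 14 / 10 * (j.m1 * Y ^ 2) ≤ 4 * (j.m1 * (Y * y)) - j.qyy * V := by linarith
  -- the small diagonal term
  have h13 : |j.n0 * j.e0 * j.e1| ≤ 1 / 100 * (j.m1 / 100) := by
    rw [abs_mul, abs_of_nonneg (mul_nonneg hn0 h.e0_ge)]
    exact mul_le_mul ((mul_le_of_le_one_left h.e0_ge h.n0_le).trans h.e0_le) h.e1_m1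
      (abs_nonneg _) (by norm_num)
  have h14 := mul_le_mul_of_nonneg_right (abs_le.1 h13).1 h8.le
  have h15 := mul_le_mul_of_nonneg_left h7 h.m1_ge
  have h16 : 13 / 10 * (j.m1 * Y ^ 2) ≤
      4 * (j.m1 * (Y * y)) + 4 * (j.n0 * j.e0 * j.e1 * (Y * y)) - j.qyy * V := by linarith
  have h17 := mul_le_mul_of_nonneg_left h16 hV
  -- the cross term
  have hk : |j.n0 * j.e1 + j.n1 * j.e0| ≤ |j.e1| + j.e0 := by
    refine (abs_add_le _ _).trans (add_le_add ?_ ?_)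
    · rw [abs_mul]
      exact mul_le_of_le_one_left (abs_nonneg _) (abs_n0 h)
    · rw [abs_mul, abs_of_nonneg h.e0_ge]
      exact mul_le_of_le_one_left h.e0_ge (abs_n1 h)
  generalize j.n0 * j.e1 + j.n1 * j.e0 = κ at hk e3
  have hk2 : κ ^ 2 ≤ 2 / 100 * (2 * (-j.n2 / 100)) := by
    rw [← sq_abs, sq]
    exact mul_le_mul (by linarith [h.e1_le, h.e0_le]) (by linarith [h.e1_n2, h.e0_n2])
      (abs_nonneg _) (by norm_num)
  have hP := mul_nonneg (mul_nonneg (neg_nonneg.2 h.n2_le) (sq_nonneg Z)) (sq_nonneg y)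
  have h18 : (4 * κ * Z * y * V) ^ 2 ≤ (-j.n2 * Z ^ 2 * y ^ 2 + 16 / 10000 * V ^ 2) ^ 2 := by
    have h19 := mul_le_mul_of_nonneg_right hk2 (sq_nonneg (Z * y * V))
    nlinarith [sq_nonneg (-j.n2 * Z ^ 2 * y ^ 2 - 16 / 10000 * V ^ 2)]
  have h19 := (abs_le_of_sq_le_sq' h18 (by positivity)).1
  have h20 := mul_le_mul_of_nonneg_left h1 hV
  have h21 := mul_le_mul_of_nonneg_right hv2 (sq_nonneg y)
  have h22 := mul_nonneg hV ha
  rw [e3]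
  linarith

end JetAlg

theorem Jet.Small.good {j : Jet} (h : j.Small) : j.Good :=
  ⟨JetAlg.v2_nonpos h, JetAlg.left h, JetAlg.right h⟩

end Crest.Agent.R244
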