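import Crest.Agent.R244.ModelExAux

/-! Row 244: construction of the model graph manifold. -/

set_option autoImplicit false
set_option maxSynthPendingDepth 3
open Set Filter Topology
open scoped ContDiff
open Crest.GeometryTopology.CoordMetric Crest.GeometryTopology.ChartCurvature
open Crest.GeometryTopology.Geodesic

noncomputable section
namespace Crest.Agent.R244

namespace MX

theorem angle_iff {α x y : ℝ} (hα : 0 < α) : ((α * x : ℝ) : Real.Angle) = (α * y : ℝ) ↔
    (x : AddCircle (2 * Real.pi / α)) = y := by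
  refine coe_eq_iff.trans (Iff.trans (exists_congr fun k => ?_) coe_eq_iff.symm)
  rw [← mul_right_inj' hα.ne' (b := x), mul_add, mul_left_comm α k, mul_div_cancel₀ _ hα.ne']

/-- The left end. -/
def sideL (P : Profile) : Side P where
  ρ := P.rL + P.S
  ℓ := P.l1
  a := -EuclideanSpace.proj 0
  b := P.α • EuclideanSpace.proj 2
  c := EuclideanSpace.proj 1
  ρ_pos := P.rL_pos
  ℓ_pos := l1_pos P
  ρ_lt := by
    unfold Profile.T Profile.A
    linarith [P.rR_pos]
  abs_a y := by simp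
  lat y y' := by
    simp only [qN, Prod.mk.injEq, Profile.l2, ← angle_iff P.α_pos]
    simp [and_comm]
  surj s θ z := ⟨!₂[-s, z, θ / P.α], by simp [mul_div_cancel₀ _ P.α_pos.ne']⟩
  iso y hy u v := by
    have h : y 0 < -P.S := by simpa [lt_neg] using hy
    rw [P.bil_gN', P.m_lin _ h.le, P.n_left _ (by linarith [P.S_ge]),
      P.e_left _ (by linarith [P.S_ge])]
    simp
    ring
  det := by simp [Matrix.det_fin_three, P.α_pos]

/-- The right end. -/
def sideR (P : Profile) : Side P where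
  ρ := P.rR + P.S
  ℓ := P.l2
  a := EuclideanSpace.proj 0
  b := P.β • EuclideanSpace.proj 1
  c := EuclideanSpace.proj 2 - P.ε • EuclideanSpace.proj 1
  ρ_pos := P.rR_pos
  ℓ_pos := l2_pos P
  ρ_lt := by
    unfold Profile.T Profile.A
    linarith [P.rL_pos]
  abs_a y := by simp
  lat y y' := by
    have h : P.ε * P.l1 = P.l2 := by
      rw [Profile.l1, Profile.l2, eq_div_iff P.α_pos.ne', mul_right_comm, P.ε_mul,
        mul_div_cancel₀ _ P.β_pos.ne']
    have h2 : (y 1 : AddCircle P.l1) = y' 1 → ((P.ε * y 1 : ℝ) : AddCircle P.l2) = (P.ε * y' 1 : ℝ) :=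
      fun h' => by
        obtain ⟨k, hk⟩ := coe_eq_iff.1 h'
        exact coe_eq_iff.2 ⟨k, by rw [hk, ← h]; ring⟩
    refine Iff.trans ?_ (and_congr_right' (and_congr_left' (angle_iff P.β_pos).symm))
    simp only [qN, Prod.mk.injEq]
    refine and_congr_right' (and_congr_right fun h' => ?_)
    simp [h2 h']
  surj s θ z := ⟨!₂[s, θ / P.β, z + P.ε * (θ / P.β)], by simp [mul_div_cancel₀ _ P.β_pos.ne']⟩
  iso y hy u v := by
    have h : P.S < y 0 := hy
    rw [P.bil_gN', P.n_lin _ h.le, P.m_right _ (by linarith [P.S_ge]),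
      P.e_right _ (by linarith [P.S_ge])]
    simp
    ring
  det := by simp [Matrix.det_fin_three, P.β_pos]

variable (P : Profile)

theorem τ_sideL (y : E 3) : (sideL P).τ y = P.τL y := by
  simp [Side.τ, sideL, pol, Profile.τL, show P.rL + P.S + (-y 0 - P.S) = P.rL - y 0 by ring]

theorem τ_sideR (y : E 3) : (sideR P).τ y = P.τR y := by
  simp [Side.τ, sideR, pol, Profile.τR, show P.rR + P.S + (y 0 - P.S) = P.rR + y 0 by ring]

/-- The two ends. -/
def side (b : Bool) : Side P := if b then sideR P else sideL P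

/-- The three pieces. -/
def W : Option Bool → Set (E 3)
  | none => P.WN
  | some b => P.WF (side P b).ρ

/-- The metrics. -/
def g : Option Bool → MetricField 3
  | none => P.gN
  | some _ => fun _ => 1

/-- The gluing relation. -/
def R : Option Bool → E 3 → Option Bool → E 3 → Prop
  | none, y, none, y' => qN P y = qN P y'
  | none, y, some b, w => P.S < (side P b).a y ∧ (side P b).q ((side P b).τ y) = (side P b).q w
  | some b, w, none, y => P.S < (side P b).a y ∧ (side P b).q ((side P b).τ y) = (side P b).q w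
  | some b, w, some b', w' => b = b' ∧ (side P b).q w = (side P b).q w'

variable {P}

theorem side_eq {b b' : Bool} {y : E 3} (h : P.S < (side P b).a y) (h' : P.S < (side P b').a y) :
    b = b' := by
  have := P.S_ge
  cases b <;> cases b' <;> simp [side, sideL, sideR] at h h' ⊢ <;> linarith

theorem R_symm {k l : Option Bool} {y z : E 3} (h : R P k y l z) : R P l z k y := by
  rcases k with _ | b <;> rcases l with _ | b'
  · exact Eq.symm h
  · exact h
  · exact h
  · obtain ⟨rfl, h⟩ := h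
    exact ⟨rfl, h.symm⟩

/-- The local form of the relation. -/
def Loc (P : Profile) (k l : Option Bool) (y z : E 3) : Prop :=
  ∃ τ : E 3 → E 3, ContDiffAt ℝ ∞ τ y ∧ τ y = z ∧ (∀ᶠ y' in 𝓝 y, R P k y' l (τ y')) ∧
    (∀ u v, bil (g P k) y u v = bil (g P l) z (fderiv ℝ τ y u) (fderiv ℝ τ y v)) ∧
    0 < LinearMap.det (fderiv ℝ τ y : E 3 →ₗ[ℝ] E 3)

theorem Loc.symm {k l : Option Bool} {y z : E 3} (h : Loc P k l y z) : Loc P l k z y := by
  obtain ⟨τ, h1, rfl, h2, h3, h4⟩ := h
  obtain ⟨σ, h5, h6, h7, h8⟩ := exists_loc_inverse h1 h3 h4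
  refine ⟨σ, h5, h6, ?_, h8⟩
  filter_upwards [h7, (h6 ▸ h5.continuousAt.tendsto).eventually h2] with z h9 h10
  rw [h9] at h10
  exact R_symm h10

theorem loc_self {k : Option Bool} {y z : E 3} (h : ∀ x, R P k x k (x + (z - y)))
    (h' : bil (g P k) y = bil (g P k) z) : Loc P k k y z :=
  ⟨fun x => x + (z - y), by fun_prop, by simp, .of_forall h, by simp [h'], by simp⟩

theorem loc_side {b : Bool} {y w : E 3} (h : R P none y (some b) w) : Loc P none (some b) y w := by
  refine ⟨fun x => (side P b).τ x + (w - (side P b).τ y),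
    ((side P b).contDiff_τ.add contDiff_const).contDiffAt, by simp, ?_, fun u v => ?_, ?_⟩
  · filter_upwards [(isOpen_lt continuous_const (side P b).a.continuous).mem_nhds h.1] with x hx
    exact ⟨hx, (qF_add_sub h.2 _).symm⟩
  · rw [fderiv_add_const]
    exact (side P b).iso_τ h.1 w u v
  · rw [fderiv_add_const]
    exact (side P b).det_τ h.1

theorem exists_nhds (y : E 3) {m : ℝ} (hm : 0 < m) :
    ∃ U ∈ 𝓝 y, ∀ y₁ ∈ U, ∀ y₂ ∈ U, ∀ i, |y₁ i - y₂ i| < m :=
  ⟨Metric.ball y (m / 2), Metric.ball_mem_nhds _ (half_pos hm), fun y₁ h₁ y₂ h₂ i =>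
    (PiLp.dist_apply_le y₁ y₂ i).trans_lt ((dist_triangle_right _ _ y).trans_lt
      (by linarith [Metric.mem_ball.1 h₁, Metric.mem_ball.1 h₂]))⟩

theorem closed_side (b : Bool) :
    IsClosed {p : W P none × W P (some b) | R P none p.1 (some b) p.2} := by
  have h1 : Continuous fun p : W P none × W P (some b) => (p.1 : E 3) := by fun_prop
  have h2 : Continuous fun p : W P none × W P (some b) => (p.2 : E 3) := by fun_prop
  convert (isClosed_le (continuous_const (y := P.S)) ((side P b).a.continuous.comp h1)).inter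
    (isClosed_eq ((continuous_qF P.A (side P b).ℓ).comp ((side P b).contDiff_τ.continuous.comp h1))
      ((continuous_qF _ _).comp h2)) using 1
  ext p
  refine ⟨fun h => ⟨h.1.le, h.2⟩, fun h => ⟨lt_of_le_of_ne h.1 fun e => ?_, h.2⟩⟩
  have h3 := Side.δ_τ (D := side P b) p.1.2 h.1
  rw [← e, sub_self, add_zero] at h3
  exact (Side.mem_W.1 p.2.2).ne (h3.symm.trans (congrArg δ h.2))

/-- The gluing data of the graph manifold. -/
def glue (P : Profile) : GlueData 3 (Option Bool) where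
  W := W P
  g := g P
  riem
    | none => P.isRiemannianOn_gN (isOpen_WN P)
    | some _ => ⟨isOpen_WF _ _, fun _ _ => contDiffOn_const, fun _ _ => Matrix.PosDef.one⟩
  R := R P
  refl
    | none => fun _ _ => rfl
    | some _ => fun _ _ => ⟨rfl, rfl⟩
  symm _ _ _ _ _ _ := R_symm
  trans
    | none, none, none => fun _ _ _ _ _ _ => Eq.trans
    | none, none, some _ => fun _ hy _ hz _ _ h h' =>
      ⟨((Side.key hz hy h'.1).1 h.symm).1, ((Side.key hz hy h'.1).1 h.symm).2.symm.trans h'.2⟩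
    | none, some _, none => fun _ hy _ _ _ hw h h' =>
      (Side.key hy hw h.1).2 ⟨h'.1, h.2.trans h'.2.symm⟩
    | none, some _, some _ => fun _ _ _ _ _ _ h ⟨rfl, h'⟩ => ⟨h.1, h.2.trans h'⟩
    | some _, none, none => fun _ _ _ hz _ hw h h' =>
      ⟨((Side.key hz hw h.1).1 h').1, ((Side.key hz hw h.1).1 h').2.symm.trans h.2⟩
    | some _, none, some _ => fun _ _ _ _ _ _ h h' => by
      obtain rfl := side_eq h.1 h'.1
      exact ⟨rfl, h.2.symm.trans h'.2⟩
    | some _, some _, none => fun _ _ _ _ _ _ ⟨rfl, h⟩ h' => ⟨h'.1, h'.2.trans h.symm⟩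
    | some _, some _, some _ => fun _ _ _ _ _ _ ⟨rfl, h⟩ ⟨rfl, h'⟩ => ⟨rfl, h.trans h'⟩
  loc
    | none, none => fun y _ z _ h => loc_self (k := none) (fun x => (qN_add_sub h x).symm) (by
        ext u v
        simp only [g, P.bil_gN', show y 0 = z 0 from congrArg Prod.fst h])
    | none, some _ => fun _ _ _ _ => loc_side
    | some _, none => fun _ _ _ _ h => (loc_side h).symm
    | some _, some _ => fun _ _ _ _ ⟨rfl, h⟩ =>
      loc_self (fun x => ⟨rfl, (qF_add_sub h x).symm⟩) rfl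
  inj
    | none => fun y _ => by
      obtain ⟨U, hU, h⟩ := exists_nhds y (lt_min (l1_pos P) (l2_pos P))
      refine ⟨U, hU, fun y₁ h₁ y₂ h₂ h' => ?_⟩
      simp only [R, qN, Prod.mk.injEq] at h'
      ext i
      fin_cases i
      exacts [h'.1, eq_of_coe_eq h'.2.1 ((h _ h₁ _ h₂ 1).trans_le (min_le_left _ _)),
        eq_of_coe_eq h'.2.2 ((h _ h₁ _ h₂ 2).trans_le (min_le_right _ _))]
    | some b => fun y _ => by
      obtain ⟨U, hU, h⟩ := exists_nhds y (lt_min (A_pos P) (side P b).ℓ_pos)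
      refine ⟨U, hU, fun y₁ h₁ y₂ h₂ h' => ?_⟩
      simp only [R, Side.q, qF, Prod.mk.injEq, true_and] at h'
      ext i
      fin_cases i
      exacts [eq_of_coe_eq h'.1 ((h _ h₁ _ h₂ 0).trans_le (min_le_left _ _)),
        eq_of_coe_eq h'.2.1 ((h _ h₁ _ h₂ 1).trans_le (min_le_left _ _)),
        eq_of_coe_eq h'.2.2 ((h _ h₁ _ h₂ 2).trans_le (min_le_right _ _))]
  closed
    | none, none => isClosed_eq ((continuous_qN P).comp (by fun_prop))
        ((continuous_qN P).comp (by fun_prop))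
    | none, some b => closed_side b
    | some b, none => (closed_side b).preimage continuous_swap
    | some b, some b' => IsClosed.inter (s₁ := {_p | b = b'}) isClosed_const (isClosed_eq
        ((continuous_qF _ _).comp (by fun_prop)) ((continuous_qF _ _).comp (by fun_prop)))

end MX

open MX

theorem exists_model (P : Profile) :
    ∃ (M : Type) (_ : TopologicalSpace M), T2Space M ∧ SecondCountableTopology M ∧
      CompactSpace M ∧ ConnectedSpace M ∧ Nonempty (Model P M) := by
  have hS := P.S_ge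
  have hT := T_sub_S P
  have h0 : (0 : E 3) ∈ P.WN := by simp only [Profile.WN, mem_ofPred_eq]; simp; linarith
  obtain ⟨M, _, 𝒜, Ψ, h1, h2, h3, h4, h5, h6, h7⟩ := (glue P).exists_atlas (k₀ := none) h0
  have hp : ∀ b, ∀ w ∈ P.WF (side P b).ρ, ∀ w' ∈ P.WF (side P b).ρ,
      (side P b).q w = (side P b).q w' → Ψ (some b) w = Ψ (some b) w' := fun b w hw w' hw' h =>
    (h6 (some b) (some b) w hw w' hw').2 ⟨rfl, h⟩
  have hg : ∀ b, ∀ y ∈ P.WN, P.S < (side P b).a y → Ψ none y = Ψ (some b) ((side P b).τ y) :=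
    fun b y hy h => (h6 none (some b) y hy _ (Side.τ_mem hy h)).2 ⟨h, rfl⟩
  have hper : ∀ b, ∀ y ∈ P.WF (side P b).ρ, ∀ j k l : ℤ,
      Ψ (some b) (y + !₂[j * P.A, k * P.A, l * (side P b).ℓ]) = Ψ (some b) y := fun b y hy j k l => by
    have h : (side P b).q (y + !₂[j * P.A, k * P.A, l * (side P b).ℓ]) = (side P b).q y :=
      Prod.ext (coe_eq_iff.2 ⟨j, rfl⟩) (Prod.ext (coe_eq_iff.2 ⟨k, rfl⟩) (coe_eq_iff.2 ⟨l, rfl⟩))
    exact hp b _ (Side.mem_W.2 (h ▸ Side.mem_W.1 hy)) _ hy h
  refine ⟨M, _, h1, h2, ⟨?_⟩, connectedSpace_iff_univ.2 ⟨⟨Ψ none 0, trivial⟩, ?_⟩,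
    ⟨⟨𝒜, Ψ (some false), Ψ none, Ψ (some true), h3, fun x => ?_, h5 (some false), h5 none,
      h5 (some true), h7 (some false), h7 none, h7 (some true), hper false, fun y hy k l => ?_,
      hper true, fun y hy y' hy' h => ?_, fun y hy h => ?_, fun y hy h => ?_⟩⟩⟩
  · choose K hK hK' hK'' using fun b => Side.exists_compact (h5 (some b)) (hp b) (hg b)
    have h8 : ∀ y : E 3, |y 0| ≤ P.S + 1 → y ∈ P.WN := fun y hy => hy.trans_lt (by linarith)
    have h9 : ∀ y : E 3, |y 0| ≤ P.S + 1 → Ψ none y ∈ Ψ none ''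
        (Metric.closedBall 0 (P.S + 1 + P.l1 / 2 + P.l2 / 2) ∩ {y | |y 0| ≤ P.S + 1}) :=
      fun y hy => by
        obtain ⟨s, hs, hs'⟩ := exists_small (l1_pos P) (y 1)
        obtain ⟨t, ht, ht'⟩ := exists_small (l2_pos P) (y 2)
        exact ⟨!₂[y 0, s, t], ⟨mem_closedBall_zero_iff.2 ((norm_le3 _).trans
          (add_le_add_three hy hs ht)), hy⟩,
          (h6 none none _ (h8 !₂[y 0, s, t] hy) _ (h8 _ hy)).2 (Prod.ext rfl (Prod.ext hs' ht'))⟩
    have h10 : IsCompact (Metric.closedBall (0 : E 3) (P.S + 1 + P.l1 / 2 + P.l2 / 2) ∩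
        {y | |y 0| ≤ P.S + 1}) :=
      (isCompact_closedBall _ _).inter_right (isClosed_le (by fun_prop) continuous_const)
    refine (((hK false).union (hK true)).union (h10.image_of_continuousOn
      ((h5 none).mono fun y hy => h8 y hy.2))).of_isClosed_subset isClosed_univ fun x _ => ?_
    obtain ⟨_ | b, y, hy, rfl⟩ := h4 x
    · rcases le_total |y 0| (P.S + 1) with h | h
      · exact Or.inr (h9 y h)
      · exact Or.inl ((le_abs'.1 h).imp (fun h => hK'' false y hy (le_neg.1 h))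
          fun h => hK'' true y hy h)
    · rcases hK' b y hy with h | ⟨z, -, h, h'⟩
      · cases b
        exacts [Or.inl (Or.inl h), Or.inl (Or.inr h)]
      · exact Or.inr (h' ▸ h9 z h)
  · have h8 : IsPreconnected (Ψ none '' P.WN) := by
      refine (Convex.isPreconnected ?_).image _ (h5 none)
      simpa [Profile.WN, Set.preimage] using (convex_ball (0 : ℝ) P.T).linear_preimage
        (EuclideanSpace.proj (𝕜 := ℝ) (0 : Fin 3) : E 3 →L[ℝ] ℝ).toLinearMap
    refine isPreconnected_of_forall (Ψ none 0) fun x _ => ?_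
    obtain ⟨_ | b, y, hy, rfl⟩ := h4 x
    · exact ⟨Ψ none '' P.WN, subset_univ _, ⟨0, h0, rfl⟩, ⟨y, hy, rfl⟩, h8⟩
    · obtain ⟨t, ht, h9, z, hz, h10⟩ := Side.exists_preconnected (h5 (some b)) (hp b) (hg b) hy
      exact ⟨Ψ none '' P.WN ∪ t, subset_univ _, Or.inl ⟨0, h0, rfl⟩, Or.inr h9,
        h8.union (Ψ none z) ⟨z, hz, rfl⟩ h10 ht⟩
  · obtain ⟨_ | _ | _, h⟩ := h4 x
    exacts [Or.inr (Or.inl h), Or.inl h, Or.inr (Or.inr h)]
  · exact (h6 none none _ (by simpa [glue, W, Profile.WN] using hy) _ hy).2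
      (Prod.ext (add_zero _) (Prod.ext (coe_eq_iff.2 ⟨k, rfl⟩) (coe_eq_iff.2 ⟨l, rfl⟩)))
  · have h8 : qN P y' = qN P y := (h6 none none _ hy' _ hy).1 h.symm
    simp only [qN, Prod.mk.injEq, coe_eq_iff] at h8
    obtain ⟨h8, ⟨k, hk⟩, l, hl⟩ := h8
    refine ⟨k, l, ?_⟩
    ext i
    fin_cases i
    exacts [h8.trans (add_zero _).symm, hk, hl]
  · exact τ_sideL P y ▸ hg false y hy (lt_neg.1 h)
  · exact τ_sideR P y ▸ hg true y hy h

end Crest.Agent.R244
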