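import Crest.Agent.R244.NeckAux

/-! Row 244: the Lyapunov argument in the neck, as a statement about real functions. -/

set_option autoImplicit false
set_option maxSynthPendingDepth 3
open Set Filter Topology
open scoped ContDiff
open Crest.GeometryTopology.CoordMetric Crest.GeometryTopology.ChartCurvature
open Crest.GeometryTopology.Geodesic

noncomputable section
namespace Crest.Agent.R244

/-- One-sided Dini criterion for monotonicity. -/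
theorem monotone_of_dini {Q : ℝ → ℝ}
    (hr : ∀ t₀, ∀ ε > (0 : ℝ), ∀ᶠ t in 𝓝[>] t₀, Q t₀ - ε * (t - t₀) ≤ Q t)
    (hl : ∀ t₀, ∀ ε > (0 : ℝ), ∀ᶠ t in 𝓝[<] t₀, Q t ≤ Q t₀ + ε * (t₀ - t)) : Monotone Q := by
  intro a b hab
  have key : ∀ ε > (0 : ℝ), Q a + ε * a ≤ Q b + ε * b := by
    intro ε hε
    let S : Set ℝ := {t | t ∈ Icc a b ∧ Q a + ε * a ≤ Q t + ε * t}
    have haS : a ∈ S := ⟨⟨le_rfl, hab⟩, le_rfl⟩
    have hbdd : BddAbove S := ⟨b, fun t ht => ht.1.2⟩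
    have hlub : IsLUB S (sSup S) := isLUB_csSup ⟨a, haS⟩ hbdd
    set c := sSup S with hc
    have hac : a ≤ c := hlub.1 haS
    have hcb : c ≤ b := hlub.2 fun t ht => ht.1.2
    have h1 : Q a + ε * a ≤ Q c + ε * c := by
      have h2 : ∀ᶠ t in 𝓝[≤] c, Q t + ε * t ≤ Q c + ε * c := by
        have h3 := hl c ε hε
        rw [eventually_nhdsWithin_iff] at h3 ⊢
        filter_upwards [h3] with t ht ht'
        rcases eq_or_lt_of_le (mem_Iic.1 ht') with rfl | h4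
        · exact le_rfl
        · have := ht h4
          linarith
      obtain ⟨t, ht, ht'⟩ := ((hlub.frequently_mem ⟨a, haS⟩).and_eventually h2).exists
      exact ht.2.trans ht'
    rcases eq_or_lt_of_le hcb with h4 | h4
    · rwa [← h4]
    · exfalso
      obtain ⟨t, ht, ht'⟩ := ((hr c ε hε).and (Ioo_mem_nhdsGT h4)).exists
      have : t ∈ S := ⟨⟨hac.trans ht'.1.le, ht'.2.le⟩, by linarith⟩
      exact absurd (hlub.1 this) (not_le.2 ht'.1)
  refine le_of_forall_pos_le_add fun δ hδ => ?_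
  have h1 := key (δ / (b - a + 1)) (div_pos hδ (by linarith))
  have h2 : δ / (b - a + 1) * (b - a) ≤ δ := by
    rw [div_mul_eq_mul_div, div_le_iff₀ (by linarith)]
    nlinarith
  linarith

/-- The geodesic and Jacobi equations of the neck metric in Hamiltonian form, on the open set `O`
of parameters spent in the neck: `(X, Y)` are the conserved momenta of the geodesic, `(p, r)` their
(conserved) linearisations, `J = (η, ξx, ξy)`, and `f = |J|²` globally. -/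
structure NeckODE (P : Profile) (O : Set ℝ) (s σ X Y η ηd ξx ξy p r f : ℝ → ℝ) : Prop where
  isOpen : IsOpen O
  closed : IsClosed {t | t ∈ O ∧ |s t| ≤ 1}
  ds : ∀ t ∈ O, HasDerivAt s (σ t) t
  dX : ∀ t ∈ O, HasDerivAt X 0 t
  dY : ∀ t ∈ O, HasDerivAt Y 0 t
  dp : ∀ t ∈ O, HasDerivAt p 0 t
  dr : ∀ t ∈ O, HasDerivAt r 0 t
  dσ : ∀ t ∈ O, HasDerivAt σ (-((P.jet (s t)).V1 (X t) (Y t)) / 2) t
  dη : ∀ t ∈ O, HasDerivAt η (ηd t) t
  dηd : ∀ t ∈ O, HasDerivAt ηd (-((P.jet (s t)).V2 (X t) (Y t)) / 2 * η t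
    - ((P.jet (s t)).xd1 (X t) (Y t) * p t + (P.jet (s t)).yd1 (X t) (Y t) * r t)) t
  dξx : ∀ t ∈ O, HasDerivAt ξx
    ((P.jet (s t)).xd (p t) (r t) + η t * (P.jet (s t)).xd1 (X t) (Y t)) t
  dξy : ∀ t ∈ O, HasDerivAt ξy
    ((P.jet (s t)).yd (p t) (r t) + η t * (P.jet (s t)).yd1 (X t) (Y t)) t
  f_eq : ∀ t ∈ O, f t = η t ^ 2 + (ξy t - P.e (s t) * ξx t) ^ 2 / P.m (s t) + ξx t ^ 2 / P.n (s t)
  f_nonneg : ∀ t, 0 ≤ f t
  df : Differentiable ℝ f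
  ddf : Differentiable ℝ (deriv f)
  flat : ∀ t, t ∉ O → 0 ≤ deriv (deriv f) t

namespace Neck

/-- `F` is an admissible branch at `t₀`. -/
def Cand (f : ℝ → ℝ) (t₀ : ℝ) (F : ℝ → ℝ) : Prop :=
  ∃ d, HasDerivAt F d t₀ ∧ 0 ≤ d ∧ (f t₀ = 0 → deriv (deriv f) t₀ / 2 ≤ d)

/-- Half the derivative of `f`. -/
def Cov (f : ℝ → ℝ) (t : ℝ) : ℝ := deriv f t / 2

open Classical in
/-- The glued Lyapunov function. -/
def QQ (P : Profile) (O : Set ℝ) (s σ X Y η ηd ξx ξy p r f : ℝ → ℝ) (t : ℝ) : ℝ :=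
  if t ∈ O ∧ |s t| < 1 then
    (if 0 < (P.jet (s t)).V1 (X t) (Y t) then FL (fun t => P.jet (s t)) σ X Y η ηd ξx ξy p r t
      else if (P.jet (s t)).V1 (X t) (Y t) < 0 then FR (fun t => P.jet (s t)) σ X Y η ηd ξx ξy p r t
      else F0 η ηd ξx ξy p r t)
  else Cov f t

theorem jet_left (P : Profile) {x : ℝ} (hx : x ≤ -1) : (P.jet x).n0 = 1 ∧ (P.jet x).n1 = 0 ∧
    (P.jet x).n2 = 0 :=
  ⟨P.n_left x hx, deriv_zero_Iic (diff0 P.n_smooth) P.n_left x hx,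
    deriv_zero_Iic (diff1 P.n_smooth) (deriv_zero_Iic (diff0 P.n_smooth) P.n_left) x hx⟩

theorem jet_left' (P : Profile) {x : ℝ} (hx : x ≤ -1 / 2) : (P.jet x).e0 = 0 ∧ (P.jet x).e1 = 0 ∧
    (P.jet x).e2 = 0 :=
  ⟨P.e_left x hx, deriv_zero_Iic (diff0 P.e_smooth) P.e_left x hx,
    deriv_zero_Iic (diff1 P.e_smooth) (deriv_zero_Iic (diff0 P.e_smooth) P.e_left) x hx⟩

theorem jet_right (P : Profile) {x : ℝ} (hx : 1 ≤ x) : (P.jet x).m0 = 1 ∧ (P.jet x).m1 = 0 ∧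
    (P.jet x).m2 = 0 :=
  ⟨P.m_right x hx, deriv_zero_Ici (diff0 P.m_smooth) P.m_right x hx,
    deriv_zero_Ici (diff1 P.m_smooth) (deriv_zero_Ici (diff0 P.m_smooth) P.m_right) x hx⟩

theorem jet_right' (P : Profile) {x : ℝ} (hx : 1 / 2 ≤ x) : (P.jet x).e0 = P.ε ∧
    (P.jet x).e1 = 0 ∧ (P.jet x).e2 = 0 :=
  ⟨P.e_right x hx, deriv_zero_Ici (diff0 P.e_smooth) P.e_right x hx,
    deriv_zero_Ici (diff1 P.e_smooth) (deriv_zero_Ici (diff0 P.e_smooth) P.e_right) x hx⟩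

theorem V1_of_Y (j : Jet) (X : ℝ) : j.V1 X 0 = j.n1 * X ^ 2 := by
  simp [Jet.V1, Jet.Z]

theorem V1_of_Z (j : Jet) {X Y : ℝ} (hZ : j.Z X Y = 0) : j.V1 X Y = j.m1 * Y ^ 2 := by
  simp [Jet.V1, hZ]

section
variable {P : Profile} {O : Set ℝ} {s σ X Y η ηd ξx ξy p r f : ℝ → ℝ}
  (h : NeckODE P O s σ X Y η ηd ξx ξy p r f)
include h

theorem mkAt {t : ℝ} (ht : t ∈ O) : At (fun t => P.jet (s t)) σ X Y η ηd ξx ξy p r t :=
  ⟨jp P (h.ds t ht), P.m_pos _, P.n_pos _, h.dX t ht, h.dY t ht, h.dp t ht, h.dr t ht, h.dσ t ht,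
    h.dη t ht, h.dηd t ht, h.dξx t ht, h.dξy t ht⟩

theorem cov_eq {t : ℝ} (ht : t ∈ O) :
    Cov f t = F0 η ηd ξx ξy p r t + G (fun t => P.jet (s t)) σ X Y η ξx ξy t := by
  have h1 := (mkAt h ht).df.congr_of_eventuallyEq
    ((h.isOpen.eventually_mem ht).mono fun u hu => h.f_eq u hu)
  unfold Cov
  rw [h1.deriv]
  ring

theorem dCov (t : ℝ) : HasDerivAt (Cov f) (deriv (deriv f) t / 2) t :=
  (h.ddf t).hasDerivAt.div_const 2

theorem dd_eq {t d : ℝ} (ht : t ∈ O)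
    (hd : HasDerivAt (G (fun t => P.jet (s t)) σ X Y η ξx ξy) d t) :
    deriv (deriv f) t / 2 = ηd t ^ 2 - (P.jet (s t)).V2 (X t) (Y t) * η t ^ 2 / 2 +
      qq (P.jet (s t)) (p t) (r t) + d :=
  (dCov h t).unique (((mkAt h ht).dF0.fun_add hd).congr_of_eventuallyEq
    ((h.isOpen.eventually_mem ht).mono fun _ hu => cov_eq h hu))

theorem zero_of {t : ℝ} (ht : t ∈ O) (h0 : f t = 0) : η t = 0 ∧ ξx t = 0 ∧ ξy t = 0 := by
  have h1 := h.f_eq t ht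
  have hm := P.m_pos (s t)
  have hn := P.n_pos (s t)
  have a1 : 0 ≤ η t ^ 2 := sq_nonneg _
  have a2 : 0 ≤ (ξy t - P.e (s t) * ξx t) ^ 2 / P.m (s t) := by positivity
  have a3 : 0 ≤ ξx t ^ 2 / P.n (s t) := by positivity
  have b1 : η t ^ 2 = 0 := by linarith
  have b2 : (ξy t - P.e (s t) * ξx t) ^ 2 / P.m (s t) = 0 := by linarith
  have b3 : ξx t ^ 2 / P.n (s t) = 0 := by linarith
  have c1 : η t = 0 := by simpa using b1
  have c3 : ξx t = 0 := by simpa [hn.ne'] using b3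
  have c2 : ξy t = 0 := by simpa [hm.ne', c3] using b2
  exact ⟨c1, c3, c2⟩

theorem dd_zero {t : ℝ} (ht : t ∈ O) (h0 : f t = 0) :
    deriv (deriv f) t / 2 = ηd t ^ 2 + qq (P.jet (s t)) (p t) (r t) := by
  obtain ⟨d, hd, -, -, h3⟩ := (mkAt h ht).dG
  obtain ⟨a1, a2, a3⟩ := zero_of h ht h0
  rw [dd_eq h ht hd, h3 a1 a2 a3, a1]
  ring

theorem cand_cov {t : ℝ} (ht : ¬ (t ∈ O ∧ |s t| < 1)) : Cand f t (Cov f) := by
  refine ⟨_, dCov h t, ?_, fun _ => le_rfl⟩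
  by_cases hO : t ∈ O
  · obtain ⟨d, hd, h1, h2, -⟩ := (mkAt h hO).dG
    rw [dd_eq h hO hd]
    have h3 : 1 ≤ |s t| := not_lt.1 fun h' => ht ⟨hO, h'⟩
    rcases le_abs'.1 h3 with h4 | h4
    · obtain ⟨a1, a2, a3⟩ := jet_left P h4
      obtain ⟨a4, a5, a6⟩ := jet_left' P (show s t ≤ -1 / 2 by linarith)
      exact h1 a1 a2 a3 a4 a5 a6 (P.m_cvx _ h4)
    · obtain ⟨a1, a2, a3⟩ := jet_right P h4
      obtain ⟨-, a5, a6⟩ := jet_right' P (show 1 / 2 ≤ s t by linarith)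
      exact h2 a1 a2 a3 a5 a6 (P.n_cvx _ h4)
  · linarith [h.flat t hO]

theorem cand_F0 {t : ℝ} (ht : t ∈ O) (h1 : -1 ≤ s t) (h2 : s t ≤ 1) :
    Cand f t (F0 η ηd ξx ξy p r) := by
  refine ⟨_, (mkAt h ht).dF0, ?_, fun h0 => ?_⟩
  · have a1 : (P.jet (s t)).V2 (X t) (Y t) ≤ 0 := (P.good _ h1 h2).v2 _ _
    have a2 := (mkAt h ht).qq_nonneg
    nlinarith [sq_nonneg (ηd t), mul_nonneg (neg_nonneg.2 a1) (sq_nonneg (η t))]
  · rw [dd_zero h ht h0, (zero_of h ht h0).1]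
    simp

theorem cand_FL {t : ℝ} (ht : t ∈ O) (h1 : -1 ≤ s t) (h2 : s t ≤ 1)
    (hV : 0 ≤ (P.jet (s t)).V1 (X t) (Y t)) (hY : Y t ≠ 0) :
    Cand f t (FL (fun t => P.jet (s t)) σ X Y η ηd ξx ξy p r) := by
  obtain ⟨d, hd, a1, a2⟩ := (mkAt h ht).dFL (P.good _ h1 h2) hV hY
  refine ⟨d, hd, a1, fun h0 => ?_⟩
  rw [dd_zero h ht h0, a2 (zero_of h ht h0).1 (zero_of h ht h0).2.2]

theorem cand_FR {t : ℝ} (ht : t ∈ O) (h1 : -1 ≤ s t) (h2 : s t ≤ 1)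
    (hV : (P.jet (s t)).V1 (X t) (Y t) ≤ 0) (hZ : (P.jet (s t)).Z (X t) (Y t) ≠ 0) :
    Cand f t (FR (fun t => P.jet (s t)) σ X Y η ηd ξx ξy p r) := by
  obtain ⟨d, hd, a1, a2⟩ := (mkAt h ht).dFR (P.good _ h1 h2) hV hZ
  refine ⟨d, hd, a1, fun h0 => ?_⟩
  rw [dd_zero h ht h0, a2 (zero_of h ht h0).1 (zero_of h ht h0).2.1]

/-- The local structure of `QQ`: near `t₀` it follows an admissible branch, and the jump at `t₀`
(if any) has the sign of `σ t₀ * (s t - s t₀)`. -/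
theorem branch (t₀ : ℝ) : ∀ᶠ t in 𝓝 t₀, ∃ F ∈ ({FL (fun t => P.jet (s t)) σ X Y η ηd ξx ξy p r,
      FR (fun t => P.jet (s t)) σ X Y η ηd ξx ξy p r, F0 η ηd ξx ξy p r, Cov f} : Set (ℝ → ℝ)),
    Cand f t₀ F ∧ QQ P O s σ X Y η ηd ξx ξy p r f t = F t ∧
      ∃ k, F t₀ = QQ P O s σ X Y η ηd ξx ξy p r f t₀ + k * σ t₀ ∧ 0 ≤ k * (s t - s t₀) ∧
        (k ≠ 0 → t₀ ∈ O ∧ s t ≠ s t₀) := by
  by_cases hK : t₀ ∈ O ∧ |s t₀| ≤ 1
  swap
  · have h0 : ¬ (t₀ ∈ O ∧ |s t₀| < 1) := fun h' => hK ⟨h'.1, h'.2.le⟩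
    filter_upwards [h.closed.isOpen_compl.mem_nhds hK] with t ht
    have h1 : ¬ (t ∈ O ∧ |s t| < 1) := fun h' => ht ⟨h'.1, h'.2.le⟩
    exact ⟨Cov f, by simp, cand_cov h h0, if_neg h1, 0, by simp [QQ, if_neg h0], by simp, by simp⟩
  obtain ⟨hO, hs⟩ := hK
  obtain ⟨hs1, hs2⟩ := abs_le.1 hs
  have evO := h.isOpen.eventually_mem hO
  have evX := loc_const h.isOpen h.dX hO
  have evY := loc_const h.isOpen h.dY hO
  have hsc : ContinuousAt s t₀ := (h.ds t₀ hO).continuousAt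
  have hVc : ContinuousAt (fun t => (P.jet (s t)).V1 (X t) (Y t)) t₀ :=
    ((mkAt h hO).jp.V1 (h.dX t₀ hO) (h.dY t₀ hO)).continuousAt
  rcases eq_or_lt_of_le hs1 with hL | hL
  · -- `s t₀ = -1`
    have h0 : ¬ (t₀ ∈ O ∧ |s t₀| < 1) := fun h' => by rw [← hL] at h'; simpa using h'.2
    have hQ0 : QQ P O s σ X Y η ηd ξx ξy p r f t₀ = Cov f t₀ := if_neg h0
    obtain ⟨-, a2, -⟩ := jet_left P hL.ge
    obtain ⟨a4, a5, -⟩ := jet_left' P (show s t₀ ≤ -1 / 2 by linarith)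
    have hm1 : 0 < (P.jet (s t₀)).m1 := P.m_deriv_pos _ hs1 (by linarith)
    have hV0 : (P.jet (s t₀)).V1 (X t₀) (Y t₀) = (P.jet (s t₀)).m1 * Y t₀ ^ 2 := by
      simp [Jet.V1, a2, a5]
    by_cases hY : Y t₀ = 0
    · have hV0' : (P.jet (s t₀)).V1 (X t₀) (Y t₀) = 0 := by rw [hV0, hY]; simp
      have hF0 : F0 η ηd ξx ξy p r t₀ = QQ P O s σ X Y η ηd ξx ξy p r f t₀ +
          ξy t₀ ^ 2 * (P.jet (s t₀)).m1 / (2 * (P.jet (s t₀)).m0 ^ 2) * σ t₀ := by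
        rw [hQ0, cov_eq h hO, G_left (J := fun t => P.jet (s t)) (t := t₀) a2 a4 a5 hY]
        ring
      have hk : 0 ≤ ξy t₀ ^ 2 * (P.jet (s t₀)).m1 / (2 * (P.jet (s t₀)).m0 ^ 2) := by positivity
      filter_upwards [evX, evY] with t tX tY
      by_cases h1 : t ∈ O ∧ |s t| < 1
      · obtain ⟨b1, b2⟩ := abs_lt.1 h1.2
        have hn1 : (P.jet (s t)).n1 < 0 := P.n_deriv_neg _ b1 b2.le
        have hV : (P.jet (s t)).V1 (X t) (Y t) = (P.jet (s t)).n1 * X t₀ ^ 2 := by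
          rw [tX, tY, hY, V1_of_Y]
        have hV' : ¬ 0 < (P.jet (s t)).V1 (X t) (Y t) := by
          rw [hV]; nlinarith [sq_nonneg (X t₀)]
        have hks := mul_nonneg hk (show 0 ≤ s t - s t₀ by linarith)
        have hne : s t ≠ s t₀ := ne_of_gt (by linarith)
        by_cases h2 : (P.jet (s t)).V1 (X t) (Y t) < 0
        · have hZ : (P.jet (s t₀)).Z (X t₀) (Y t₀) ≠ 0 := by
            intro hZ
            have : X t₀ = 0 := by simpa [Jet.Z, hY] using hZ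
            rw [hV, this] at h2
            simp at h2
          refine ⟨_, by simp, cand_FR h hO hs1 hs2 hV0'.le hZ, ?_, _, ?_, hks, fun _ => ⟨hO, hne⟩⟩
          · simp only [QQ, if_pos h1, if_neg hV', if_pos h2]
          · rw [FR_of_V hV0', hF0]
        · refine ⟨_, by simp, cand_F0 h hO hs1 hs2, ?_, _, hF0, hks, fun _ => ⟨hO, hne⟩⟩
          simp only [QQ, if_pos h1, if_neg hV', if_neg h2]
      · exact ⟨Cov f, by simp, cand_cov h h0, if_neg h1, 0, by simp [hQ0], by simp, by simp⟩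
    · have hV0' : 0 < (P.jet (s t₀)).V1 (X t₀) (Y t₀) := by rw [hV0]; positivity
      filter_upwards [hVc.eventually (lt_mem_nhds hV0')] with t tV
      by_cases h1 : t ∈ O ∧ |s t| < 1
      · refine ⟨_, by simp, cand_FL h hO hs1 hs2 hV0'.le hY, ?_, 0, ?_, by simp, by simp⟩
        · simp only [QQ, if_pos h1, if_pos tV]
        · rw [(mkAt h hO).FL_left a2 a4 a5 hY, hQ0, cov_eq h hO]
          simp
      · exact ⟨Cov f, by simp, cand_cov h h0, if_neg h1, 0, by simp [hQ0], by simp, by simp⟩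
  rcases eq_or_lt_of_le hs2 with hR | hR
  · -- `s t₀ = 1`
    have h0 : ¬ (t₀ ∈ O ∧ |s t₀| < 1) := fun h' => by rw [hR] at h'; simpa using h'.2
    have hQ0 : QQ P O s σ X Y η ηd ξx ξy p r f t₀ = Cov f t₀ := if_neg h0
    obtain ⟨-, a2, -⟩ := jet_right P hR.ge
    obtain ⟨a4, a5, -⟩ := jet_right' P (show 1 / 2 ≤ s t₀ by linarith)
    have hn1 : (P.jet (s t₀)).n1 < 0 := P.n_deriv_neg _ hL hs2
    have hV0 : (P.jet (s t₀)).V1 (X t₀) (Y t₀) =
        (P.jet (s t₀)).n1 * (P.jet (s t₀)).Z (X t₀) (Y t₀) ^ 2 := by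
      simp [Jet.V1, a2, a5]
    by_cases hZ : (P.jet (s t₀)).Z (X t₀) (Y t₀) = 0
    · have hV0' : (P.jet (s t₀)).V1 (X t₀) (Y t₀) = 0 := by rw [hV0, hZ]; simp
      have hF0 : F0 η ηd ξx ξy p r t₀ = QQ P O s σ X Y η ηd ξx ξy p r f t₀ +
          -(ξx t₀ ^ 2 * (-(P.jet (s t₀)).n1) / (2 * (P.jet (s t₀)).n0 ^ 2)) * σ t₀ := by
        rw [hQ0, cov_eq h hO, G_right (J := fun t => P.jet (s t)) (t := t₀) a2 a5 hZ]
        ring
      have hk : 0 ≤ ξx t₀ ^ 2 * (-(P.jet (s t₀)).n1) / (2 * (P.jet (s t₀)).n0 ^ 2) := by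
        have := neg_pos.2 hn1
        positivity
      filter_upwards [evX, evY, hsc.eventually (lt_mem_nhds (show 1 / 2 < s t₀ by linarith))]
        with t tX tY ts
      by_cases h1 : t ∈ O ∧ |s t| < 1
      · obtain ⟨b1, b2⟩ := abs_lt.1 h1.2
        have hm1 : 0 < (P.jet (s t)).m1 := P.m_deriv_pos _ b1.le b2
        have hZt : (P.jet (s t)).Z (X t) (Y t) = 0 := by
          rw [← hZ, tX, tY]
          simp only [Jet.Z, a4, (jet_right' P ts.le).1]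
        have hV : (P.jet (s t)).V1 (X t) (Y t) = (P.jet (s t)).m1 * Y t₀ ^ 2 := by
          rw [V1_of_Z _ hZt, tY]
        have hV' : ¬ (P.jet (s t)).V1 (X t) (Y t) < 0 := by
          rw [hV]; nlinarith [sq_nonneg (Y t₀)]
        have hks : 0 ≤ -(ξx t₀ ^ 2 * (-(P.jet (s t₀)).n1) / (2 * (P.jet (s t₀)).n0 ^ 2)) *
            (s t - s t₀) := by
          have := mul_nonneg hk (show 0 ≤ s t₀ - s t by linarith)
          linarith
        have hne : s t ≠ s t₀ := ne_of_lt (by linarith)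
        by_cases h2 : 0 < (P.jet (s t)).V1 (X t) (Y t)
        · have hY : Y t₀ ≠ 0 := by
            intro hY
            rw [hV, hY] at h2
            simp at h2
          refine ⟨_, by simp, cand_FL h hO hs1 hs2 hV0'.ge hY, ?_, _, ?_, hks, fun _ => ⟨hO, hne⟩⟩
          · simp only [QQ, if_pos h1, if_pos h2]
          · rw [FL_of_V hV0', hF0]
        · refine ⟨_, by simp, cand_F0 h hO hs1 hs2, ?_, _, hF0, hks, fun _ => ⟨hO, hne⟩⟩
          simp only [QQ, if_pos h1, if_neg hV', if_neg h2]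
      · exact ⟨Cov f, by simp, cand_cov h h0, if_neg h1, 0, by simp [hQ0], by simp, by simp⟩
    · have hV0' : (P.jet (s t₀)).V1 (X t₀) (Y t₀) < 0 := by
        rw [hV0]
        exact mul_neg_of_neg_of_pos hn1 (by positivity)
      filter_upwards [hVc.eventually (gt_mem_nhds hV0')] with t tV
      by_cases h1 : t ∈ O ∧ |s t| < 1
      · refine ⟨_, by simp, cand_FR h hO hs1 hs2 hV0'.le hZ, ?_, 0, ?_, by simp, by simp⟩
        · simp only [QQ, if_pos h1, if_neg tV.not_gt, if_pos tV]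
        · rw [(mkAt h hO).FR_right a2 a5 hZ, hQ0, cov_eq h hO]
          simp
      · exact ⟨Cov f, by simp, cand_cov h h0, if_neg h1, 0, by simp [hQ0], by simp, by simp⟩
  -- `|s t₀| < 1`
  have h0 : t₀ ∈ O ∧ |s t₀| < 1 := ⟨hO, abs_lt.2 ⟨hL, hR⟩⟩
  have hm1 : 0 < (P.jet (s t₀)).m1 := P.m_deriv_pos _ hs1 hR
  have hn1 : (P.jet (s t₀)).n1 < 0 := P.n_deriv_neg _ hL hs2
  have ev1 : ∀ᶠ t in 𝓝 t₀, t ∈ O ∧ |s t| < 1 :=
    evO.and (hsc.abs.eventually (gt_mem_nhds h0.2))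
  rcases lt_trichotomy 0 ((P.jet (s t₀)).V1 (X t₀) (Y t₀)) with hV0 | hV0 | hV0
  · have hY : Y t₀ ≠ 0 := by
      intro hY
      rw [hY, V1_of_Y] at hV0
      nlinarith [sq_nonneg (X t₀)]
    filter_upwards [ev1, hVc.eventually (lt_mem_nhds hV0)] with t h1 tV
    refine ⟨_, by simp, cand_FL h hO hs1 hs2 hV0.le hY, ?_, 0, ?_, by simp, by simp⟩
    · simp only [QQ, if_pos h1, if_pos tV]
    · simp only [QQ, if_pos h0, if_pos hV0, zero_mul, add_zero]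
  · have hQ0 : QQ P O s σ X Y η ηd ξx ξy p r f t₀ = F0 η ηd ξx ξy p r t₀ := by
      simp only [QQ, if_pos h0, if_neg hV0.not_lt, if_neg hV0.not_gt]
    filter_upwards [ev1, evX, evY] with t h1 tX tY
    obtain ⟨b1, b2⟩ := abs_lt.1 h1.2
    by_cases h2 : 0 < (P.jet (s t)).V1 (X t) (Y t)
    · have hY : Y t₀ ≠ 0 := by
        intro hY
        have : (P.jet (s t)).n1 < 0 := P.n_deriv_neg _ b1 b2.le
        rw [tY, hY, V1_of_Y] at h2
        nlinarith [sq_nonneg (X t)]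
      refine ⟨_, by simp, cand_FL h hO hs1 hs2 hV0.le hY, ?_, 0, ?_, by simp, by simp⟩
      · simp only [QQ, if_pos h1, if_pos h2]
      · rw [FL_of_V hV0.symm, hQ0]
        simp
    by_cases h3 : (P.jet (s t)).V1 (X t) (Y t) < 0
    · have hZ : (P.jet (s t₀)).Z (X t₀) (Y t₀) ≠ 0 := by
        intro hZ
        rw [V1_of_Z _ hZ] at hV0
        have hY : Y t₀ = 0 := by simpa [hm1.ne'] using hV0.symm
        have hX : X t₀ = 0 := by simpa [Jet.Z, hY] using hZ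
        rw [tX, tY, hX, hY, V1_of_Y] at h3
        simp at h3
      refine ⟨_, by simp, cand_FR h hO hs1 hs2 hV0.ge hZ, ?_, 0, ?_, by simp, by simp⟩
      · simp only [QQ, if_pos h1, if_neg h2, if_pos h3]
      · rw [FR_of_V hV0.symm, hQ0]
        simp
    · refine ⟨_, by simp, cand_F0 h hO hs1 hs2, ?_, 0, ?_, by simp, by simp⟩
      · simp only [QQ, if_pos h1, if_neg h2, if_neg h3]
      · rw [hQ0]
        simp
  · have hZ : (P.jet (s t₀)).Z (X t₀) (Y t₀) ≠ 0 := by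
      intro hZ
      rw [V1_of_Z _ hZ] at hV0
      nlinarith [sq_nonneg (Y t₀)]
    filter_upwards [ev1, hVc.eventually (gt_mem_nhds hV0)] with t h1 tV
    refine ⟨_, by simp, cand_FR h hO hs1 hs2 hV0.le hZ, ?_, 0, ?_, by simp, by simp⟩
    · simp only [QQ, if_pos h1, if_neg tV.not_gt, if_pos tV]
    · simp only [QQ, if_pos h0, if_neg hV0.not_gt, if_pos hV0, zero_mul, add_zero]

theorem jump_right (t₀ : ℝ) : ∀ᶠ t in 𝓝[>] t₀, ∀ k : ℝ, 0 ≤ k * (s t - s t₀) →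
    (k ≠ 0 → t₀ ∈ O ∧ s t ≠ s t₀) → 0 ≤ k * σ t₀ := by
  by_cases hO : t₀ ∈ O
  · rcases lt_trichotomy (σ t₀) 0 with h1 | h1 | h1
    · filter_upwards [lt_right (h.ds t₀ hO) h1] with t ht k hk _
      have : k ≤ 0 := by nlinarith
      nlinarith
    · exact Eventually.of_forall fun t k _ _ => by simp [h1]
    · filter_upwards [gt_right (h.ds t₀ hO) h1] with t ht k hk _
      have : 0 ≤ k := by nlinarith
      positivity
  · refine Eventually.of_forall fun t k _ hk => ?_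
    have : k = 0 := by_contra fun h' => hO (hk h').1
    simp [this]

theorem jump_left (t₀ : ℝ) : ∀ᶠ t in 𝓝[<] t₀, ∀ k : ℝ, 0 ≤ k * (s t - s t₀) →
    (k ≠ 0 → t₀ ∈ O ∧ s t ≠ s t₀) → k * σ t₀ ≤ 0 := by
  by_cases hO : t₀ ∈ O
  · rcases lt_trichotomy (σ t₀) 0 with h1 | h1 | h1
    · filter_upwards [gt_left (h.ds t₀ hO) h1] with t ht k hk _
      have : 0 ≤ k := by nlinarith
      nlinarith
    · exact Eventually.of_forall fun t k _ _ => by simp [h1]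
    · filter_upwards [lt_left (h.ds t₀ hO) h1] with t ht k hk _
      have : k ≤ 0 := by nlinarith
      nlinarith
  · refine Eventually.of_forall fun t k _ hk => ?_
    have : k = 0 := by_contra fun h' => hO (hk h').1
    simp [this]

theorem dini_right (t₀ : ℝ) {c : ℝ} (hc : c ≤ 0 ∨ (f t₀ = 0 ∧ c ≤ deriv (deriv f) t₀ / 2))
    {ε : ℝ} (hε : 0 < ε) : ∀ᶠ t in 𝓝[>] t₀, QQ P O s σ X Y η ηd ξx ξy p r f t₀ +
      (c - ε) * (t - t₀) ≤ QQ P O s σ X Y η ηd ξx ξy p r f t := by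
  have h1 : ∀ᶠ t in 𝓝[>] t₀, ∀ F ∈ ({FL (fun t => P.jet (s t)) σ X Y η ηd ξx ξy p r,
      FR (fun t => P.jet (s t)) σ X Y η ηd ξx ξy p r, F0 η ηd ξx ξy p r, Cov f} : Set (ℝ → ℝ)),
      Cand f t₀ F → F t₀ + (c - ε) * (t - t₀) ≤ F t := by
    rw [eventually_all_finite (toFinite _)]
    intro F _
    by_cases hF : Cand f t₀ F
    · obtain ⟨d, hd, a1, a2⟩ := hF
      have hcd : c ≤ d := hc.elim (fun h' => h'.trans a1) fun h' => h'.2.trans (a2 h'.1)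
      exact (ev_right hd hcd hε).mono fun t ht _ => ht
    · exact Eventually.of_forall fun t h' => absurd h' hF
  filter_upwards [h1, nhdsWithin_le_nhds (branch h t₀), jump_right h t₀] with t a1 a2 a3
  obtain ⟨F, hF, b1, b2, k, b3, b4, b5⟩ := a2
  have := a1 F hF b1
  have := a3 k b4 b5
  linarith

theorem dini_left (t₀ : ℝ) {ε : ℝ} (hε : 0 < ε) : ∀ᶠ t in 𝓝[<] t₀,
    QQ P O s σ X Y η ηd ξx ξy p r f t ≤ QQ P O s σ X Y η ηd ξx ξy p r f t₀ + ε * (t₀ - t) := by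
  have h1 : ∀ᶠ t in 𝓝[<] t₀, ∀ F ∈ ({FL (fun t => P.jet (s t)) σ X Y η ηd ξx ξy p r,
      FR (fun t => P.jet (s t)) σ X Y η ηd ξx ξy p r, F0 η ηd ξx ξy p r, Cov f} : Set (ℝ → ℝ)),
      Cand f t₀ F → F t ≤ F t₀ + ε * (t₀ - t) := by
    rw [eventually_all_finite (toFinite _)]
    intro F _
    by_cases hF : Cand f t₀ F
    · obtain ⟨d, hd, a1, -⟩ := hF
      exact (ev_left hd a1 hε).mono fun t ht _ => ht
    · exact Eventually.of_forall fun t h' => absurd h' hF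
  filter_upwards [h1, nhdsWithin_le_nhds (branch h t₀), jump_left h t₀] with t a1 a2 a3
  obtain ⟨F, hF, b1, b2, k, b3, b4, b5⟩ := a2
  have := a1 F hF b1
  have := a3 k b4 b5
  linarith

theorem QQ_zero {t : ℝ} (h0 : f t = 0) : QQ P O s σ X Y η ηd ξx ξy p r f t = 0 := by
  unfold QQ
  split_ifs with h1
  · obtain ⟨a1, a2, a3⟩ := zero_of h h1.1 h0
    simp [FL, FW, F0, a1, a2, a3]
  · obtain ⟨a1, a2, a3⟩ := zero_of h h1.1 h0
    simp [FR, FW, F0, a1, a2, a3]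
  · obtain ⟨a1, a2, a3⟩ := zero_of h h1.1 h0
    simp [F0, a1, a2, a3]
  · have : IsLocalMin f t := Eventually.of_forall fun u => by rw [h0]; exact h.f_nonneg u
    simp [Cov, this.deriv_eq_zero]

end

end Neck

theorem NeckODE.deriv_deriv_nonpos {P : Profile} {O : Set ℝ} {s σ X Y η ηd ξx ξy p r f : ℝ → ℝ}
    (h : NeckODE P O s σ X Y η ηd ξx ξy p r f) {a b : ℝ} (hab : a < b) (ha : f a = 0)
    (hb : f b = 0) : deriv (deriv f) a ≤ 0 := by
  have hmono : Monotone (Neck.QQ P O s σ X Y η ηd ξx ξy p r f) := by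
    refine monotone_of_dini (fun t₀ ε hε => ?_) fun t₀ ε hε => Neck.dini_left h t₀ hε
    filter_upwards [Neck.dini_right h t₀ (c := 0) (.inl le_rfl) hε] with t ht
    linarith
  by_contra hpos
  rw [not_le] at hpos
  obtain ⟨t, ht, ht'⟩ := ((Neck.dini_right h a (c := deriv (deriv f) a / 2) (.inr ⟨ha, le_rfl⟩)
    (show 0 < deriv (deriv f) a / 4 by linarith)).and (Ioo_mem_nhdsGT hab)).exists
  have h1 := hmono ht'.2.le
  rw [Neck.QQ_zero h hb] at h1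
  rw [Neck.QQ_zero h ha] at ht
  have h2 : 0 < t - a := sub_pos.2 ht'.1
  nlinarith

end Crest.Agent.R244
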