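import Crest.Agent.R244.CalcA

/-! Row 244: the neck metric `gN`: explicit bilinear form, positivity, first two derivatives. -/

set_option autoImplicit false
set_option maxSynthPendingDepth 3
open Set Filter Topology
open scoped ContDiff
open Crest.GeometryTopology.CoordMetric

noncomputable section
namespace Crest.Agent.R244
namespace Profile
variable (P : Profile)

/-- Coefficient of `dx²`. -/
def cA (s : ℝ) : ℝ := (P.n s)⁻¹ + P.e s ^ 2 * (P.m s)⁻¹
/-- Coefficient of `dx dy`. -/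
def cB (s : ℝ) : ℝ := -(P.e s * (P.m s)⁻¹)
/-- Coefficient of `dy²`. -/
def cC (s : ℝ) : ℝ := (P.m s)⁻¹

theorem bil_gN (y u w : E 3) :
    bil P.gN y u w = u 0 * w 0 + (P.cA (y 0) * (u 1 * w 1) + P.cB (y 0) * (u 1 * w 2 + u 2 * w 1)
      + P.cC (y 0) * (u 2 * w 2)) := by
  rw [bil_apply]
  simp [gN, cA, cB, cC, Fin.sum_univ_three]
  ring

theorem bil_gN' (y u w : E 3) :
    bil P.gN y u w = u 0 * w 0 + u 1 * w 1 / P.n (y 0)
      + (u 2 - P.e (y 0) * u 1) * (w 2 - P.e (y 0) * w 1) / P.m (y 0) := by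
  rw [bil_gN, cA, cB, cC]
  ring

theorem cA_smooth : ContDiff ℝ ∞ P.cA :=
  (P.n_smooth.inv fun s => (P.n_pos s).ne').add
    ((P.e_smooth.pow 2).mul (P.m_smooth.inv fun s => (P.m_pos s).ne'))

theorem cB_smooth : ContDiff ℝ ∞ P.cB :=
  (P.e_smooth.mul (P.m_smooth.inv fun s => (P.m_pos s).ne')).neg

theorem cC_smooth : ContDiff ℝ ∞ P.cC := P.m_smooth.inv fun s => (P.m_pos s).ne'

theorem contDiff_coord (i : Fin 3) : ContDiff ℝ ∞ fun y : E 3 => y i :=
  (EuclideanSpace.proj (𝕜 := ℝ) i : E 3 →L[ℝ] ℝ).contDiff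

theorem isRiemannianOn_gN_univ : IsRiemannianOn P.gN univ := by
  refine ⟨isOpen_univ, fun i j => ContDiff.contDiffOn ?_, fun y _ => ?_⟩
  · have hA := P.cA_smooth.comp (contDiff_coord 0)
    have hB := P.cB_smooth.comp (contDiff_coord 0)
    have hC := P.cC_smooth.comp (contDiff_coord 0)
    fin_cases i <;> fin_cases j
    · exact contDiff_const (c := (1 : ℝ))
    · exact contDiff_const (c := (0 : ℝ))
    · exact contDiff_const (c := (0 : ℝ))
    · exact contDiff_const (c := (0 : ℝ))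
    · exact hA
    · exact hB
    · exact contDiff_const (c := (0 : ℝ))
    · exact hB
    · exact hC
  · refine Matrix.PosDef.of_dotProduct_mulVec_pos ?_ fun x hx => ?_
    · ext i j
      fin_cases i <;> fin_cases j <;> simp [gN]
    · have hm := P.m_pos (y 0)
      have hn := P.n_pos (y 0)
      have h : star x ⬝ᵥ (P.gN y).mulVec x = x 0 ^ 2 + x 1 ^ 2 * (P.n (y 0))⁻¹
          + (x 2 - P.e (y 0) * x 1) ^ 2 * (P.m (y 0))⁻¹ := by
        simp [gN, Matrix.mulVec, dotProduct, Fin.sum_univ_three]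
        ring
      rw [h]
      have h0 : 0 ≤ x 0 ^ 2 := sq_nonneg _
      have h1 : 0 ≤ x 1 ^ 2 * (P.n (y 0))⁻¹ := by positivity
      have h2 : 0 ≤ (x 2 - P.e (y 0) * x 1) ^ 2 * (P.m (y 0))⁻¹ := by positivity
      by_contra hle
      have e0 : x 0 ^ 2 = 0 := by linarith
      have e1 : x 1 ^ 2 * (P.n (y 0))⁻¹ = 0 := by linarith
      have e2 : (x 2 - P.e (y 0) * x 1) ^ 2 * (P.m (y 0))⁻¹ = 0 := by linarith
      have x0 : x 0 = 0 := by simpa using e0
      have x1 : x 1 = 0 := by simpa [hn.ne'] using e1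
      have x2 : x 2 = 0 := by simpa [hm.ne', x1] using e2
      apply hx
      ext i
      fin_cases i
      · exact x0
      · exact x1
      · exact x2

theorem isRiemannianOn_gN {U : Set (E 3)} (hU : IsOpen U) : IsRiemannianOn P.gN U :=
  P.isRiemannianOn_gN_univ.mono' hU (subset_univ U)

theorem hasFDerivAt_comp_coord {f : ℝ → ℝ} (hf : Differentiable ℝ f) (y : E 3) :
    HasFDerivAt (fun y : E 3 => f (y 0))
      (deriv f (y 0) • (EuclideanSpace.proj (𝕜 := ℝ) 0 : E 3 →L[ℝ] ℝ)) y :=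
  (hf (y 0)).hasDerivAt.comp_hasFDerivAt y
    (EuclideanSpace.proj (𝕜 := ℝ) 0 : E 3 →L[ℝ] ℝ).hasFDerivAt

theorem fderiv_comb {f g h : ℝ → ℝ} (hf : Differentiable ℝ f) (hg : Differentiable ℝ g)
    (hh : Differentiable ℝ h) (k a b c : ℝ) (y z : E 3) :
    fderiv ℝ (fun y : E 3 => k + (f (y 0) * a + g (y 0) * b + h (y 0) * c)) y z
      = z 0 * (deriv f (y 0) * a + deriv g (y 0) * b + deriv h (y 0) * c) := by
  have := ((((hasFDerivAt_comp_coord hf y).mul_const a).fun_add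
    ((hasFDerivAt_comp_coord hg y).mul_const b)).fun_add
    ((hasFDerivAt_comp_coord hh y).mul_const c)).const_add k
  rw [this.fderiv]
  simp
  ring

theorem fderiv_bil_gN (y z u w : E 3) :
    fderiv ℝ (bil P.gN) y z u w = z 0 * (deriv P.cA (y 0) * (u 1 * w 1)
      + deriv P.cB (y 0) * (u 1 * w 2 + u 2 * w 1) + deriv P.cC (y 0) * (u 2 * w 2)) := by
  have hd : DifferentiableAt ℝ (bil P.gN) y :=
    (contDiffAt_bil P.isRiemannianOn_gN_univ (mem_univ y)).differentiableAt (by simp)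
  have h1 : fderiv ℝ (fun y => bil P.gN y u w) y z = fderiv ℝ (bil P.gN) y z u w := by
    have := (hd.hasFDerivAt.clm_apply (hasFDerivAt_const u y)).clm_apply (hasFDerivAt_const w y)
    rw [this.fderiv]
    simp
  rw [← h1]
  simp only [bil_gN]
  exact fderiv_comb (P.cA_smooth.differentiable (by simp)) (P.cB_smooth.differentiable (by simp))
    (P.cC_smooth.differentiable (by simp)) _ _ _ _ y z

theorem differentiable_deriv {f : ℝ → ℝ} (hf : ContDiff ℝ ∞ f) : Differentiable ℝ (deriv f) :=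
  (contDiff_infty_iff_deriv.1 hf).2.differentiable (by simp)

theorem fderiv_fderiv_bil_gN (y z w u : E 3) :
    fderiv ℝ (fun y => fderiv ℝ (bil P.gN) y w u u) y z
      = z 0 * (w 0 * (deriv (deriv P.cA) (y 0) * (u 1 * u 1)
        + deriv (deriv P.cB) (y 0) * (u 1 * u 2 + u 2 * u 1)
        + deriv (deriv P.cC) (y 0) * (u 2 * u 2))) := by
  have h : (fun y => fderiv ℝ (bil P.gN) y w u u) = fun y : E 3 => 0 +
      (deriv P.cA (y 0) * (w 0 * (u 1 * u 1)) + deriv P.cB (y 0) * (w 0 * (u 1 * u 2 + u 2 * u 1))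
        + deriv P.cC (y 0) * (w 0 * (u 2 * u 2))) := by
    funext y
    rw [fderiv_bil_gN]
    ring
  rw [h, fderiv_comb (differentiable_deriv P.cA_smooth) (differentiable_deriv P.cB_smooth)
    (differentiable_deriv P.cC_smooth)]
  ring

theorem hd_m (s : ℝ) : HasDerivAt P.m (deriv P.m s) s :=
  (P.m_smooth.differentiable (by simp) s).hasDerivAt
theorem hd_n (s : ℝ) : HasDerivAt P.n (deriv P.n s) s :=
  (P.n_smooth.differentiable (by simp) s).hasDerivAt
theorem hd_e (s : ℝ) : HasDerivAt P.e (deriv P.e s) s :=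
  (P.e_smooth.differentiable (by simp) s).hasDerivAt
theorem hd_m' (s : ℝ) : HasDerivAt (deriv P.m) (deriv (deriv P.m) s) s :=
  (differentiable_deriv P.m_smooth s).hasDerivAt
theorem hd_n' (s : ℝ) : HasDerivAt (deriv P.n) (deriv (deriv P.n) s) s :=
  (differentiable_deriv P.n_smooth s).hasDerivAt
theorem hd_e' (s : ℝ) : HasDerivAt (deriv P.e) (deriv (deriv P.e) s) s :=
  (differentiable_deriv P.e_smooth s).hasDerivAt

theorem deriv_cC : deriv P.cC = fun s => -deriv P.m s / P.m s ^ 2 := by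
  funext s
  exact ((P.hd_m s).inv (P.m_pos s).ne').deriv

theorem deriv_cB : deriv P.cB =
    fun s => -(deriv P.e s / P.m s) + P.e s * deriv P.m s / P.m s ^ 2 := by
  funext s
  have := ((P.hd_e s).mul ((P.hd_m s).inv (P.m_pos s).ne')).neg
  refine this.deriv.trans ?_
  simp only [Pi.inv_apply]
  ring

theorem deriv_cA : deriv P.cA = fun s => -deriv P.n s / P.n s ^ 2
    + 2 * P.e s * deriv P.e s / P.m s - P.e s ^ 2 * deriv P.m s / P.m s ^ 2 := by
  funext s
  have := ((P.hd_n s).inv (P.n_pos s).ne').add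
    (((P.hd_e s).pow 2).mul ((P.hd_m s).inv (P.m_pos s).ne'))
  refine this.deriv.trans ?_
  simp only [Pi.inv_apply, Pi.pow_apply]
  ring

theorem deriv_deriv_cC (s : ℝ) : deriv (deriv P.cC) s =
    -deriv (deriv P.m) s / P.m s ^ 2 + 2 * deriv P.m s ^ 2 / P.m s ^ 3 := by
  rw [deriv_cC]
  have hm := (P.m_pos s).ne'
  have := (P.hd_m' s).neg.div ((P.hd_m s).pow 2) (pow_ne_zero 2 hm)
  refine this.deriv.trans ?_
  simp only [Pi.neg_apply, Pi.pow_apply]
  field_simp
  ring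

theorem deriv_deriv_cB (s : ℝ) : deriv (deriv P.cB) s =
    -(deriv (deriv P.e) s / P.m s) + 2 * deriv P.e s * deriv P.m s / P.m s ^ 2
      + P.e s * deriv (deriv P.m) s / P.m s ^ 2 - 2 * P.e s * deriv P.m s ^ 2 / P.m s ^ 3 := by
  rw [deriv_cB]
  have hm := (P.m_pos s).ne'
  have := ((P.hd_e' s).div (P.hd_m s) hm).neg.add
    (((P.hd_e s).mul (P.hd_m' s)).div ((P.hd_m s).pow 2) (pow_ne_zero 2 hm))
  refine this.deriv.trans ?_
  simp only [Pi.mul_apply, Pi.pow_apply]
  field_simp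
  ring

theorem deriv_deriv_cA (s : ℝ) : deriv (deriv P.cA) s =
    -deriv (deriv P.n) s / P.n s ^ 2 + 2 * deriv P.n s ^ 2 / P.n s ^ 3
      + 2 * deriv P.e s ^ 2 / P.m s + 2 * P.e s * deriv (deriv P.e) s / P.m s
      - 4 * P.e s * deriv P.e s * deriv P.m s / P.m s ^ 2
      - P.e s ^ 2 * deriv (deriv P.m) s / P.m s ^ 2
      + 2 * P.e s ^ 2 * deriv P.m s ^ 2 / P.m s ^ 3 := by
  rw [deriv_cA]
  have hm := (P.m_pos s).ne'
  have hn := (P.n_pos s).ne'
  have := (((P.hd_n' s).neg.div ((P.hd_n s).pow 2) (pow_ne_zero 2 hn)).add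
    ((((P.hd_e s).const_mul 2).mul (P.hd_e' s)).div (P.hd_m s) hm)).sub
    ((((P.hd_e s).pow 2).mul (P.hd_m' s)).div ((P.hd_m s).pow 2) (pow_ne_zero 2 hm))
  refine this.deriv.trans ?_
  simp only [Pi.neg_apply, Pi.mul_apply, Pi.pow_apply]
  field_simp
  ring

end Profile
end Crest.Agent.R244
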