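import Crest.Agent.R244.CalcB
import Crest.Agent.R244.NeckMetric

/-! Row 244: the geodesic and Jacobi equations of the neck metric in Hamiltonian form. -/

set_option autoImplicit false
set_option maxSynthPendingDepth 3
open Set Filter Topology
open scoped ContDiff
open Crest.GeometryTopology.CoordMetric

noncomputable section
namespace Crest.Agent.R244

/-- Data along a curve in the neck: `s`, velocity, field, derivative of the field. -/
abbrev NData : Type := ℝ × E 3 × E 3 × E 3

/-- The data of the coordinate curve `c` and the field `J`. -/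
def ndat (c J : ℝ → E 3) (t : ℝ) : NData := (c t 0, deriv c t, J t, deriv J t)

namespace Profile
variable (P : Profile)

/-- Momentum conjugate to `x`. -/
def mX (d : NData) : ℝ := P.cA d.1 * d.2.1 1 + P.cB d.1 * d.2.1 2
/-- Momentum conjugate to `y`. -/
def mY (d : NData) : ℝ := P.cB d.1 * d.2.1 1 + P.cC d.1 * d.2.1 2
/-- Linearised momentum conjugate to `x`. -/
def mp (d : NData) : ℝ := P.cA d.1 * d.2.2.2 1 + P.cB d.1 * d.2.2.2 2
  + d.2.2.1 0 * (deriv P.cA d.1 * d.2.1 1 + deriv P.cB d.1 * d.2.1 2)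
/-- Linearised momentum conjugate to `y`. -/
def mr (d : NData) : ℝ := P.cB d.1 * d.2.2.2 1 + P.cC d.1 * d.2.2.2 2
  + d.2.2.1 0 * (deriv P.cB d.1 * d.2.1 1 + deriv P.cC d.1 * d.2.1 2)

/-- The Hamiltonian system at the parameter `t` for the data `D`. -/
structure SysAt (D : ℝ → NData) (t : ℝ) : Prop where
  ds : HasDerivAt (fun s => (D s).1) ((D t).2.1 0) t
  dX : HasDerivAt (fun s => P.mX (D s)) 0 t
  dY : HasDerivAt (fun s => P.mY (D s)) 0 t
  dp : HasDerivAt (fun s => P.mp (D s)) 0 t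
  dr : HasDerivAt (fun s => P.mr (D s)) 0 t
  dσ : HasDerivAt (fun s => (D s).2.1 0) (-((P.jet (D t).1).V1 (P.mX (D t)) (P.mY (D t))) / 2) t
  dη : HasDerivAt (fun s => (D s).2.2.1 0) ((D t).2.2.2 0) t
  dηd : HasDerivAt (fun s => (D s).2.2.2 0)
    (-((P.jet (D t).1).V2 (P.mX (D t)) (P.mY (D t))) / 2 * (D t).2.2.1 0
      - ((P.jet (D t).1).xd1 (P.mX (D t)) (P.mY (D t)) * P.mp (D t)
        + (P.jet (D t).1).yd1 (P.mX (D t)) (P.mY (D t)) * P.mr (D t))) t
  dξx : HasDerivAt (fun s => (D s).2.2.1 1) ((P.jet (D t).1).xd (P.mp (D t)) (P.mr (D t))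
    + (D t).2.2.1 0 * (P.jet (D t).1).xd1 (P.mX (D t)) (P.mY (D t))) t
  dξy : HasDerivAt (fun s => (D s).2.2.1 2) ((P.jet (D t).1).yd (P.mp (D t)) (P.mr (D t))
    + (D t).2.2.1 0 * (P.jet (D t).1).yd1 (P.mX (D t)) (P.mY (D t))) t

variable {P}

theorem SysAt.congr {D D' : ℝ → NData} {t : ℝ} (h : P.SysAt D t) (e : D' =ᶠ[𝓝 t] D) :
    P.SysAt D' t := by
  have e0 : D' t = D t := e.self_of_nhds
  refine ⟨?_, ?_, ?_, ?_, ?_, ?_, ?_, ?_, ?_, ?_⟩ <;> (try rw [e0])
  · exact h.ds.congr_of_eventuallyEq (e.mono fun s hs => by simp only [hs])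
  · exact h.dX.congr_of_eventuallyEq (e.mono fun s hs => by simp only [hs])
  · exact h.dY.congr_of_eventuallyEq (e.mono fun s hs => by simp only [hs])
  · exact h.dp.congr_of_eventuallyEq (e.mono fun s hs => by simp only [hs])
  · exact h.dr.congr_of_eventuallyEq (e.mono fun s hs => by simp only [hs])
  · exact h.dσ.congr_of_eventuallyEq (e.mono fun s hs => by simp only [hs])
  · exact h.dη.congr_of_eventuallyEq (e.mono fun s hs => by simp only [hs])
  · exact h.dηd.congr_of_eventuallyEq (e.mono fun s hs => by simp only [hs])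
  · exact h.dξx.congr_of_eventuallyEq (e.mono fun s hs => by simp only [hs])
  · exact h.dξy.congr_of_eventuallyEq (e.mono fun s hs => by simp only [hs])

theorem hasDerivAt_coord {c : ℝ → E 3} {t : ℝ} (h : DifferentiableAt ℝ c t) (i : Fin 3) :
    HasDerivAt (fun s => c s i) (deriv c t i) t :=
  (EuclideanSpace.proj (𝕜 := ℝ) i : E 3 →L[ℝ] ℝ).hasFDerivAt.comp_hasDerivAt t h.hasDerivAt

variable (P)

theorem sysAt_ndat {c J : ℝ → E 3} {t : ℝ} (hc : GeoAt P.gN c t) (hJ : VarAt P.gN c J t) :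
    P.SysAt (ndat c J) t := by
  have hg := P.isRiemannianOn_gN_univ
  have hm := (P.m_pos (c t 0)).ne'
  have hn := (P.n_pos (c t 0)).ne'
  have EL := fun i : Fin 3 => hc.euler_lagrange hg (mem_univ _) (EuclideanSpace.single i 1)
  have LE := fun i : Fin 3 => hJ.euler_lagrange hg (mem_univ _) hc (EuclideanSpace.single i 1)
  simp only [fderiv_fderiv_bil_gN] at LE
  simp only [bil_gN, fderiv_bil_gN] at EL LE
  refine ⟨hasDerivAt_coord hc.1.self_of_nhds 0, ?_, ?_, ?_, ?_, ?_,
    hasDerivAt_coord hJ.1.self_of_nhds 0, ?_, ?_, ?_⟩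
  · convert EL 1 using 1
    · funext s; simp [mX, ndat]
    · simp
  · convert EL 2 using 1
    · funext s; simp [mY, ndat]
    · simp
  · convert LE 1 using 1
    · funext s; simp [mp, ndat]
    · simp
  · convert LE 2 using 1
    · funext s; simp [mr, ndat]
    · simp
  · convert EL 0 using 1
    · funext s; simp [ndat]
    · simp only [ndat, mX, mY, jet, jetAt, Jet.V1, Jet.Z, deriv_cA, deriv_cB, deriv_cC, cA, cB, cC]
      simp
      field_simp
      ring
  · convert LE 0 using 1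
    · funext s; simp [ndat]
    · simp only [deriv_deriv_cA, deriv_deriv_cB, deriv_deriv_cC]
      simp only [ndat, mX, mY, mp, mr, jet, jetAt, Jet.V2, Jet.xd1, Jet.yd1, Jet.Z,
        deriv_cA, deriv_cB, deriv_cC, cA, cB, cC]
      simp
      field_simp
      ring
  · refine (hasDerivAt_coord hJ.1.self_of_nhds 1).congr_deriv ?_
    simp only [ndat, mX, mY, mp, mr, jet, jetAt, Jet.xd, Jet.xd1, Jet.Z,
      deriv_cA, deriv_cB, deriv_cC, cA, cB, cC]
    field_simp
    ring
  · refine (hasDerivAt_coord hJ.1.self_of_nhds 2).congr_deriv ?_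
    simp only [ndat, mX, mY, mp, mr, jet, jetAt, Jet.yd, Jet.yd1, Jet.Z,
      deriv_cA, deriv_cB, deriv_cC, cA, cB, cC]
    field_simp
    ring

end Profile
end Crest.Agent.R244
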