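import Crest.Agent.R244.Geod
import Crest.Agent.R244.Neck
import Crest.Agent.R244.NeckLocal

/-! Row 244: the model metric has no conjugate points. -/

set_option autoImplicit false
set_option maxSynthPendingDepth 3
open Set Filter Topology
open scoped ContDiff
open Crest.GeometryTopology.CoordMetric Crest.GeometryTopology.ChartCurvature
open Crest.GeometryTopology.Geodesic

noncomputable section
namespace Crest.Agent.R244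

namespace RAtlas
variable {n : ℕ} {M : Type} [TopologicalSpace M] (𝒜 : RAtlas n M)
  {γ : ℝ → M} {J : 𝒜.ι → ℝ → E n}

theorem hasDerivAt_nsq (hγ : 𝒜.IsGeo γ) (hJ : 𝒜.IsJac γ J) {t : ℝ} {i : 𝒜.ι}
    (hi : γ t ∈ (𝒜.φ i).source) :
    HasDerivAt (𝒜.ipf γ J J)
      (2 * bil (𝒜.g i) ((𝒜.φ i ∘ γ) t) (J i t) (cov (𝒜.g i) (𝒜.φ i ∘ γ) (J i) t)) t := by
  have hc : (𝒜.φ i ∘ γ) t ∈ (𝒜.φ i).target := (𝒜.φ i).map_source hi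
  have hJd := (hJ.2 i t hi).1.self_of_nhds
  have h := hasDerivAt_bil (𝒜.riem i) hc ((hγ t).2 i hi).1.self_of_nhds hJd hJd
  rw [bil_symm (𝒜.riem i) hc (cov _ _ _ _), ← two_mul] at h
  exact h.congr_of_eventuallyEq (𝒜.ipf_eventuallyEq hJ.1 hJ.1 (hγ t).1 hi)

theorem hasDerivAt_deriv_nsq (hγ : 𝒜.IsGeo γ) (hJ : 𝒜.IsJac γ J) {t : ℝ} {i : 𝒜.ι}
    (hi : γ t ∈ (𝒜.φ i).source) :
    HasDerivAt (deriv (𝒜.ipf γ J J))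
      (2 * (bil (𝒜.g i) ((𝒜.φ i ∘ γ) t) (cov (𝒜.g i) (𝒜.φ i ∘ γ) (J i) t)
        (cov (𝒜.g i) (𝒜.φ i ∘ γ) (J i) t)
        - secNumer (𝒜.g i) ((𝒜.φ i ∘ γ) t) (J i t) (deriv (𝒜.φ i ∘ γ) t))) t := by
  have hc : (𝒜.φ i ∘ γ) t ∈ (𝒜.φ i).target := (𝒜.φ i).map_source hi
  refine ((hasDerivAt_bil_cov (𝒜.riem i) hc ((hγ t).2 i hi) (hJ.2 i t hi)).const_mul 2
    ).congr_of_eventuallyEq ?_
  filter_upwards [(hγ t).1.eventually ((𝒜.φ i).open_source.mem_nhds hi)] with s hs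
  exact (𝒜.hasDerivAt_nsq hγ hJ hs).deriv

theorem nsq_nonneg (t : ℝ) : 0 ≤ 𝒜.ipf γ J J t :=
  bil_nonneg (𝒜.riem _) ((𝒜.φ _).map_source (𝒜.mem_pick _)) _

end RAtlas

namespace Profile
variable (P : Profile)

theorem l1_pos : 0 < P.l1 := div_pos (by positivity) P.β_pos
theorem l2_pos : 0 < P.l2 := div_pos (by positivity) P.α_pos
theorem one_lt_T : 1 < P.T := by
  have := P.S_ge; have := P.rL_pos; have := P.rR_pos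
  unfold T; linarith
theorem A_pos : 0 < P.A := by
  have := P.rL_pos; have := P.rR_pos
  unfold A; linarith

theorem centre_mem_WR (t : ℝ) : (!₂[P.A / 2, P.A / 2, t] : E 3) ∈ P.WR := by
  intro j k
  have hA := P.A_pos
  have h1 := P.rL_pos
  have h2 := P.rR_pos
  have hj : (P.A / 2) ^ 2 ≤ (P.A / 2 - j * P.A) ^ 2 := by
    have : (0 : ℝ) ≤ (j : ℝ) * (j - 1) := by
      have : (0 : ℤ) ≤ j * (j - 1) := by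
        rcases le_or_gt j 0 with h | h
        · exact mul_nonneg_of_nonpos_of_nonpos h (by omega)
        · exact mul_nonneg h.le (by omega)
      exact_mod_cast this
    nlinarith [mul_nonneg this (sq_nonneg P.A)]
  have hρ : P.rR + P.S < P.A / 2 := by unfold A; linarith
  have : (P.rR + P.S) ^ 2 < (P.A / 2) ^ 2 := by gcongr
  show (P.rR + P.S) ^ 2 < (P.A / 2 - j * P.A) ^ 2 + (P.A / 2 - k * P.A) ^ 2
  nlinarith [sq_nonneg (P.A / 2 - k * P.A)]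

end Profile

namespace Model
variable {P : Profile} {M : Type} [TopologicalSpace M] (𝓜 : Model P M)

/-- Neck charts. -/
def NC (i : 𝓜.𝒜.ι) : Prop := (𝓜.𝒜.φ i).target ⊆ P.WN ∧
  EqOn (𝓜.𝒜.φ i).symm 𝓜.ΨN (𝓜.𝒜.φ i).target ∧ 𝓜.𝒜.g i = P.gN

variable {𝓜}

theorem NC.psi {i : 𝓜.𝒜.ι} (hi : 𝓜.NC i) {x : M} (hx : x ∈ (𝓜.𝒜.φ i).source) :
    𝓜.ΨN (𝓜.𝒜.φ i x) = x := by
  rw [← hi.2.1 ((𝓜.𝒜.φ i).map_source hx), (𝓜.𝒜.φ i).left_inv hx]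

theorem NC.trans_eq {i j : 𝓜.𝒜.ι} (hi : 𝓜.NC i) (hj : 𝓜.NC j) {x : M}
    (hxi : x ∈ (𝓜.𝒜.φ i).source) (hxj : x ∈ (𝓜.𝒜.φ j).source) :
    ∃ v : E 3, v 0 = 0 ∧ (𝓜.𝒜.φ j ∘ (𝓜.𝒜.φ i).symm) =ᶠ[𝓝 (𝓜.𝒜.φ i x)] fun z => z + v := by
  have hyi := (𝓜.𝒜.φ i).map_source hxi
  have hyj := (𝓜.𝒜.φ j).map_source hxj
  obtain ⟨k, l, h⟩ := 𝓜.injN _ (hi.1 hyi) _ (hj.1 hyj) ((hi.psi hxi).trans (hj.psi hxj).symm)
  refine ⟨!₂[0, k * P.l1, l * P.l2], rfl, ?_⟩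
  have hc : ContinuousAt (fun z : E 3 => z + !₂[0, k * P.l1, l * P.l2]) (𝓜.𝒜.φ i x) := by
    fun_prop
  rw [h] at hyj
  filter_upwards [(𝓜.𝒜.φ i).open_target.mem_nhds hyi,
    hc.eventually ((𝓜.𝒜.φ j).open_target.mem_nhds hyj)] with z hz hz'
  rw [Function.comp_apply, hi.2.1 hz, ← 𝓜.perN z (hi.1 hz) k l, ← hj.2.1 hz',
    (𝓜.𝒜.φ j).right_inv hz']

theorem NC.ndat_eq {γ : ℝ → M} {J : 𝓜.𝒜.ι → ℝ → E 3} (hγ : Continuous γ)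
    (hJ : 𝓜.𝒜.IsField γ J) {i j : 𝓜.𝒜.ι} (hi : 𝓜.NC i) (hj : 𝓜.NC j) {t : ℝ}
    (hti : γ t ∈ (𝓜.𝒜.φ i).source) (htj : γ t ∈ (𝓜.𝒜.φ j).source) :
    ndat (𝓜.𝒜.φ j ∘ γ) (J j) t = ndat (𝓜.𝒜.φ i ∘ γ) (J i) t := by
  obtain ⟨v, hv0, hv⟩ := hi.trans_eq hj hti htj
  have hc : ContinuousAt (𝓜.𝒜.φ i ∘ γ) t :=
    ((𝓜.𝒜.φ i).continuousAt hti).comp hγ.continuousAt
  have hev : ∀ᶠ s in 𝓝 t, (𝓜.𝒜.φ j ∘ γ) s = (𝓜.𝒜.φ i ∘ γ) s + v ∧ J j s = J i s := by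
    filter_upwards [hγ.continuousAt.eventually ((𝓜.𝒜.φ i).open_source.mem_nhds hti),
      hγ.continuousAt.eventually ((𝓜.𝒜.φ j).open_source.mem_nhds htj),
      hc.eventually hv.eventuallyEq_nhds] with s hsi hsj hs
    constructor
    · have := hs.self_of_nhds
      simp only [Function.comp_apply, (𝓜.𝒜.φ i).left_inv hsi] at this
      exact this
    · rw [hJ i j s hsi hsj]
      have := hs.fderiv_eq (𝕜 := ℝ)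
      simp only [Function.comp_apply] at this
      rw [this, fderiv_add_const, fderiv_fun_id]
      rfl
  have e1 : (𝓜.𝒜.φ j ∘ γ) =ᶠ[𝓝 t] fun s => (𝓜.𝒜.φ i ∘ γ) s + v := hev.mono fun s hs => hs.1
  have e2 : J j =ᶠ[𝓝 t] J i := hev.mono fun s hs => hs.2
  simp only [ndat]
  rw [e1.deriv_eq, deriv_add_const, e2.deriv_eq, e2.self_of_nhds, e1.self_of_nhds]
  simp [hv0]

variable (𝓜)

/-- Parameters spent in the neck. -/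
def neckSet (γ : ℝ → M) : Set ℝ := {t | ∃ i, 𝓜.NC i ∧ γ t ∈ (𝓜.𝒜.φ i).source}

open Classical in
/-- The chart independent neck data along `γ`. -/
def gdat (γ : ℝ → M) (J : 𝓜.𝒜.ι → ℝ → E 3) (t : ℝ) : NData :=
  if h : t ∈ 𝓜.neckSet γ then ndat (𝓜.𝒜.φ h.choose ∘ γ) (J h.choose) t else 0

variable {𝓜}

theorem gdat_eq {γ : ℝ → M} {J : 𝓜.𝒜.ι → ℝ → E 3} (hγ : Continuous γ)
    (hJ : 𝓜.𝒜.IsField γ J) {i : 𝓜.𝒜.ι} (hi : 𝓜.NC i) {t : ℝ} (ht : γ t ∈ (𝓜.𝒜.φ i).source) :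
    𝓜.gdat γ J t = ndat (𝓜.𝒜.φ i ∘ γ) (J i) t := by
  have h : t ∈ 𝓜.neckSet γ := ⟨i, hi, ht⟩
  rw [gdat, dif_pos h]
  exact NC.ndat_eq hγ hJ hi h.choose_spec.1 ht h.choose_spec.2

theorem sysAt_gdat {γ : ℝ → M} {J : 𝓜.𝒜.ι → ℝ → E 3} (hγ : 𝓜.𝒜.IsGeo γ)
    (hJ : 𝓜.𝒜.IsJac γ J) {t : ℝ} (ht : t ∈ 𝓜.neckSet γ) : P.SysAt (𝓜.gdat γ J) t := by
  obtain ⟨i, hi, ht⟩ := ht
  have h1 := (hγ t).2 i ht
  have h2 := hJ.2 i t ht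
  rw [hi.2.2] at h1 h2
  refine (P.sysAt_ndat h1 h2).congr ?_
  filter_upwards [(hγ t).1.eventually ((𝓜.𝒜.φ i).open_source.mem_nhds ht)] with s hs
  exact gdat_eq (RAtlas.IsGeo.continuous _ hγ) hJ.1 hi hs

theorem exists_chart {Ψ : E 3 → M} {W : Set (E 3)} {g : MetricField 3} {y : E 3}
    (h : ∃ i, y ∈ (𝓜.𝒜.φ i).target ∧ (𝓜.𝒜.φ i).target ⊆ W ∧
      EqOn (𝓜.𝒜.φ i).symm Ψ (𝓜.𝒜.φ i).target ∧ 𝓜.𝒜.g i = g) :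
    ∃ i, Ψ y ∈ (𝓜.𝒜.φ i).source ∧ 𝓜.𝒜.φ i (Ψ y) = y ∧ (𝓜.𝒜.φ i).target ⊆ W ∧
      EqOn (𝓜.𝒜.φ i).symm Ψ (𝓜.𝒜.φ i).target ∧ 𝓜.𝒜.g i = g := by
  obtain ⟨i, h1, h2, h3, h4⟩ := h
  refine ⟨i, ?_, ?_, h2, h3, h4⟩
  · rw [← h3 h1]; exact (𝓜.𝒜.φ i).map_target h1
  · rw [← h3 h1]; exact (𝓜.𝒜.φ i).right_inv h1

theorem isClosed_core [T2Space M] {γ : ℝ → M} {J : 𝓜.𝒜.ι → ℝ → E 3} (hγ : Continuous γ)
    (hJ : 𝓜.𝒜.IsField γ J) : IsClosed {t | t ∈ 𝓜.neckSet γ ∧ |(𝓜.gdat γ J t).1| ≤ 1} := by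
  set K : Set (E 3) := (fun p : ℝ × ℝ × ℝ => (!₂[p.1, p.2.1, p.2.2] : E 3)) ''
    (Icc (-1) 1 ×ˢ Icc 0 P.l1 ×ˢ Icc 0 P.l2) with hK
  have hKc : IsCompact K :=
    (isCompact_Icc.prod (isCompact_Icc.prod isCompact_Icc)).image (by fun_prop)
  have hK1 : ∀ y ∈ K, |y 0| ≤ 1 := by
    rintro _ ⟨p, hp, rfl⟩
    exact abs_le.2 hp.1
  have hKW : K ⊆ P.WN := fun y hy => (hK1 y hy).trans_lt P.one_lt_T
  have hcl : IsClosed (𝓜.ΨN '' K) := (hKc.image_of_continuousOn (𝓜.contN.mono hKW)).isClosed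
  convert hcl.preimage hγ using 1
  ext t
  constructor
  · rintro ⟨⟨i, hi, ht⟩, hs⟩
    rw [gdat_eq hγ hJ hi ht] at hs
    set y := 𝓜.𝒜.φ i (γ t) with hy
    have hyW : y ∈ P.WN := hi.1 ((𝓜.𝒜.φ i).map_source ht)
    have hs' : |y 0| ≤ 1 := hs
    have h1 := P.l1_pos
    have h2 := P.l2_pos
    refine ⟨y + !₂[0, (-⌊y 1 / P.l1⌋ : ℤ) * P.l1, (-⌊y 2 / P.l2⌋ : ℤ) * P.l2],
      ⟨(y 0, y 1 - ⌊y 1 / P.l1⌋ * P.l1, y 2 - ⌊y 2 / P.l2⌋ * P.l2), ⟨abs_le.1 hs', ?_, ?_⟩, ?_⟩, ?_⟩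
    · exact ⟨Int.sub_floor_div_mul_nonneg _ h1, (Int.sub_floor_div_mul_lt _ h1).le⟩
    · exact ⟨Int.sub_floor_div_mul_nonneg _ h2, (Int.sub_floor_div_mul_lt _ h2).le⟩
    · ext k
      fin_cases k <;> simp [sub_eq_add_neg]
    · rw [𝓜.perN y hyW]
      exact hi.psi ht
  · rintro ⟨y, hy, hyt⟩
    obtain ⟨i, h1, h2, h3⟩ := exists_chart (𝓜.chartN y (hKW hy))
    rw [hyt] at h1 h2
    refine ⟨⟨i, h3, h1⟩, ?_⟩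
    rw [gdat_eq hγ hJ h3 h1]
    show |𝓜.𝒜.φ i (γ t) 0| ≤ 1
    rw [h2]
    exact hK1 y hy

theorem flat_nonneg {γ : ℝ → M} {J : 𝓜.𝒜.ι → ℝ → E 3} (hγ : 𝓜.𝒜.IsGeo γ)
    (hJ : 𝓜.𝒜.IsJac γ J) {t : ℝ} (ht : t ∉ 𝓜.neckSet γ) :
    0 ≤ deriv (deriv (𝓜.𝒜.ipf γ J J)) t := by
  have key : ∀ i, γ t ∈ (𝓜.𝒜.φ i).source → (𝓜.𝒜.g i = fun _ => 1) →
      0 ≤ deriv (deriv (𝓜.𝒜.ipf γ J J)) t := by
    intro i hi hg
    have hc : (𝓜.𝒜.φ i ∘ γ) t ∈ (𝓜.𝒜.φ i).target := (𝓜.𝒜.φ i).map_source hi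
    rw [(𝓜.𝒜.hasDerivAt_deriv_nsq hγ hJ hi).deriv, secNumer_eq (𝓜.𝒜.riem i) hc]
    have h0 := bil_nonneg (𝓜.𝒜.riem i) hc (cov (𝓜.𝒜.g i) (𝓜.𝒜.φ i ∘ γ) (J i) t)
    have hG : Gam (𝓜.𝒜.g i) = 0 := by rw [hg, Gam_one]
    rw [hG]
    simpa using h0
  rcases 𝓜.cover (γ t) with ⟨y, hy, h⟩ | ⟨y, hy, h⟩ | ⟨y, hy, h⟩
  · obtain ⟨i, h1, -, -, -, h2⟩ := exists_chart (𝓜.chartL y hy)
    exact key i (h ▸ h1) h2
  · obtain ⟨i, h1, -, h2⟩ := exists_chart (𝓜.chartN y hy)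
    exact absurd ⟨i, h2, h ▸ h1⟩ ht
  · obtain ⟨i, h1, -, -, -, h2⟩ := exists_chart (𝓜.chartR y hy)
    exact key i (h ▸ h1) h2

theorem neckODE [T2Space M] {γ : ℝ → M} {J : 𝓜.𝒜.ι → ℝ → E 3} (hγ : 𝓜.𝒜.IsGeo γ)
    (hJ : 𝓜.𝒜.IsJac γ J) :
    NeckODE P (𝓜.neckSet γ) (fun t => (𝓜.gdat γ J t).1) (fun t => (𝓜.gdat γ J t).2.1 0)
      (fun t => P.mX (𝓜.gdat γ J t)) (fun t => P.mY (𝓜.gdat γ J t))
      (fun t => (𝓜.gdat γ J t).2.2.1 0) (fun t => (𝓜.gdat γ J t).2.2.2 0)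
      (fun t => (𝓜.gdat γ J t).2.2.1 1) (fun t => (𝓜.gdat γ J t).2.2.1 2)
      (fun t => P.mp (𝓜.gdat γ J t)) (fun t => P.mr (𝓜.gdat γ J t)) (𝓜.𝒜.ipf γ J J) where
  isOpen := by
    refine isOpen_iff_mem_nhds.2 fun t ⟨i, hi, ht⟩ => ?_
    filter_upwards [(hγ t).1.eventually ((𝓜.𝒜.φ i).open_source.mem_nhds ht)] with s hs
    exact ⟨i, hi, hs⟩
  closed := isClosed_core (RAtlas.IsGeo.continuous _ hγ) hJ.1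
  ds := fun _ ht => (sysAt_gdat hγ hJ ht).ds
  dX := fun _ ht => (sysAt_gdat hγ hJ ht).dX
  dY := fun _ ht => (sysAt_gdat hγ hJ ht).dY
  dp := fun _ ht => (sysAt_gdat hγ hJ ht).dp
  dr := fun _ ht => (sysAt_gdat hγ hJ ht).dr
  dσ := fun _ ht => (sysAt_gdat hγ hJ ht).dσ
  dη := fun _ ht => (sysAt_gdat hγ hJ ht).dη
  dηd := fun _ ht => (sysAt_gdat hγ hJ ht).dηd
  dξx := fun _ ht => (sysAt_gdat hγ hJ ht).dξx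
  dξy := fun _ ht => (sysAt_gdat hγ hJ ht).dξy
  f_eq := by
    rintro t ⟨i, hi, ht⟩
    rw [𝓜.𝒜.ipf_eq hJ.1 hJ.1 ht, gdat_eq (RAtlas.IsGeo.continuous _ hγ) hJ.1 hi ht, hi.2.2,
      P.bil_gN']
    simp only [ndat, Function.comp_apply]
    ring
  f_nonneg := 𝓜.𝒜.nsq_nonneg
  df := fun t => (𝓜.𝒜.hasDerivAt_nsq hγ hJ (𝓜.𝒜.mem_pick (γ t))).differentiableAt
  ddf := fun t => (𝓜.𝒜.hasDerivAt_deriv_nsq hγ hJ (𝓜.𝒜.mem_pick (γ t))).differentiableAt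
  flat := fun _ ht => flat_nonneg hγ hJ ht

theorem van_of_lt [T2Space M] {γ : ℝ → M} {J : 𝓜.𝒜.ι → ℝ → E 3} (hγ : 𝓜.𝒜.IsGeo γ)
    (hJ : 𝓜.𝒜.IsJac γ J) {a b : ℝ} (hab : a < b) (ha : 𝓜.𝒜.Van γ J a) (hb : 𝓜.𝒜.Van γ J b)
    (t : ℝ) : 𝓜.𝒜.Van γ J t := by
  have hz : ∀ c, 𝓜.𝒜.Van γ J c → 𝓜.𝒜.ipf γ J J c = 0 := fun c hc => by
    simp only [RAtlas.ipf, hc _ (𝓜.𝒜.mem_pick _), map_zero]
  have h := (neckODE hγ hJ).deriv_deriv_nonpos hab (hz a ha) (hz b hb)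
  have hi := 𝓜.𝒜.mem_pick (γ a)
  set i := 𝓜.𝒜.pick (γ a)
  have hc : (𝓜.𝒜.φ i ∘ γ) a ∈ (𝓜.𝒜.φ i).target := (𝓜.𝒜.φ i).map_source hi
  rw [(𝓜.𝒜.hasDerivAt_deriv_nsq hγ hJ hi).deriv, secNumer_eq (𝓜.𝒜.riem i) hc] at h
  simp only [cov, ha i hi, map_zero, add_zero, sub_zero] at h
  refine 𝓜.𝒜.jac_unique hγ hJ hi (ha i hi) ?_ t
  by_contra hne
  have := bil_pos (𝓜.𝒜.riem i) hc hne
  linarith

end Model

theorem Model.noConj {P : Profile} {M : Type} [TopologicalSpace M] [T2Space M] (𝓜 : Model P M) :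
    𝓜.𝒜.NoConj := by
  intro γ J hγ hJ a b hab ha hb
  rcases lt_or_gt_of_ne hab with h | h
  · exact Model.van_of_lt hγ hJ h ha hb
  · exact Model.van_of_lt hγ hJ h hb ha

theorem Model.fibre_chart {P : Profile} {M : Type} [TopologicalSpace M] (𝓜 : Model P M) (t : ℝ) :
    ∃ i, 𝓜.ΨR !₂[P.A / 2, P.A / 2, t] ∈ (𝓜.𝒜.φ i).source ∧ (𝓜.𝒜.g i = fun _ => 1) ∧
      (𝓜.𝒜.φ i ∘ fun t : ℝ => 𝓜.ΨR !₂[P.A / 2, P.A / 2, t]) =ᶠ[𝓝 t]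
        fun t : ℝ => (!₂[P.A / 2, P.A / 2, t] : E 3) := by
  obtain ⟨i, h1, h2, h3, h4, h5⟩ := Model.exists_chart (𝓜.chartR _ (P.centre_mem_WR t))
  refine ⟨i, h1, h5, ?_⟩
  have hc : Continuous fun t : ℝ => (!₂[P.A / 2, P.A / 2, t] : E 3) := by fun_prop
  have ht : (!₂[P.A / 2, P.A / 2, t] : E 3) ∈ (𝓜.𝒜.φ i).target := h2 ▸ (𝓜.𝒜.φ i).map_source h1
  filter_upwards [hc.continuousAt.eventually ((𝓜.𝒜.φ i).open_target.mem_nhds ht)] with s hs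
  rw [Function.comp_apply, ← h4 hs, (𝓜.𝒜.φ i).right_inv hs]

/-- The fibre of the right piece through the centre of the square is a geodesic. -/
theorem Model.isGeo_fibre {P : Profile} {M : Type} [TopologicalSpace M] (𝓜 : Model P M) :
    𝓜.𝒜.IsGeo fun t : ℝ => 𝓜.ΨR !₂[P.A / 2, P.A / 2, t] := by
  intro t
  obtain ⟨i, h1, h2, h3⟩ := 𝓜.fibre_chart t
  have hc : Continuous fun t : ℝ => (!₂[P.A / 2, P.A / 2, t] : E 3) := by fun_prop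
  have hγ : Continuous fun t : ℝ => 𝓜.ΨR !₂[P.A / 2, P.A / 2, t] :=
    𝓜.contR.comp_continuous hc P.centre_mem_WR
  refine 𝓜.𝒜.isGeoAt_of_chart hγ.continuousAt h1 (GeoAt.congr ?_ h3.symm)
  have hl : (fun t : ℝ => (!₂[P.A / 2, P.A / 2, t] : E 3))
      = fun t : ℝ => (!₂[P.A / 2, P.A / 2, 0] : E 3) + t • (!₂[0, 0, 1] : E 3) := by
    funext s
    ext k
    fin_cases k <;> simp
  have hd : ∀ s, HasDerivAt (fun t : ℝ => (!₂[P.A / 2, P.A / 2, t] : E 3)) (!₂[0, 0, 1] : E 3) s := by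
    intro s
    rw [hl]
    simpa using ((hasDerivAt_id s).smul_const (!₂[0, 0, 1] : E 3)).const_add
      (!₂[P.A / 2, P.A / 2, 0] : E 3)
  refine ⟨Eventually.of_forall fun s => (hd s).differentiableAt, ?_⟩
  have : deriv (fun t : ℝ => (!₂[P.A / 2, P.A / 2, t] : E 3)) = fun _ => (!₂[0, 0, 1] : E 3) :=
    funext fun s => (hd s).deriv
  rw [this, h2, Gam_one]
  simpa using hasDerivAt_const t (!₂[0, 0, 1] : E 3)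

theorem Model.fibre_not_const {P : Profile} {M : Type} [TopologicalSpace M] (𝓜 : Model P M) :
    ∃ t : ℝ, 𝓜.ΨR !₂[P.A / 2, P.A / 2, t] ≠ 𝓜.ΨR !₂[P.A / 2, P.A / 2, 0] := by
  obtain ⟨i, -, -, h3⟩ := 𝓜.fibre_chart 0
  by_contra hall
  push Not at hall
  have h0 := h3.self_of_nhds
  have : ∀ᶠ t in 𝓝[≠] (0 : ℝ), False := by
    filter_upwards [h3.filter_mono nhdsWithin_le_nhds, self_mem_nhdsWithin] with t ht ht0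
    simp only [Function.comp_apply, hall t] at ht h0
    rw [h0] at ht
    have := congrArg (fun y : E 3 => y 2) ht
    exact ht0 (by simpa using this.symm)
  exact this.exists.elim fun _ h => h

end Crest.Agent.R244
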