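import Crest.Agent.R244.JetAlg

/-! Row 244: existence of a neck profile. -/

set_option autoImplicit false
set_option maxSynthPendingDepth 3
open Set Filter Topology
open scoped ContDiff
open Crest.GeometryTopology.CoordMetric Crest.GeometryTopology.ChartCurvature
open Crest.GeometryTopology.Geodesic

noncomputable section
namespace Crest.Agent.R244

namespace PEx

local notation "T" => Real.smoothTransition

theorem T_smooth : ContDiff ℝ ∞ T := Real.smoothTransition.contDiff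

theorem T1_smooth : ContDiff ℝ ∞ (deriv T) := (contDiff_infty_iff_deriv.1 T_smooth).2

theorem T2_smooth : ContDiff ℝ ∞ (deriv (deriv T)) := (contDiff_infty_iff_deriv.1 T1_smooth).2

theorem hasDerivAt_T (x : ℝ) : HasDerivAt T (deriv T x) x :=
  ((contDiff_infty_iff_deriv.1 T_smooth).1 x).hasDerivAt

theorem hasDerivAt_T1 (x : ℝ) : HasDerivAt (deriv T) (deriv (deriv T) x) x :=
  ((contDiff_infty_iff_deriv.1 T1_smooth).1 x).hasDerivAt

theorem T1_nonneg (x : ℝ) : 0 ≤ deriv T x := Real.smoothTransition.monotone.deriv_nonneg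

theorem T1_zero {x : ℝ} (hx : x ≤ 0 ∨ 1 ≤ x) : deriv T x = 0 := by
  rcases hx with hx | hx
  · refine IsLocalMin.deriv_eq_zero (Eventually.of_forall fun y => ?_)
    rw [Real.smoothTransition.zero_of_nonpos hx]
    exact Real.smoothTransition.nonneg y
  · refine IsLocalMax.deriv_eq_zero (Eventually.of_forall fun y => ?_)
    rw [Real.smoothTransition.one_of_one_le hx]
    exact Real.smoothTransition.le_one y

theorem T2_zero {x : ℝ} (hx : x ≤ 0 ∨ 1 ≤ x) : deriv (deriv T) x = 0 := by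
  refine IsLocalMin.deriv_eq_zero (Eventually.of_forall fun y => ?_)
  rw [T1_zero hx]
  exact T1_nonneg y

theorem hasDerivAt_E (x : ℝ) : HasDerivAt expNegInvGlue (x⁻¹ ^ 2 * expNegInvGlue x) x := by
  simpa using expNegInvGlue.hasDerivAt_polynomial_eval_inv_mul 1 x

theorem sq_le_T1 {x : ℝ} (h0 : 0 ≤ x) (h1 : x ≤ 1 / 2) : T x ^ 2 ≤ deriv T x := by
  rcases h0.eq_or_lt with rfl | h0
  · simpa using T1_nonneg 0
  have hD := Real.smoothTransition.pos_denom x
  have h2 : HasDerivAt (fun x => expNegInvGlue (1 - x))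
      (-((1 - x)⁻¹ ^ 2 * expNegInvGlue (1 - x))) x := by
    simpa using (hasDerivAt_E (1 - x)).comp_const_sub 1 x
  have h3 := (hasDerivAt_E x).fun_div ((hasDerivAt_E x).fun_add h2) hD.ne'
  have h4 : deriv T x = _ := h3.deriv
  rw [h4, Real.smoothTransition, div_pow]
  refine div_le_div_of_nonneg_right ?_ (by positivity)
  have a1 := expNegInvGlue.nonneg x
  have a2 : expNegInvGlue x ≤ expNegInvGlue (1 - x) := expNegInvGlue.monotone (by linarith)
  have a3 : 1 ≤ x⁻¹ ^ 2 := one_le_pow₀ ((one_le_inv₀ h0).2 (by linarith))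
  have a4 : 0 ≤ expNegInvGlue x * ((1 - x)⁻¹ ^ 2 * expNegInvGlue (1 - x)) := by
    have := expNegInvGlue.nonneg (1 - x)
    positivity
  have a5 : expNegInvGlue x * expNegInvGlue x ≤ expNegInvGlue x * expNegInvGlue (1 - x) := by
    gcongr
  have a6 : 1 * (expNegInvGlue x * expNegInvGlue (1 - x)) ≤
      x⁻¹ ^ 2 * (expNegInvGlue x * expNegInvGlue (1 - x)) := by
    have := expNegInvGlue.nonneg (1 - x)
    gcongr
  nlinarith

/-- `b'` -/
def g (σ r : ℝ) : ℝ := 1 / 24 * T ((r + 1) / 4) + (σ - 1 / 24) * T (r - 2)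

/-- `b''` -/
def g1 (σ r : ℝ) : ℝ := 1 / 24 * (deriv T ((r + 1) / 4) / 4) + (σ - 1 / 24) * deriv T (r - 2)

/-- `b = n^(-1/2)` -/
def b (σ s : ℝ) : ℝ := 1 + ∫ r in (-1)..s, g σ r

/-- the profile function -/
def nn (σ s : ℝ) : ℝ := (b σ s ^ 2)⁻¹

theorem g_smooth (σ : ℝ) : ContDiff ℝ ∞ (g σ) :=
  (contDiff_const.mul (T_smooth.comp ((contDiff_id.add contDiff_const).div_const 4))).add
    (contDiff_const.mul (T_smooth.comp (contDiff_id.sub contDiff_const)))

theorem hasDerivAt_g (σ r : ℝ) : HasDerivAt (g σ) (g1 σ r) r := by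
  have h1 := ((hasDerivAt_T ((r + 1) / 4)).comp r
    (((hasDerivAt_id' r).add_const 1).div_const 4)).const_mul (1 / 24)
  have h2 := ((hasDerivAt_T (r - 2)).comp_sub_const r 2).const_mul (σ - 1 / 24)
  refine (h1.fun_add h2).congr_deriv ?_
  unfold g1
  ring

theorem hasDerivAt_b (σ s : ℝ) : HasDerivAt (b σ) (g σ s) s :=
  ((g_smooth σ).continuous.integral_hasStrictDerivAt (-1) s).hasDerivAt.const_add 1

theorem b_smooth (σ : ℝ) : ContDiff ℝ ∞ (b σ) := by
  refine contDiff_infty_iff_deriv.2 ⟨fun s => (hasDerivAt_b σ s).differentiableAt, ?_⟩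
  rw [show deriv (b σ) = g σ from funext fun s => (hasDerivAt_b σ s).deriv]
  exact g_smooth σ

variable {σ : ℝ}

theorem g_nonneg (hσ : 1 / 24 ≤ σ) (r : ℝ) : 0 ≤ g σ r :=
  add_nonneg (mul_nonneg (by norm_num) (Real.smoothTransition.nonneg _))
    (mul_nonneg (sub_nonneg.2 hσ) (Real.smoothTransition.nonneg _))

theorem g1_nonneg (hσ : 1 / 24 ≤ σ) (r : ℝ) : 0 ≤ g1 σ r :=
  add_nonneg (mul_nonneg (by norm_num) (div_nonneg (T1_nonneg _) (by norm_num)))
    (mul_nonneg (sub_nonneg.2 hσ) (T1_nonneg _))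

theorem g_mid {r : ℝ} (hr : r ≤ 1) : g σ r = 1 / 24 * T ((r + 1) / 4) := by
  rw [g, Real.smoothTransition.zero_of_nonpos (x := r - 2) (by linarith), mul_zero, add_zero]

theorem g1_mid {r : ℝ} (hr : r ≤ 1) : g1 σ r = 1 / 24 * (deriv T ((r + 1) / 4) / 4) := by
  rw [g1, T1_zero (x := r - 2) (Or.inl (by linarith)), mul_zero, add_zero]

theorem b_left {s : ℝ} (hs : s ≤ -1) : b σ s = 1 := by
  rw [b, intervalIntegral.integral_congr (g := fun _ => 0)]
  · simp
  · intro r hr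
    rw [uIcc_of_ge hs] at hr
    rw [g_mid (by linarith [hr.2]), Real.smoothTransition.zero_of_nonpos (by linarith [hr.2]),
      mul_zero]

theorem one_le_b (hσ : 1 / 24 ≤ σ) (s : ℝ) : 1 ≤ b σ s := by
  rcases le_total s (-1) with hs | hs
  · exact (b_left hs).ge
  · exact le_add_of_nonneg_right (intervalIntegral.integral_nonneg hs fun r _ => g_nonneg hσ r)

theorem b_le {s : ℝ} (h0 : -1 ≤ s) (h1 : s ≤ 1) : b σ s ≤ 13 / 12 := by
  have := intervalIntegral.norm_integral_le_of_norm_le_const (a := -1) (b := s) (f := g σ)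
    (C := 1 / 24) fun r hr => by
      rw [uIoc_of_le h0] at hr
      rw [g_mid (by linarith [hr.2]), Real.norm_of_nonneg
        (mul_nonneg (by norm_num) (Real.smoothTransition.nonneg _))]
      linarith [Real.smoothTransition.le_one ((r + 1) / 4)]
  rw [abs_of_nonneg (by linarith)] at this
  have h2 := (le_abs_self _).trans this
  unfold b
  linarith

theorem b_right {s : ℝ} (hs : 3 ≤ s) : b σ s = b σ 3 + σ * (s - 3) := by
  have hc := (g_smooth σ).continuous
  rw [b, b, ← intervalIntegral.integral_add_adjacent_intervals (b := 3)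
    (hc.intervalIntegrable _ _) (hc.intervalIntegrable _ _),
    intervalIntegral.integral_congr (a := 3) (g := fun _ => σ)]
  · simp only [intervalIntegral.integral_const, smul_eq_mul]
    ring
  · intro r hr
    rw [uIcc_of_le hs] at hr
    rw [g, Real.smoothTransition.one_of_one_le (by linarith [hr.1]),
      Real.smoothTransition.one_of_one_le (by linarith [hr.1])]
    ring

theorem deriv_nn (hσ : 1 / 24 ≤ σ) : deriv (nn σ) = fun s => -2 * g σ s / b σ s ^ 3 := by
  funext s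
  have hb : 0 < b σ s := by linarith [one_le_b hσ s]
  refine (((hasDerivAt_b σ s).fun_pow 2).fun_inv (by positivity)).deriv.trans ?_
  field_simp
  simp only [Nat.cast_ofNat, Nat.add_one_sub_one, pow_one]
  ring

theorem deriv2_nn (hσ : 1 / 24 ≤ σ) (s : ℝ) :
    deriv (deriv (nn σ)) s = (6 * g σ s ^ 2 - 2 * b σ s * g1 σ s) / b σ s ^ 4 := by
  have hb : 0 < b σ s := by linarith [one_le_b hσ s]
  rw [deriv_nn hσ]
  refine (((hasDerivAt_g σ s).const_mul (-2)).fun_div ((hasDerivAt_b σ s).fun_pow 3)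
    (by positivity)).deriv.trans ?_
  field_simp
  simp only [Nat.cast_ofNat, Nat.add_one_sub_one]
  ring

/-- the properties of one half of the profile -/
structure Half (c σ r : ℝ) (n : ℝ → ℝ) : Prop where
  smooth : ContDiff ℝ ∞ n
  pos : ∀ s, 0 < n s
  r_pos : 0 < r + 3
  left : ∀ s, s ≤ -1 → n s = 1
  lin : ∀ s, 3 ≤ s → n s = ((σ * (r + s)) ^ 2)⁻¹
  cvx : ∀ s, 2 * n s * deriv (deriv n) s ≤ 3 * deriv n s ^ 2
  neg : ∀ s, -1 < s → s ≤ 1 → deriv n s < 0
  mid : ∀ s, -1 ≤ s → s ≤ 1 → 1 / 2 ≤ n s ∧ n s ≤ 1 ∧ -1 ≤ deriv n s ∧ deriv n s ≤ 0 ∧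
    deriv (deriv n) s ≤ 0
  strict : ∀ s, -1 / 2 ≤ s → s ≤ 1 → c ≤ -deriv n s ∧ c ≤ -deriv (deriv n) s

theorem half (hσ : 1 / 24 ≤ σ) : Half (T (1 / 8) ^ 2 / 192) σ (b σ 3 / σ - 3) (nn σ) := by
  have hσ0 : 0 < σ := by linarith
  have hb : ∀ s, 0 < b σ s := fun s => by linarith [one_le_b hσ s]
  have key : ∀ s, -1 ≤ s → s ≤ 1 → T ((s + 1) / 4) ^ 2 / 192 ≤ -deriv (deriv (nn σ)) s := by
    intro s h0 h1
    have a1 := one_le_b hσ s
    have a2 : b σ s ^ 4 ≤ 2 :=
      (pow_le_pow_left₀ (hb s).le (b_le h0 h1) 4).trans (by norm_num)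
    have a3 := sq_le_T1 (x := (s + 1) / 4) (by linarith) (by linarith)
    have a4 := T1_nonneg ((s + 1) / 4)
    have a5 := sq_nonneg (T ((s + 1) / 4))
    rw [deriv2_nn hσ, g_mid h1, g1_mid h1, ← neg_div, le_div_iff₀ (pow_pos (hb s) 4)]
    nlinarith [mul_le_mul_of_nonneg_left a2 a5, mul_le_mul_of_nonneg_right a1 a4]
  have key1 : ∀ s, -1 ≤ s → s ≤ 1 → T ((s + 1) / 4) / 24 ≤ -deriv (nn σ) s ∧
      -deriv (nn σ) s ≤ 1 := by
    intro s h0 h1
    have a1 : 1 ≤ b σ s ^ 3 := one_le_pow₀ (one_le_b hσ s)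
    have a2 : b σ s ^ 3 ≤ 2 :=
      (pow_le_pow_left₀ (hb s).le (b_le h0 h1) 3).trans (by norm_num)
    have a3 := Real.smoothTransition.nonneg ((s + 1) / 4)
    have a4 := Real.smoothTransition.le_one ((s + 1) / 4)
    simp only [deriv_nn hσ]
    rw [g_mid h1, ← neg_div, le_div_iff₀ (pow_pos (hb s) 3), div_le_iff₀ (pow_pos (hb s) 3)]
    constructor
    · nlinarith [mul_le_mul_of_nonneg_left a2 a3]
    · linarith
  refine ⟨((b_smooth σ).pow 2).inv fun s => (pow_pos (hb s) 2).ne',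
    fun s => inv_pos.2 (pow_pos (hb s) 2), ?_, fun s hs => ?_, fun s hs => ?_, fun s => ?_,
    fun s h0 h1 => ?_, fun s h0 h1 => ⟨?_, ?_, ?_, ?_, ?_⟩, fun s h0 h1 => ?_⟩
  · rw [sub_add_cancel]
    exact div_pos (hb 3) hσ0
  · simp [nn, b_left hs]
  · rw [nn, b_right hs]
    congr 2
    field_simp
    ring
  · have h1 := hb s
    have h2 := g1_nonneg hσ s
    rw [deriv2_nn hσ, deriv_nn hσ, nn, ← sub_nonneg]
    have : 3 * (-2 * g σ s / b σ s ^ 3) ^ 2 -
        2 * (b σ s ^ 2)⁻¹ * ((6 * g σ s ^ 2 - 2 * b σ s * g1 σ s) / b σ s ^ 4) =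
        4 * g1 σ s / b σ s ^ 5 := by
      field_simp
      ring
    simp only
    rw [this]
    positivity
  · have := Real.smoothTransition.pos_of_pos (x := (s + 1) / 4) (by linarith)
    linarith [(key1 s h0.le h1).1]
  · rw [nn, le_inv_comm₀ (by norm_num) (pow_pos (hb s) 2)]
    exact (pow_le_pow_left₀ (hb s).le (b_le h0 h1) 2).trans (by norm_num)
  · exact inv_le_one_of_one_le₀ (one_le_pow₀ (one_le_b hσ s))
  · linarith [(key1 s h0 h1).2]
  · linarith [(key1 s h0 h1).1, Real.smoothTransition.nonneg ((s + 1) / 4)]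
  · linarith [key s h0 h1, sq_nonneg (T ((s + 1) / 4))]
  · have a1 : T (1 / 8) ≤ T ((s + 1) / 4) := Real.smoothTransition.monotone (by linarith)
    have a2 := Real.smoothTransition.nonneg (1 / 8)
    have a3 := Real.smoothTransition.le_one (1 / 8)
    have a4 : T (1 / 8) ^ 2 ≤ T ((s + 1) / 4) ^ 2 := by gcongr
    constructor
    · nlinarith [(key1 s (by linarith) h1).1]
    · linarith [key s (by linarith) h1]

theorem exists_bound : ∃ C : ℝ, 1 ≤ C ∧ ∀ x, |deriv T x| ≤ C ∧ |deriv (deriv T) x| ≤ C := by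
  obtain ⟨C₁, h₁⟩ := (isCompact_Icc (a := (0 : ℝ)) (b := 1)).exists_bound_of_continuousOn
    T1_smooth.continuous.continuousOn
  obtain ⟨C₂, h₂⟩ := (isCompact_Icc (a := (0 : ℝ)) (b := 1)).exists_bound_of_continuousOn
    T2_smooth.continuous.continuousOn
  refine ⟨max 1 (max C₁ C₂), le_max_left _ _, fun x => ?_⟩
  by_cases hx : x ≤ 0 ∨ 1 ≤ x
  · rw [T1_zero hx, T2_zero hx, abs_zero]
    exact ⟨by positivity, by positivity⟩
  · push Not at hx
    exact ⟨(h₁ x ⟨hx.1.le, hx.2.le⟩).trans ((le_max_left _ _).trans (le_max_right _ _)),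
      (h₂ x ⟨hx.1.le, hx.2.le⟩).trans ((le_max_right _ _).trans (le_max_right _ _))⟩

theorem exists_profile_of {c : ℝ} (hc : 0 < c) (hc1 : c ≤ 1)
    (h : ∀ σ, 1 / 24 ≤ σ → ∃ r n, Half c σ r n) : Nonempty Profile := by
  obtain ⟨C, hC, hT⟩ := exists_bound
  obtain ⟨ε, hε⟩ : ∃ ε, ε = c / (100 * C) := ⟨_, rfl⟩
  have hε0 : 0 < ε := by rw [hε]; positivity
  have hεC : ε * C = c / 100 := by rw [hε]; field_simp
  have hεc : ε ≤ c / 100 := by nlinarith
  obtain ⟨rR, n, hn⟩ := h (1 / 24) le_rfl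
  obtain ⟨rL, n', hm⟩ := h (1 / 24 / ε) (by rw [le_div_iff₀ hε0]; linarith)
  have d1 : deriv (fun s => n' (-s)) = fun s => -deriv n' (-s) := funext fun s => deriv_comp_neg _ _
  have d2 : ∀ s, deriv (deriv fun s => n' (-s)) s = deriv (deriv n') (-s) := by
    intro s
    rw [d1, deriv.fun_neg, deriv_comp_neg, neg_neg]
  have e1 : deriv (fun s => ε * T (s + 1 / 2)) = fun s => ε * deriv T (s + 1 / 2) :=
    funext fun s => (((hasDerivAt_T (s + 1 / 2)).comp_add_const s _).const_mul ε).deriv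
  have e2 : ∀ s, deriv (deriv fun s => ε * T (s + 1 / 2)) s = ε * deriv (deriv T) (s + 1 / 2) := by
    intro s
    rw [e1]
    exact (((hasDerivAt_T1 (s + 1 / 2)).comp_add_const s _).const_mul ε).deriv
  refine ⟨{
    m := fun s => n' (-s), n := n, e := fun s => ε * T (s + 1 / 2), α := 1 / 24 / ε, β := 1 / 24
    ε := ε, S := 3, rL := rL, rR := rR
    m_smooth := hm.smooth.comp contDiff_neg
    n_smooth := hn.smooth
    e_smooth := contDiff_const.mul (T_smooth.comp (contDiff_id.add contDiff_const))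
    m_pos := fun s => hm.pos _
    n_pos := hn.pos
    α_pos := by positivity
    β_pos := by norm_num
    ε_mul := by field_simp
    S_ge := by norm_num
    rL_pos := hm.r_pos
    rR_pos := hn.r_pos
    m_right := fun s hs => hm.left _ (by linarith)
    n_left := hn.left
    e_left := fun s hs => by rw [Real.smoothTransition.zero_of_nonpos (by linarith), mul_zero]
    e_right := fun s hs => by rw [Real.smoothTransition.one_of_one_le (by linarith), mul_one]
    m_lin := fun s hs => by rw [hm.lin _ (by linarith), sub_eq_add_neg]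
    n_lin := hn.lin
    m_cvx := fun s _ => by rw [d2, d1]; simpa using hm.cvx (-s)
    n_cvx := fun s _ => hn.cvx s
    m_deriv_pos := fun s h0 h1 => by
      rw [d1]; exact neg_pos.2 (hm.neg _ (by linarith) (by linarith))
    n_deriv_neg := hn.neg
    good := fun s h0 h1 => Jet.Small.good ?_ }⟩
  obtain ⟨n1, n2, n3, n4, n5⟩ := hn.mid s h0 h1
  obtain ⟨m1, m2, m3, m4, m5⟩ := hm.mid (-s) (by linarith) (by linarith)
  have t0 := Real.smoothTransition.nonneg (s + 1 / 2)
  have t1 := Real.smoothTransition.le_one (s + 1 / 2)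
  have x0 : 0 ≤ ε * T (s + 1 / 2) := by positivity
  have x1 : ε * T (s + 1 / 2) ≤ c / 100 := by nlinarith
  have x2 : ε * T (s + 1 / 2) ≤ -deriv n s / 100 ∧
      ε * T (s + 1 / 2) ≤ -deriv (deriv n) s / 100 := by
    rcases le_total s (-1 / 2) with hs | hs
    · rw [Real.smoothTransition.zero_of_nonpos (by linarith), mul_zero]
      constructor <;> linarith
    · obtain ⟨y1, y2⟩ := hn.strict s hs h1
      constructor <;> linarith
  have x3 : ∀ z : ℝ, |z| ≤ C → (s + 1 / 2 ≤ 0 ∨ 1 ≤ s + 1 / 2 → z = 0) → |ε * z| ≤ 1 / 100 ∧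
      |ε * z| ≤ -deriv n' (-s) / 100 ∧ |ε * z| ≤ -deriv n s / 100 ∧
      |ε * z| ≤ -deriv (deriv n') (-s) / 100 ∧ |ε * z| ≤ -deriv (deriv n) s / 100 := by
    intro z hz hz0
    by_cases hs : s + 1 / 2 ≤ 0 ∨ 1 ≤ s + 1 / 2
    · rw [hz0 hs, mul_zero, abs_zero]
      refine ⟨?_, ?_, ?_, ?_, ?_⟩ <;> linarith
    · push Not at hs
      have : |ε * z| ≤ c / 100 := by
        rw [abs_mul, abs_of_pos hε0, ← hεC]; gcongr
      obtain ⟨y1, y2⟩ := hn.strict s (by linarith [hs.1]) h1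
      obtain ⟨y3, y4⟩ := hm.strict (-s) (by linarith [hs.2]) (by linarith)
      refine ⟨?_, ?_, ?_, ?_, ?_⟩ <;> linarith
  obtain ⟨z1, z2, z3, z4, z5⟩ := x3 _ (hT (s + 1 / 2)).1 T1_zero
  obtain ⟨-, -, -, z6, z7⟩ := x3 _ (hT (s + 1 / 2)).2 T2_zero
  have hj : jetAt (fun s => n' (-s)) n (fun s => ε * T (s + 1 / 2)) s =
      ⟨n' (-s), -deriv n' (-s), deriv (deriv n') (-s), n s, deriv n s, deriv (deriv n) s,
        ε * T (s + 1 / 2), ε * deriv T (s + 1 / 2), ε * deriv (deriv T) (s + 1 / 2)⟩ := by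
    rw [jetAt, d2, e2, d1, e1]
  rw [hj]
  exact ⟨m1, m2, n1, n2, by simpa using m4, by simp only; linarith, n4, n3, m5, n5, x0,
    by simp only; linarith, x2.1, x2.2, z1, z2, z3, z4, z5, z6, z7⟩

end PEx

theorem exists_profile : Nonempty Profile := by
  have h0 := Real.smoothTransition.pos_of_pos (x := 1 / 8) (by norm_num)
  have h1 := Real.smoothTransition.le_one (1 / 8)
  exact PEx.exists_profile_of (c := Real.smoothTransition (1 / 8) ^ 2 / 192) (by positivity)
    (by nlinarith) fun σ hσ => ⟨_, _, PEx.half hσ⟩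

end Crest.Agent.R244
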