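import Crest.Agent.R244.CalcA

/-! Row 244: chart computations on a Mathlib manifold modelled on `ℝⁿ`. -/

set_option autoImplicit false
set_option maxSynthPendingDepth 3
open Set Filter Topology
open scoped ContDiff
open Crest.GeometryTopology.CoordMetric Crest.GeometryTopology.ChartCurvature
open Crest.GeometryTopology.Geodesic

noncomputable section
namespace Crest.Agent.R244

open Bundle
open scoped Manifold

variable {n : ℕ} {M : Type} [TopologicalSpace M] [ChartedSpace (E n) M]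
  [IsManifold 𝓘(ℝ, E n) ∞ M]

theorem mfderiv_atlas_eq {e : OpenPartialHomeomorph M (E n)} (he : e ∈ atlas (E n) M) {z : M}
    (hz : z ∈ e.source) (u : E n) :
    (mfderiv 𝓘(ℝ, E n) 𝓘(ℝ, E n) e z u : E n) =
      fderiv ℝ (e ∘ (chartAt (E n) z).symm) (chartAt (E n) z z) u := by
  have h := mdifferentiableAt_atlas (I := 𝓘(ℝ, E n)) he hz
  rw [h.mfderiv]
  simp only [mfld_simps, fderivWithin_univ]
  rfl

theorem mfderiv_atlas_symm_eq {e : OpenPartialHomeomorph M (E n)} (he : e ∈ atlas (E n) M)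
    {y : E n} (hy : y ∈ e.target) (u : E n) :
    (mfderiv 𝓘(ℝ, E n) 𝓘(ℝ, E n) e.symm y u : E n) =
      fderiv ℝ (chartAt (E n) (e.symm y) ∘ e.symm) y u := by
  have h := mdifferentiableAt_atlas_symm (I := 𝓘(ℝ, E n)) he hy
  rw [h.mfderiv]
  simp only [mfld_simps, fderivWithin_univ]
  rfl

theorem contDiffAt_atlas_trans {e e' : OpenPartialHomeomorph M (E n)} (he : e ∈ atlas (E n) M)
    (he' : e' ∈ atlas (E n) M) {z : M} (hz : z ∈ e.source) (hz' : z ∈ e'.source) :
    ContDiffAt ℝ ∞ (e' ∘ e.symm) (e z) := by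
  have h1 : ContMDiffAt 𝓘(ℝ, E n) 𝓘(ℝ, E n) ∞ e.symm (e z) :=
    contMDiffAt_symm_of_mem_maximalAtlas (IsManifold.subset_maximalAtlas he) (e.map_source hz)
  have h2 : ContMDiffAt 𝓘(ℝ, E n) 𝓘(ℝ, E n) ∞ e' (e.symm (e z)) := by
    rw [e.left_inv hz]
    exact contMDiffAt_of_mem_maximalAtlas (IsManifold.subset_maximalAtlas he') hz'
  exact contMDiffAt_iff_contDiffAt.1 (h2.comp _ h1)

theorem triv_symm_eq {x₀ z : M} (hz : z ∈ (chartAt (E n) x₀).source) (u : E n) :
    ((trivializationAt (E n) (TangentSpace 𝓘(ℝ, E n)) x₀).symm z u : E n) =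
      fderiv ℝ (chartAt (E n) z ∘ (chartAt (E n) x₀).symm) (chartAt (E n) x₀ z) u := by
  have h := TangentBundle.symmL_trivializationAt_eq_core (I := 𝓘(ℝ, E n)) hz
  have h2 := congrArg (fun L => L u) h
  simp only [tangentBundleCore_coordChange_achart, mfld_simps, fderivWithin_univ] at h2
  rw [← Trivialization.symmL_apply (R := ℝ) _ hz]
  exact h2

theorem triv_apply_eq (x₀ z : M) (u : E n) :
    (trivializationAt (E n) (TangentSpace 𝓘(ℝ, E n)) x₀ (TotalSpace.mk' (E n) z u)).2 =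
      fderiv ℝ (chartAt (E n) x₀ ∘ (chartAt (E n) z).symm) (chartAt (E n) z z) u := by
  rw [TangentBundle.trivializationAt_apply]
  simp only [mfld_simps, fderivWithin_univ]

/-- A bilinear form on the tangent space read in the trivialisation at `x₀`. -/
theorem hom_triv_apply {x₀ z : M} (hz : z ∈ (chartAt (E n) x₀).source)
    (B : TangentSpace 𝓘(ℝ, E n) z →L[ℝ] TangentSpace 𝓘(ℝ, E n) z →L[ℝ] ℝ) (u v : E n) :
    (trivializationAt (E n →L[ℝ] E n →L[ℝ] ℝ)
      (fun x : M => TangentSpace 𝓘(ℝ, E n) x →L[ℝ] TangentSpace 𝓘(ℝ, E n) x →L[ℝ] ℝ) x₀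
        (TotalSpace.mk' _ z B)).2 u v =
      B (fderiv ℝ (chartAt (E n) z ∘ (chartAt (E n) x₀).symm) (chartAt (E n) x₀ z) u)
        (fderiv ℝ (chartAt (E n) z ∘ (chartAt (E n) x₀).symm) (chartAt (E n) x₀ z) v) := by
  rw [hom_trivializationAt_apply]
  have := inCoordinates_apply_eq₂ (𝕜 := ℝ) (F₁ := E n) (F₂ := E n) (F₃ := ℝ)
    (E₁ := fun x : M => TangentSpace 𝓘(ℝ, E n) x) (E₂ := fun x : M => TangentSpace 𝓘(ℝ, E n) x)
    (E₃ := Bundle.Trivial M ℝ) (x₀ := x₀) (x := z) (ϕ := B) (v := u) (w := v) hz hz (by simp)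
  refine this.trans ?_
  rw [triv_symm_eq hz, triv_symm_eq hz]
  simp

omit [TopologicalSpace M] [ChartedSpace (E n) M] [IsManifold 𝓘(ℝ, E n) ∞ M] in
theorem bilin_expand (B : E n →L[ℝ] E n →L[ℝ] ℝ) (L : E n →L[ℝ] E n) (u v : E n) :
    ∑ i, ∑ j, B (L (EuclideanSpace.single i 1)) (L (EuclideanSpace.single j 1)) * u i * v j =
      B (L u) (L v) := by
  have h : ∀ w : E n, w = ∑ i, w i • (EuclideanSpace.single i (1 : ℝ) : E n) := fun w => by
    simpa using ((EuclideanSpace.basisFun (Fin n) ℝ).sum_repr w).symm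
  conv_rhs => rw [h u, h v]
  simp only [map_sum, map_smul, _root_.sum_apply, _root_.smul_apply,
    smul_eq_mul, Finset.mul_sum]
  rw [Finset.sum_comm]
  refine Finset.sum_congr rfl fun i _ => Finset.sum_congr rfl fun j _ => by ring

variable (g : ContMDiffRiemannianMetric 𝓘(ℝ, E n) ∞ (E n)
  (fun x : M => TangentSpace 𝓘(ℝ, E n) x))

theorem metricInChart_apply {x : M} {y : E n} (hy : y ∈ (chartAt (E n) x).target) (i j : Fin n) :
    metricInChart g x y i j = g.inner ((chartAt (E n) x).symm y)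
      (fderiv ℝ (chartAt (E n) ((chartAt (E n) x).symm y) ∘ (chartAt (E n) x).symm) y
        (EuclideanSpace.single i 1))
      (fderiv ℝ (chartAt (E n) ((chartAt (E n) x).symm y) ∘ (chartAt (E n) x).symm) y
        (EuclideanSpace.single j 1)) := by
  rw [← mfderiv_atlas_symm_eq (chart_mem_atlas (E n) x) hy,
    ← mfderiv_atlas_symm_eq (chart_mem_atlas (E n) x) hy]
  rfl

theorem bil_metricInChart {x : M} {y : E n} (hy : y ∈ (chartAt (E n) x).target) (u v : E n) :
    bil (metricInChart g x) y u v = g.inner ((chartAt (E n) x).symm y)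
      (fderiv ℝ (chartAt (E n) ((chartAt (E n) x).symm y) ∘ (chartAt (E n) x).symm) y u)
      (fderiv ℝ (chartAt (E n) ((chartAt (E n) x).symm y) ∘ (chartAt (E n) x).symm) y v) := by
  rw [bil_apply]
  simp only [metricInChart_apply g hy]
  exact bilin_expand (g.inner ((chartAt (E n) x).symm y)) _ u v

theorem bil_metricInChart' {x z : M} (hz : z ∈ (chartAt (E n) x).source) (u v : E n) :
    bil (metricInChart g x) (chartAt (E n) x z) u v = g.inner z
      (fderiv ℝ (chartAt (E n) z ∘ (chartAt (E n) x).symm) (chartAt (E n) x z) u)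
      (fderiv ℝ (chartAt (E n) z ∘ (chartAt (E n) x).symm) (chartAt (E n) x z) v) := by
  rw [bil_metricInChart g ((chartAt (E n) x).map_source hz)]
  have : ∀ z' : M, z' = z → g.inner z'
      (fderiv ℝ (chartAt (E n) z' ∘ (chartAt (E n) x).symm) (chartAt (E n) x z) u)
      (fderiv ℝ (chartAt (E n) z' ∘ (chartAt (E n) x).symm) (chartAt (E n) x z) v) = g.inner z
      (fderiv ℝ (chartAt (E n) z ∘ (chartAt (E n) x).symm) (chartAt (E n) x z) u)
      (fderiv ℝ (chartAt (E n) z ∘ (chartAt (E n) x).symm) (chartAt (E n) x z) v) := by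
    rintro _ rfl; rfl
  exact this _ ((chartAt (E n) x).left_inv hz)

theorem contDiffOn_metricInChart (x : M) (i j : Fin n) :
    ContDiffOn ℝ ∞ (fun y => metricInChart g x y i j) (chartAt (E n) x).target := by
  have h1 := (Trivialization.contMDiffOn_section_baseSet_iff (IB := 𝓘(ℝ, E n)) (n := ∞)
    (s := fun b => g.inner b) (trivializationAt (E n →L[ℝ] E n →L[ℝ] ℝ)
      (fun x : M => TangentSpace 𝓘(ℝ, E n) x →L[ℝ] TangentSpace 𝓘(ℝ, E n) x →L[ℝ] ℝ) x)).1
      g.contMDiff.contMDiffOn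
  have h2 := h1.comp (contMDiffOn_chart_symm (I := 𝓘(ℝ, E n)) (n := ∞) (x := x))
    (fun y hy => by simpa using (chartAt (E n) x).map_target hy)
  have h3 := contMDiffOn_iff_contDiffOn.1 h2
  have h4 := (h3.clm_apply (contDiffOn_const (c := (EuclideanSpace.single i 1 : E n)))).clm_apply
    (contDiffOn_const (c := (EuclideanSpace.single j 1 : E n)))
  refine h4.congr fun y hy => ?_
  rw [metricInChart_apply g hy, Function.comp_apply,
    hom_triv_apply ((chartAt (E n) x).map_target hy), (chartAt (E n) x).right_inv hy]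

theorem fderiv_atlas_cocycle {e₁ e₂ e₃ : OpenPartialHomeomorph M (E n)} (h₁ : e₁ ∈ atlas (E n) M)
    (h₂ : e₂ ∈ atlas (E n) M) (h₃ : e₃ ∈ atlas (E n) M) {z : M} (hz₁ : z ∈ e₁.source)
    (hz₂ : z ∈ e₂.source) (hz₃ : z ∈ e₃.source) (u : E n) :
    fderiv ℝ (e₃ ∘ e₂.symm) (e₂ z) (fderiv ℝ (e₂ ∘ e₁.symm) (e₁ z) u) =
      fderiv ℝ (e₃ ∘ e₁.symm) (e₁ z) u := by
  have d₁ := (contDiffAt_atlas_trans h₁ h₂ hz₁ hz₂).differentiableAt (by simp)
  have d₂ := (contDiffAt_atlas_trans h₂ h₃ hz₂ hz₃).differentiableAt (by simp)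
  have e : (e₂ ∘ e₁.symm) (e₁ z) = e₂ z := by simp [e₁.left_inv hz₁]
  have hc : fderiv ℝ ((e₃ ∘ e₂.symm) ∘ (e₂ ∘ e₁.symm)) (e₁ z) =
      (fderiv ℝ (e₃ ∘ e₂.symm) (e₂ z)).comp (fderiv ℝ (e₂ ∘ e₁.symm) (e₁ z)) := by
    rw [fderiv_comp _ (e ▸ d₂) d₁, e]
  have hev : (e₃ ∘ e₂.symm) ∘ (e₂ ∘ e₁.symm) =ᶠ[𝓝 (e₁ z)] e₃ ∘ e₁.symm := by
    have hc : ContinuousAt e₁.symm (e₁ z) := e₁.continuousAt_symm (e₁.map_source hz₁)
    have : ∀ᶠ y in 𝓝 (e₁ z), e₁.symm y ∈ e₂.source :=
      hc.preimage_mem_nhds (by rw [e₁.left_inv hz₁]; exact e₂.open_source.mem_nhds hz₂)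
    filter_upwards [this] with y hy
    simp [e₂.left_inv hy]
  rw [← hev.fderiv_eq, hc]
  rfl

omit [ChartedSpace (E n) M] [IsManifold 𝓘(ℝ, E n) ∞ M] in
theorem fderiv_chart_self (e : OpenPartialHomeomorph M (E n)) {z : M} (hz : z ∈ e.source)
    (u : E n) : fderiv ℝ (e ∘ e.symm) (e z) u = u := by
  have hev : e ∘ e.symm =ᶠ[𝓝 (e z)] id := by
    filter_upwards [e.open_target.mem_nhds (e.map_source hz)] with y hy
    simp [e.right_inv hy]
  rw [hev.fderiv_eq]
  simp

theorem isRiemannianOn_metricInChart (x : M) :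
    IsRiemannianOn (metricInChart g x) (chartAt (E n) x).target := by
  refine ⟨(chartAt (E n) x).open_target, contDiffOn_metricInChart g x, fun y hy => ?_⟩
  obtain ⟨z, hz, rfl⟩ : ∃ z ∈ (chartAt (E n) x).source, chartAt (E n) x z = y :=
    ⟨_, (chartAt (E n) x).map_target hy, (chartAt (E n) x).right_inv hy⟩
  rw [Matrix.posDef_iff_dotProduct_mulVec]
  refine ⟨?_, fun v hv => ?_⟩
  · ext i j
    simp only [Matrix.conjTranspose_apply, star_trivial]
    rw [metricInChart_apply g hy, metricInChart_apply g hy, g.symm]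
  · have hb := bil_metricInChart' g hz (WithLp.toLp 2 v) (WithLp.toLp 2 v)
    rw [bil_apply] at hb
    have hne : fderiv ℝ (chartAt (E n) z ∘ (chartAt (E n) x).symm) (chartAt (E n) x z)
        (WithLp.toLp 2 v) ≠ 0 := by
      intro h0
      have := fderiv_atlas_cocycle (chart_mem_atlas (E n) x) (chart_mem_atlas (E n) z)
        (chart_mem_atlas (E n) x) hz (mem_chart_source _ z) hz (WithLp.toLp 2 v)
      rw [h0, map_zero, fderiv_chart_self _ hz] at this
      apply hv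
      simpa using this.symm
    have hp := g.pos z _ hne
    rw [← hb] at hp
    refine hp.trans_eq ?_
    simp only [dotProduct, Matrix.mulVec, star_trivial, Finset.mul_sum]
    refine Finset.sum_congr rfl fun i _ => Finset.sum_congr rfl fun j _ => by ring

end Crest.Agent.R244
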