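import Crest.Agent.R244.CalcB
import Crest.Agent.R244.Trans
import Crest.Agent.R244.RealizeAux

/-! Row 244: bridges between `RAtlas` and Mathlib manifolds with smooth Riemannian metrics. -/

set_option autoImplicit false
set_option maxSynthPendingDepth 3
set_option linter.style.haveILetI false
open Set Filter Topology
open scoped ContDiff
open Crest.GeometryTopology.CoordMetric Crest.GeometryTopology.ChartCurvature
open Crest.GeometryTopology.Geodesic

noncomputable section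
namespace Crest.Agent.R244

open Bundle
open scoped Manifold

variable {n : ℕ} {M : Type} [TopologicalSpace M]

/-- The preferred charts of a Riemannian manifold form a Riemannian atlas. -/
theorem exists_ratlas_of_npc [ChartedSpace (E n) M] [IsManifold 𝓘(ℝ, E n) ∞ M]
    (g : ContMDiffRiemannianMetric 𝓘(ℝ, E n) ∞ (E n) (fun x : M => TangentSpace 𝓘(ℝ, E n) x))
    (h : HasNonposSectionalCurvature g) : ∃ 𝒜 : RAtlas n M, 𝒜.NPC := by
  refine ⟨⟨M, fun x => chartAt (E n) x, fun x => metricInChart g x,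
    isRiemannianOn_metricInChart g, fun x => ⟨x, mem_chart_source _ x⟩,
    fun i j x hi hj => contDiffAt_atlas_trans (chart_mem_atlas _ i) (chart_mem_atlas _ j) hi hj,
    fun i j x hi hj u v => ?_⟩, fun x => ⟨x, mem_chart_source _ x, h x⟩⟩
  rw [bil_metricInChart' g hi, bil_metricInChart' g hj,
    fderiv_atlas_cocycle (chart_mem_atlas _ i) (chart_mem_atlas _ j) (chart_mem_atlas _ x) hi hj
      (mem_chart_source _ x),
    fderiv_atlas_cocycle (chart_mem_atlas _ i) (chart_mem_atlas _ j) (chart_mem_atlas _ x) hi hj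
      (mem_chart_source _ x)]

namespace RAtlas
variable (𝒜 : RAtlas n M)

/-- The charted space structure of a Riemannian atlas. -/
@[reducible] def charted : ChartedSpace (E n) M where
  atlas := range 𝒜.φ
  chartAt x := 𝒜.φ (𝒜.pick x)
  mem_chart_source x := 𝒜.mem_pick x
  chart_mem_atlas _ := ⟨_, rfl⟩

theorem isManifold : letI := 𝒜.charted; IsManifold 𝓘(ℝ, E n) ∞ M := by
  letI := 𝒜.charted
  refine isManifold_of_contDiffOn _ _ _ ?_
  rintro _ _ ⟨i, rfl⟩ ⟨j, rfl⟩ y hy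
  simp only [mfld_simps] at hy ⊢
  have := 𝒜.smooth i j ((𝒜.φ i).symm y) ((𝒜.φ i).map_target hy.1) hy.2
  rw [(𝒜.φ i).right_inv hy.1] at this
  exact this.contDiffWithinAt

/-- The smooth Riemannian metric of a Riemannian atlas. -/
def metric : letI := 𝒜.charted; haveI := 𝒜.isManifold
    ContMDiffRiemannianMetric 𝓘(ℝ, E n) ∞ (E n) (fun x : M => TangentSpace 𝓘(ℝ, E n) x) :=
  letI := 𝒜.charted
  haveI := 𝒜.isManifold
  { inner := fun x => bil (𝒜.g (𝒜.pick x)) (𝒜.φ (𝒜.pick x) x)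
    symm := fun x u v => bil_symm (𝒜.riem _) ((𝒜.φ _).map_source (𝒜.mem_pick x)) u v
    pos := fun x v hv => bil_pos (𝒜.riem _) ((𝒜.φ _).map_source (𝒜.mem_pick x)) hv
    isVonNBounded := fun x => by
      change Bornology.IsVonNBounded ℝ
        {v : E n | bil (𝒜.g (𝒜.pick x)) (𝒜.φ (𝒜.pick x) x) v v < 1}
      obtain ⟨c, C, hc, -, hb⟩ := exists_bil_bounds (𝒜.riem (𝒜.pick x))
        (isCompact_singleton (x := 𝒜.φ (𝒜.pick x) x))
        (singleton_subset_iff.2 ((𝒜.φ _).map_source (𝒜.mem_pick x)))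
      refine (NormedSpace.isVonNBounded_closedBall ℝ (E n) (1 + c⁻¹)).subset fun v hv => ?_
      have h1 := (hb _ rfl v).1.trans_lt hv
      rw [mem_closedBall_zero_iff]
      have h2 : ‖v‖ ^ 2 ≤ c⁻¹ := by
        rw [inv_eq_one_div, le_div_iff₀ hc]; linarith
      nlinarith [norm_nonneg v, sq_nonneg (‖v‖ - 1)]
    contMDiff := fun x₀ => by
      rw [contMDiffAt_section]
      have h1 : ContMDiffAt 𝓘(ℝ, E n) 𝓘(ℝ, E n →L[ℝ] E n →L[ℝ] ℝ) ∞
          (fun z => bil (𝒜.g (𝒜.pick x₀)) (𝒜.φ (𝒜.pick x₀) z)) x₀ :=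
        (contDiffAt_bil (𝒜.riem _) ((𝒜.φ _).map_source (𝒜.mem_pick x₀))).contMDiffAt.comp x₀
          (contMDiffAt_of_mem_maximalAtlas (IsManifold.chart_mem_maximalAtlas x₀)
            (𝒜.mem_pick x₀))
      refine h1.congr_of_eventuallyEq ?_
      filter_upwards [(𝒜.φ (𝒜.pick x₀)).open_source.mem_nhds (𝒜.mem_pick x₀)] with z hz
      ext u v
      refine (hom_triv_apply (x₀ := x₀) hz _ u v).trans ?_
      exact (𝒜.isom (𝒜.pick x₀) (𝒜.pick z) z hz (𝒜.mem_pick z) u v).symm }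

theorem metricInChart_metric (x : M) {y : E n} (hy : y ∈ (𝒜.φ (𝒜.pick x)).target) :
    letI := 𝒜.charted; haveI := 𝒜.isManifold
    metricInChart 𝒜.metric x y = 𝒜.g (𝒜.pick x) y := by
  letI := 𝒜.charted
  haveI := 𝒜.isManifold
  obtain ⟨z, hz, rfl⟩ : ∃ z ∈ (𝒜.φ (𝒜.pick x)).source, 𝒜.φ (𝒜.pick x) z = y :=
    ⟨_, (𝒜.φ (𝒜.pick x)).map_target hy, (𝒜.φ (𝒜.pick x)).right_inv hy⟩
  ext i j
  refine (bil_single _ _ i j).symm.trans (Eq.trans ?_ (bil_single _ _ i j))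
  refine (bil_metricInChart' 𝒜.metric (x := x) hz _ _).trans ?_
  exact (𝒜.isom (𝒜.pick x) (𝒜.pick z) z hz (𝒜.mem_pick z) _ _).symm

theorem metricInChart_metric_eventuallyEq (x : M) :
    letI := 𝒜.charted; haveI := 𝒜.isManifold
    metricInChart 𝒜.metric x =ᶠ[𝓝 (𝒜.φ (𝒜.pick x) x)] 𝒜.g (𝒜.pick x) := by
  filter_upwards [(𝒜.φ (𝒜.pick x)).open_target.mem_nhds
    ((𝒜.φ (𝒜.pick x)).map_source (𝒜.mem_pick x))] with y hy
  exact 𝒜.metricInChart_metric x hy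

end RAtlas

theorem diff_of_contDiffAt {c : ℝ → E n} {t : ℝ} (h : ContDiffAt ℝ ∞ c t) :
    (∀ᶠ s in 𝓝 t, DifferentiableAt ℝ c s) ∧ DifferentiableAt ℝ (deriv c) t := by
  have h2 : ContDiffAt ℝ 2 c t := h.of_le (by norm_cast)
  refine ⟨(h2.eventually (by simp)).mono fun s hs => hs.differentiableAt (by simp), ?_⟩
  have h3 : ContDiffAt ℝ 1 (fderiv ℝ c) t := h2.fderiv_right (by norm_num)
  have h4 : ContDiffAt ℝ 1 (fun s => fderiv ℝ c s 1) t := h3.clm_apply contDiffAt_const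
  exact h4.differentiableAt (by simp)

/-- An oriented Riemannian atlas without conjugate points gives the Mathlib objects. -/
theorem RAtlas.realize (𝒜 : RAtlas n M) (ho : 𝒜.Oriented) (hc : 𝒜.NoConj) :
    ∃ (_ : ChartedSpace (E n) M) (_ : IsManifold 𝓘(ℝ, E n) ∞ M), IsOrientable n M ∧
      ∃ g : ContMDiffRiemannianMetric 𝓘(ℝ, E n) ∞ (E n) (fun x : M => TangentSpace 𝓘(ℝ, E n) x),
        NoConjugatePoints g := by
  letI := 𝒜.charted
  haveI := 𝒜.isManifold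
  refine ⟨𝒜.charted, 𝒜.isManifold, ⟨range 𝒜.φ, IsManifold.subset_maximalAtlas,
    fun x => ⟨_, ⟨𝒜.pick x, rfl⟩, 𝒜.mem_pick x⟩, ?_⟩, 𝒜.metric, ?_⟩
  · rintro _ ⟨i, rfl⟩ _ ⟨j, rfl⟩ x hx
    exact ho i j x hx.1 hx.2
  intro γ J hγ hJ a b hab ha hb t
  -- smoothness of the coordinate curve
  have hsm : ∀ t, ContDiffAt ℝ ∞ (𝒜.φ (𝒜.pick (γ t)) ∘ γ) t := fun t =>
    contMDiffAt_iff_contDiffAt.1
      ((contMDiffAt_of_mem_maximalAtlas (IsManifold.chart_mem_maximalAtlas (γ t))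
        (𝒜.mem_pick (γ t))).comp t (hγ.1 t))
  have hgeo' : ∀ t, GeoAt (metricInChart 𝒜.metric (γ t)) (𝒜.φ (𝒜.pick (γ t)) ∘ γ) t := fun t =>
    geoAt_of_geodesicEqAt (diff_of_contDiffAt (hsm t)).1 (diff_of_contDiffAt (hsm t)).2 (hγ.2 t)
  have hgeo : 𝒜.IsGeo γ := fun t =>
    𝒜.isGeoAt_of_chart (hγ.1 t).continuousAt (𝒜.mem_pick (γ t))
      ((hgeo' t).congr_metric (𝒜.metricInChart_metric_eventuallyEq (γ t)))
  set K : 𝒜.ι → ℝ → E n := fun i t =>
    fderiv ℝ (𝒜.φ i ∘ (𝒜.φ (𝒜.pick (γ t))).symm) (𝒜.φ (𝒜.pick (γ t)) (γ t)) (J t) with hK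
  have hfield : 𝒜.IsField γ K := fun i j t hi hj =>
    (𝒜.fderiv_cocycle (𝒜.mem_pick (γ t)) hi hj (J t)).symm
  have hKsm : ∀ t, ContDiffAt ℝ ∞ (K (𝒜.pick (γ t))) t := fun t => by
    have h1 := (contMDiffAt_totalSpace.1 (hJ.1 t)).2
    have h2 := contMDiffAt_iff_contDiffAt.1 h1
    refine h2.congr_of_eventuallyEq (Eventually.of_forall fun s => ?_)
    exact (triv_apply_eq (γ t) (γ s) (J s)).symm
  have hjac : 𝒜.IsJac γ K := by
    refine 𝒜.isJac_of_chart hgeo hfield fun t => ⟨𝒜.pick (γ t), 𝒜.mem_pick _, ?_⟩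
    have hev : (fun s => (mfderiv 𝓘(ℝ, E n) 𝓘(ℝ, E n) (chartAt (E n) (γ t)) (γ s) (J s) : E n))
        =ᶠ[𝓝 t] K (𝒜.pick (γ t)) := by
      have : ∀ᶠ s in 𝓝 t, γ s ∈ (𝒜.φ (𝒜.pick (γ t))).source :=
        (hγ.1 t).continuousAt.preimage_mem_nhds
          ((𝒜.φ (𝒜.pick (γ t))).open_source.mem_nhds (𝒜.mem_pick _))
      filter_upwards [this] with s hs
      exact mfderiv_atlas_eq (chart_mem_atlas (E n) (γ t)) hs (J s)
    have hsm' := diff_of_contDiffAt ((hKsm t).congr_of_eventuallyEq hev)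
    have hv := varAt_of_jacobiEqAt (isRiemannianOn_metricInChart 𝒜.metric (γ t))
      ((𝒜.φ _).map_source (𝒜.mem_pick (γ t))) (hgeo' t) hsm'.1 hsm'.2 (hJ.2 t)
    exact (hv.congr EventuallyEq.rfl hev).congr_metric
      (𝒜.metricInChart_metric_eventuallyEq (γ t))
  have hvan : ∀ s, J s = 0 → 𝒜.Van γ K s := fun s hs i _ => by
    simp only [hK, hs, map_zero]
  have := hc γ K hgeo hjac a b hab (hvan a ha) (hvan b hb) t _ (𝒜.mem_pick (γ t))
  exact (𝒜.fderiv_self (𝒜.mem_pick (γ t)) (J t)).symm.trans this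

end Crest.Agent.R244
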