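import Crest.Agent.R244.RelAux

/-! Row 244: relations in the deck group of the universal cover of the model. -/

set_option autoImplicit false
set_option maxSynthPendingDepth 3
open Set Filter Topology
open scoped ContDiff
open Crest.GeometryTopology.CoordMetric Crest.GeometryTopology.ChartCurvature
open Crest.GeometryTopology.Geodesic

noncomputable section
namespace Crest.Agent.R244

/-- Coordinates on `E 3`. -/
def v3 (p : ℝ × ℝ × ℝ) : E 3 := !₂[p.1, p.2.1, p.2.2]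

theorem continuous_v3 : Continuous v3 := by
  unfold v3
  fun_prop

theorem v3_add (a b c x y z : ℝ) :
    (!₂[a, b, c] : E 3) + !₂[x, y, z] = !₂[a + x, b + y, c + z] := by
  ext i
  fin_cases i <;> simp

theorem sq_le_of_lattice {A x : ℝ} (h0 : 0 ≤ x) (h1 : x ≤ A) (j : ℤ) :
    x ^ 2 ≤ (x - j * A) ^ 2 ∨ (A - x) ^ 2 ≤ (x - j * A) ^ 2 := by
  rcases le_or_gt j 0 with hj | hj
  · left
    have : (j : ℝ) ≤ 0 := by exact_mod_cast hj
    have : 0 ≤ -(j * A) := by nlinarith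
    nlinarith
  · right
    have : (1 : ℝ) ≤ j := by exact_mod_cast hj
    have : A ≤ j * A := by nlinarith
    nlinarith

theorem v3_mem_WF (P : Profile) {ρ r : ℝ} (hρ : 0 < ρ) (hr : 2 * ρ ≤ r) {p : ℝ × ℝ × ℝ}
    (hp : p ∈ octa P.A r) : v3 p ∈ P.WF ρ := by
  obtain ⟨x, y, z⟩ := p
  obtain ⟨h1, h2, h3, h4, h5, h6, h7, h8⟩ := hp
  simp only at h1 h2 h3 h4 h5 h6 h7 h8
  intro j k
  have key : ∀ a b : ℝ, r ≤ a + b → ρ ^ 2 < a ^ 2 + b ^ 2 := fun a b hab => by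
    nlinarith [sq_nonneg (a - b), mul_pos hρ hρ]
  have e0 : v3 (x, y, z) 0 = x := by simp [v3]
  have e1 : v3 (x, y, z) 1 = y := by simp [v3]
  rw [e0, e1]
  rcases sq_le_of_lattice h1 h2 j with a | a <;> rcases sq_le_of_lattice h3 h4 k with b | b
  · linarith [key x y h5]
  · linarith [key x (P.A - y) (by linarith)]
  · linarith [key (P.A - x) y h6]
  · linarith [key (P.A - x) (P.A - y) (by linarith)]

/-- `side_relations` for a lattice-periodic map on `WF ρ`. -/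
theorem side_relations' (P : Profile) {M : Type} [TopologicalSpace M] {π : E 3 → M}
    (hπ : IsCoveringMap π) {ρ r ℓ : ℝ} (hρ : 0 < ρ) (hr : 2 * ρ ≤ r) (hA : 2 * r ≤ P.A)
    {Ψ : E 3 → M} (hΨ : ContinuousOn Ψ (P.WF ρ))
    (per : ∀ y ∈ P.WF ρ, ∀ j k l : ℤ, Ψ (y + !₂[j * P.A, k * P.A, l * ℓ]) = Ψ y)
    {c : ℝ × ℝ → E 3} (hc : Continuous c)
    (arc : ∀ θ z, π (c (θ, z)) = Ψ !₂[r * Real.cos θ, r * Real.sin θ, z])
    {g h : deck π} (hg : c (2 * Real.pi, 0) = g • c (0, 0))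
    (hh : ∀ θ, c (θ, ℓ) = h • c (θ, 0)) :
    (∃ a b : deck π, Commute h a ∧ Commute h b ∧ g = a * b * a⁻¹ * b⁻¹) ∧
      ∃ γ : ℝ → E 3, Continuous γ ∧ (∀ t, π (γ t) = Ψ !₂[P.A / 2, P.A / 2, t]) ∧
        γ ℓ = h • γ 0 := by
  have hW : ∀ p ∈ octa P.A r, v3 p ∈ P.WF ρ := fun p hp => v3_mem_WF P hρ hr hp
  refine side_relations hπ (A := P.A) (r := r) (ℓ := ℓ) (Φ := fun p => Ψ (v3 p)) (by linarith) hA
    (hΨ.comp continuous_v3.continuousOn hW) ?_ ?_ ?_ hc ?_ hg hh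
  · intro x y z hp
    have := per _ (hW _ hp) 0 0 1
    simp only [v3, v3_add] at this ⊢
    simpa using this
  · intro t h1 h2
    have hp : ((0, t, 0) : ℝ × ℝ × ℝ) ∈ octa P.A r := by
      simp only [octa, mem_ofPred_eq]
      refine ⟨?_, ?_, ?_, ?_, ?_, ?_, ?_, ?_⟩ <;> linarith
    have := per _ (hW _ hp) 1 0 0
    simp only [v3, v3_add] at this ⊢
    simpa using this
  · intro t h1 h2
    have hp : ((t, 0, 0) : ℝ × ℝ × ℝ) ∈ octa P.A r := by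
      simp only [octa, mem_ofPred_eq]
      refine ⟨?_, ?_, ?_, ?_, ?_, ?_, ?_, ?_⟩ <;> linarith
    have := per _ (hW _ hp) 0 1 0
    simp only [v3, v3_add] at this ⊢
    simpa using this
  · intro θ z j k hp
    have := per _ (hW _ hp) (-j) (-k) 0
    simp only [v3, v3_add] at this ⊢
    rw [arc, ← this]
    congr 1
    simp

theorem Model.exists_relations {P : Profile} {M : Type} [TopologicalSpace M] (𝓜 : Model P M)
    {π : E 3 → M} (hπ : IsCoveringMap π) (hsurj : Function.Surjective π)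
    {π₀ : E 3 → M} (hπ₀ : IsCoveringMap π₀) {w : E 3} (hw : w ≠ 0)
    (hgeo : ∀ t : ℝ, π₀ (t • w) = 𝓜.ΨR !₂[P.A / 2, P.A / 2, t]) :
    ∃ f₁ f₂ a₁ b₁ a₂ b₂ : deck π, Commute f₁ f₂ ∧ Commute f₁ a₁ ∧ Commute f₁ b₁ ∧
      Commute f₂ a₂ ∧ Commute f₂ b₂ ∧ f₂ = a₁ * b₁ * a₁⁻¹ * b₁⁻¹ ∧
      f₁ * f₂ = a₂ * b₂ * a₂⁻¹ * b₂⁻¹ ∧ f₂ ≠ 1 := by
  have hα := P.α_pos
  have hβ := P.β_pos
  have hL := P.rL_pos
  have hR := P.rR_pos
  have hS := P.S_ge
  have hT : P.T = P.S + (P.rL + P.S) + (P.rR + P.S) + 1 := rfl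
  have hA : P.A = 4 * ((P.rL + P.S) + (P.rR + P.S) + 1) := rfl
  have hl2 : 2 * Real.pi / P.α = P.l2 := rfl
  have hl1 : 2 * Real.pi / P.β = P.l1 := rfl
  have hεl : P.ε * P.l1 = P.l2 := by
    rw [← hl1, ← hl2, ← P.ε_mul]
    have : P.ε ≠ 0 := by
      intro h
      have := P.ε_mul
      rw [h, zero_mul] at this
      linarith
    field_simp
  -- the neck domain in coordinates
  set K : Set (ℝ × ℝ × ℝ) := Ioo (-P.T) P.T ×ˢ univ with hK
  have hKc : Convex ℝ K := (convex_Ioo _ _).prod convex_univ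
  have hKW : ∀ p ∈ K, v3 p ∈ P.WN := fun p hp => by
    have : v3 p 0 = p.1 := by simp [v3]
    simp only [Profile.WN, mem_ofPred_eq, this]
    exact abs_lt.2 hp.1
  have h0 : ((0, 0, 0) : ℝ × ℝ × ℝ) ∈ K := ⟨⟨by simp only; linarith, by simp only; linarith⟩, trivial⟩
  obtain ⟨e₀, he₀⟩ := hsurj (𝓜.ΨN (v3 (0, 0, 0)))
  obtain ⟨N, hN, -, hπN⟩ := lift_convex hπ hKc (Ψ := fun p => 𝓜.ΨN (v3 p))
    (𝓜.contN.comp continuous_v3.continuousOn hKW) h0 he₀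
  obtain ⟨f₁, hf₁⟩ := deck_pair hπ hKc.isPreconnected h0 (a := N)
    (b := fun p => N (p.1, p.2.1 + P.l1, p.2.2)) hN
    (hN.comp (by fun_prop) fun p hp => ⟨hp.1, trivial⟩)
    (fun p hp => by
      rw [hπN _ hp, hπN (p.1, p.2.1 + P.l1, p.2.2) ⟨hp.1, trivial⟩]
      have := 𝓜.perN _ (hKW _ hp) 1 0
      simp only [v3, v3_add] at this ⊢
      simpa using this.symm)
  obtain ⟨f₂, hf₂⟩ := deck_pair hπ hKc.isPreconnected h0 (a := N)
    (b := fun p => N (p.1, p.2.1, p.2.2 + P.l2)) hN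
    (hN.comp (by fun_prop) fun p hp => ⟨hp.1, trivial⟩)
    (fun p hp => by
      rw [hπN _ hp, hπN (p.1, p.2.1, p.2.2 + P.l2) ⟨hp.1, trivial⟩]
      have := 𝓜.perN _ (hKW _ hp) 0 1
      simp only [v3, v3_add] at this ⊢
      simpa using this.symm)
  have k₁ : ∀ s x y, -P.T < s → s < P.T → N (s, x + P.l1, y) = f₁ • N (s, x, y) :=
    fun s x y h1 h2 => hf₁ (s, x, y) ⟨⟨h1, h2⟩, trivial⟩
  have k₂ : ∀ s x y, -P.T < s → s < P.T → N (s, x, y + P.l2) = f₂ • N (s, x, y) :=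
    fun s x y h1 h2 => hf₂ (s, x, y) ⟨⟨h1, h2⟩, trivial⟩
  have hT0 : -P.T < 0 := by linarith
  have hT1 : 0 < P.T := by linarith
  have h12 : Commute f₁ f₂ := deck_ext hπ (x := N (0, 0, 0)) (by
    rw [mul_smul, mul_smul, ← k₂ 0 0 0 hT0 hT1, ← k₁ 0 0 0 hT0 hT1, ← k₁ _ _ _ hT0 hT1,
      ← k₂ _ _ _ hT0 hT1])
  -- left side
  have sL1 : -P.T < -P.T + 1 / 2 := by linarith
  have sL2 : -P.T + 1 / 2 < P.T := by linarith
  obtain ⟨⟨a₁, b₁, ha₁, hb₁, r₁⟩, -⟩ := side_relations' P hπ (ρ := P.rL + P.S)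
    (r := P.rL - (-P.T + 1 / 2)) (ℓ := P.l1) hL (by linarith) (by linarith) 𝓜.contL 𝓜.perL
    (c := fun q => N (-P.T + 1 / 2, q.2, q.1 / P.α))
    (hN.comp_continuous (by fun_prop) fun q => ⟨⟨sL1, sL2⟩, trivial⟩)
    (fun θ z => by
      have hm : ((-P.T + 1 / 2, z, θ / P.α) : ℝ × ℝ × ℝ) ∈ K := ⟨⟨sL1, sL2⟩, trivial⟩
      rw [hπN _ hm, 𝓜.glueL _ (hKW _ hm) (by simp only [v3]; simp; linarith)]
      congr 1
      have : P.α * (θ / P.α) = θ := by field_simp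
      simp [Profile.τL, v3, this])
    (g := f₂) (h := f₁)
    (by simpa [hl2] using k₂ _ 0 0 sL1 sL2)
    (fun θ => by simpa using k₁ _ 0 (θ / P.α) sL1 sL2)
  -- right side
  have sR1 : -P.T < P.T - 1 / 2 := by linarith
  have sR2 : P.T - 1 / 2 < P.T := by linarith
  obtain ⟨⟨a₂, b₂, ha₂, hb₂, r₂⟩, γ, hγ, hπγ, hγl⟩ := side_relations' P hπ (ρ := P.rR + P.S)
    (r := P.rR + (P.T - 1 / 2)) (ℓ := P.l2) hR (by linarith) (by linarith) 𝓜.contR 𝓜.perR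
    (c := fun q => N (P.T - 1 / 2, q.1 / P.β, q.2 + P.ε * (q.1 / P.β)))
    (hN.comp_continuous (by fun_prop) fun q => ⟨⟨sR1, sR2⟩, trivial⟩)
    (fun θ z => by
      have hm : ((P.T - 1 / 2, θ / P.β, z + P.ε * (θ / P.β)) : ℝ × ℝ × ℝ) ∈ K :=
        ⟨⟨sR1, sR2⟩, trivial⟩
      rw [hπN _ hm, 𝓜.glueR _ (hKW _ hm) (by simp only [v3]; simp; linarith)]
      congr 1
      have : P.β * (θ / P.β) = θ := by field_simp
      simp [Profile.τR, v3, this])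
    (g := f₁ * f₂) (h := f₂)
    (by
      have e1 := k₁ _ 0 (0 + P.l2) sR1 sR2
      rw [k₂ _ 0 0 sR1 sR2, ← mul_smul] at e1
      simpa [hl1, hεl] using e1)
    (fun θ => by
      have := k₂ _ (θ / P.β) (P.ε * (θ / P.β)) sR1 sR2
      simpa [add_comm] using this)
  refine ⟨f₁, f₂, a₁, b₁, a₂, b₂, h12, ha₁, hb₁, ha₂, hb₂, r₁, r₂, fun h1 => ?_⟩
  obtain ⟨Λ, hΛ, hΛ0, hπΛ⟩ := lift_convex hπ₀ (K := (univ : Set (E 3))) convex_univ (Ψ := π)
    hπ.continuous.continuousOn (y₀ := γ 0) trivial (e₀ := 0)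
    (by rw [hπγ, ← hgeo, zero_smul])
  have hΛc : Continuous Λ := continuousOn_univ.1 hΛ
  have heq := hπ₀.eq_of_comp_eq (g₁ := fun t => Λ (γ t)) (g₂ := fun t : ℝ => t • w)
    (hΛc.comp hγ) (by fun_prop)
    (by funext t; simp only [Function.comp_apply]; rw [hπΛ _ trivial, hπγ, hgeo]) 0
    (by simpa using hΛ0)
  have h2 := congrFun heq P.l2
  simp only [hγl, h1, one_smul, hΛ0] at h2
  have hl : P.l2 ≠ 0 := by
    rw [← hl2]
    have := Real.pi_pos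
    positivity
  exact hw ((smul_eq_zero.1 h2.symm).resolve_left hl)

end Crest.Agent.R244
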