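import Crest.Agent.R244.Exp
import Crest.Agent.R244.ExpProps
import Crest.Agent.R244.CN
import Crest.Agent.R244.Cat0
import Crest.Agent.R244.Rel
import Crest.Agent.R244.ModelEx
import Crest.Agent.R244.ProfileEx
import Crest.Agent.R244.NeckBridge
import Crest.Agent.R244.Realize

/-! Row 244: assembly. -/

set_option autoImplicit false
set_option maxSynthPendingDepth 3
open Set Filter Topology
open scoped ContDiff
open Crest.GeometryTopology.CoordMetric Crest.GeometryTopology.ChartCurvature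
open Crest.GeometryTopology.Geodesic

noncomputable section
namespace Crest.Agent.R244

open Bundle
open scoped Manifold

theorem Model.not_npc {P : Profile} {M : Type} [TopologicalSpace M] [T2Space M] [CompactSpace M]
    [ConnectedSpace M] (𝓜 : Model P M) (𝒜 : RAtlas 3 M) : ¬ 𝒜.NPC := by
  intro h
  obtain ⟨X⟩ := exists_expData 𝒜
  obtain ⟨Y⟩ := X.nonempty_npcExp h
  obtain ⟨X₀⟩ := exists_expData 𝓜.𝒜
  obtain ⟨w, hw⟩ := X₀.surj _ 𝓜.isGeo_fibre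
  have hw0 : w ≠ 0 := by
    rintro rfl
    obtain ⟨t, ht⟩ := 𝓜.fibre_not_const
    apply ht
    rw [hw t, smul_zero, X₀.zero]
  set p : M := 𝓜.ΨR !₂[P.A / 2, P.A / 2, 0] with hp
  obtain ⟨d, hd, iso, ss⟩ := Y.exists_cn p
  obtain ⟨f₁, f₂, a₁, b₁, a₂, b₂, h₁₂, ha₁, hb₁, ha₂, hb₂, r₁, r₂, hne⟩ :=
    𝓜.exists_relations (Y.cover p) (Y.surj p) (X₀.isCoveringMap_of_noConj 𝓜.noConj p) hw0
      fun t => (hw t).symm
  obtain ⟨x, hx⟩ := hd.exists_fixed iso ss h₁₂ ha₁ hb₁ ha₂ hb₂ r₁ r₂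
  exact hne (deck_free (Y.cover p) hx)

theorem main :
    ∃ (M : Type) (_ : TopologicalSpace M) (_ : ChartedSpace (EuclideanSpace ℝ (Fin 3)) M)
      (_ : IsManifold 𝓘(ℝ, EuclideanSpace ℝ (Fin 3)) ∞ M),
      T2Space M ∧ SecondCountableTopology M ∧ CompactSpace M ∧ ConnectedSpace M ∧
      IsOrientable 3 M ∧
      (∃ g : ContMDiffRiemannianMetric 𝓘(ℝ, EuclideanSpace ℝ (Fin 3)) ∞ (EuclideanSpace ℝ (Fin 3))
          (fun x : M => TangentSpace 𝓘(ℝ, EuclideanSpace ℝ (Fin 3)) x), NoConjugatePoints g) ∧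
      ∀ g : ContMDiffRiemannianMetric 𝓘(ℝ, EuclideanSpace ℝ (Fin 3)) ∞ (EuclideanSpace ℝ (Fin 3))
          (fun x : M => TangentSpace 𝓘(ℝ, EuclideanSpace ℝ (Fin 3)) x),
        ¬ HasNonposSectionalCurvature g := by
  obtain ⟨P⟩ := exists_profile
  obtain ⟨M, _, h2, hsc, hc, hconn, ⟨𝓜⟩⟩ := exists_model P
  obtain ⟨cs, hm, hor, hg⟩ := 𝓜.𝒜.realize 𝓜.oriented 𝓜.noConj
  refine ⟨M, inferInstance, cs, hm, h2, hsc, hc, hconn, hor, hg, fun g hg' => ?_⟩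
  obtain ⟨𝒜, h𝒜⟩ := exists_ratlas_of_npc g hg'
  exact 𝓜.not_npc 𝒜 h𝒜

end Crest.Agent.R244
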