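import Crest.Agent.R244.Glue
import Crest.Agent.R244.NeckMetric

/-! Row 244: circles, cylindrical coordinates and the two sides of the neck. -/

set_option autoImplicit false
set_option maxSynthPendingDepth 3
open Set Filter Topology
open scoped ContDiff
open Crest.GeometryTopology.CoordMetric

noncomputable section
namespace Crest.Agent.R244.MX

theorem coe_eq_iff {p x y : ℝ} : (x : AddCircle p) = y ↔ ∃ k : ℤ, x = y + k * p := by
  simp only [QuotientAddGroup.eq_iff_sub_mem, AddSubgroup.mem_zmultiples_iff, zsmul_eq_mul]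
  exact exists_congr fun k => ⟨fun h => by linarith, fun h => by linarith⟩

theorem eq_of_coe_eq {p x y : ℝ} (h : (x : AddCircle p) = y) (hp : |x - y| < p) : x = y := by
  obtain ⟨k, rfl⟩ := coe_eq_iff.1 h
  have h0 : 0 < p := (abs_nonneg _).trans_lt hp
  rw [add_sub_cancel_left, abs_mul, abs_of_pos h0, mul_lt_iff_lt_one_left h0, ← Int.cast_abs,
    ← Int.cast_one, Int.cast_lt, Int.abs_lt_one_iff] at hp
  simp [hp]

theorem exists_small {p : ℝ} (hp : 0 < p) (x : ℝ) : ∃ y, |y| ≤ p / 2 ∧ (y : AddCircle p) = x :=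
  ⟨x - round (p⁻¹ * x) * p, by
    rw [← AddCircle.norm_eq]
    simpa [abs_of_pos hp] using AddCircle.norm_le_half_period p hp.ne',
    coe_eq_iff.2 ⟨-round (p⁻¹ * x), by push_cast; ring⟩⟩

theorem norm_coe_le (p x : ℝ) (k : ℤ) : ‖(x : AddCircle p)‖ ^ 2 ≤ (x - k * p) ^ 2 := by
  rw [coe_eq_iff.2 ⟨k, (sub_add_cancel x _).symm⟩, ← sq_abs, ← sq_abs (x - _), abs_norm]
  exact pow_le_pow_left₀ (norm_nonneg _) QuotientAddGroup.norm_mk_le_norm 2

theorem continuous_coe (p : ℝ) (i : Fin 3) : Continuous fun y : E 3 => (y i : AddCircle p) :=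
  (AddCircle.continuous_mk' p).comp (by fun_prop)

theorem norm_le3 (w : E 3) : ‖w‖ ≤ |w 0| + |w 1| + |w 2| := by
  rw [EuclideanSpace.norm_eq, Fin.sum_univ_three, Real.sqrt_le_left (by positivity)]
  simp only [Real.norm_eq_abs]
  nlinarith [abs_nonneg (w 0), abs_nonneg (w 1), abs_nonneg (w 2)]

theorem det3 (f : E 3 →L[ℝ] E 3) : LinearMap.det (f : E 3 →ₗ[ℝ] E 3) =
    (Matrix.of fun i j => f (EuclideanSpace.single j 1) i).det := by
  rw [← LinearMap.det_toMatrix (EuclideanSpace.basisFun (Fin 3) ℝ).toBasis]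
  congr 1

/-- Cylindrical coordinates. -/
def pol (r θ z : ℝ) : E 3 := !₂[r * Real.cos θ, r * Real.sin θ, z]

/-- The projection to the flat torus. -/
def qF (A ℓ : ℝ) (w : E 3) : AddCircle A × AddCircle A × AddCircle ℓ := (w 0, w 1, w 2)

/-- The projection of the neck. -/
def qN (P : Profile) (y : E 3) : ℝ × AddCircle P.l1 × AddCircle P.l2 := (y 0, y 1, y 2)

/-- The squared distance to the vertical circle through the origin. -/
def δ {A ℓ : ℝ} (t : AddCircle A × AddCircle A × AddCircle ℓ) : ℝ := ‖t.1‖ ^ 2 + ‖t.2.1‖ ^ 2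

theorem continuous_qF (A ℓ : ℝ) : Continuous (qF A ℓ) :=
  (continuous_coe _ _).prodMk ((continuous_coe _ _).prodMk (continuous_coe _ _))

theorem continuous_qN (P : Profile) : Continuous (qN P) :=
  Continuous.prodMk (by fun_prop) ((continuous_coe _ _).prodMk (continuous_coe _ _))

theorem continuous_δ {A ℓ : ℝ} : Continuous (δ (A := A) (ℓ := ℓ)) := by
  unfold δ
  fun_prop

theorem qF_add_sub {A ℓ : ℝ} {y z : E 3} (h : qF A ℓ y = qF A ℓ z) (x : E 3) :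
    qF A ℓ (x + (z - y)) = qF A ℓ x := by
  simp only [qF, Prod.mk.injEq] at h
  simp [qF, h.1, h.2.1, h.2.2]

theorem qN_add_sub {P : Profile} {y z : E 3} (h : qN P y = qN P z) (x : E 3) :
    qN P (x + (z - y)) = qN P x := by
  simp only [qN, Prod.mk.injEq] at h
  simp [qN, h.1, h.2.1, h.2.2]

theorem mem_WF {P : Profile} {ρ : ℝ} (ℓ : ℝ) {w : E 3} : w ∈ P.WF ρ ↔ ρ ^ 2 < δ (qF P.A ℓ w) := by
  refine ⟨fun h => ?_, fun h j k => h.trans_le (add_le_add (norm_coe_le _ _ j) (norm_coe_le _ _ k))⟩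
  simpa only [δ, qF, AddCircle.norm_eq, sq_abs] using h _ _

theorem isOpen_WF (P : Profile) (ρ : ℝ) : IsOpen (P.WF ρ) := by
  rw [show P.WF ρ = _ from Set.ext fun _ => mem_WF 0]
  exact isOpen_lt continuous_const (continuous_δ.comp (continuous_qF _ _))

theorem isOpen_WN (P : Profile) : IsOpen P.WN := isOpen_lt (by fun_prop) continuous_const

theorem δ_pol {A ℓ r θ z : ℝ} (hA : 0 < A) (h1 : |r * Real.cos θ| ≤ A / 2)
    (h2 : |r * Real.sin θ| ≤ A / 2) : δ (qF A ℓ (pol r θ z)) = r ^ 2 := by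
  rw [← abs_of_pos hA, ← AddCircle.norm_coe_eq_abs_iff _ hA.ne'] at h1 h2
  simp only [δ, qF, pol, PiLp.toLp_apply, Matrix.cons_val_zero, Matrix.cons_val_one, h1, h2, sq_abs]
  linear_combination r ^ 2 * Real.cos_sq_add_sin_sq θ

theorem abs_mul_cos_le {r : ℝ} (hr : 0 ≤ r) (θ : ℝ) : |r * Real.cos θ| ≤ r := by
  rw [abs_mul, abs_of_nonneg hr]
  exact mul_le_of_le_one_right hr (Real.abs_cos_le_one θ)

theorem abs_mul_sin_le {r : ℝ} (hr : 0 ≤ r) (θ : ℝ) : |r * Real.sin θ| ≤ r := by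
  rw [abs_mul, abs_of_nonneg hr]
  exact mul_le_of_le_one_right hr (Real.abs_sin_le_one θ)

theorem qF_pol_iff {A ℓ r r' θ θ' z z' : ℝ} (hr : 0 < r) (hr' : 0 < r') (h : r < A / 2)
    (h' : r' < A / 2) : qF A ℓ (pol r θ z) = qF A ℓ (pol r' θ' z') ↔
      r = r' ∧ (θ : Real.Angle) = θ' ∧ (z : AddCircle ℓ) = z' := by
  simp only [qF, pol, PiLp.toLp_apply, Matrix.cons_val_zero, Matrix.cons_val_one, Matrix.cons_val,
    Prod.mk.injEq]
  refine ⟨fun ⟨h1, h2, h3⟩ => ?_, ?_⟩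
  · have h4 := eq_of_coe_eq h1 ((abs_sub _ _).trans_lt (by
      linarith [abs_mul_cos_le hr.le θ, abs_mul_cos_le hr'.le θ']))
    have h5 := eq_of_coe_eq h2 ((abs_sub _ _).trans_lt (by
      linarith [abs_mul_sin_le hr.le θ, abs_mul_sin_le hr'.le θ']))
    obtain rfl : r = r' := (sq_eq_sq₀ hr.le hr'.le).1 (by
      linear_combination (r * Real.cos θ + r' * Real.cos θ') * h4 +
        (r * Real.sin θ + r' * Real.sin θ') * h5 - r ^ 2 * Real.cos_sq_add_sin_sq θ +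
        r' ^ 2 * Real.cos_sq_add_sin_sq θ')
    exact ⟨rfl, Real.Angle.cos_sin_inj (mul_left_cancel₀ hr.ne' h4) (mul_left_cancel₀ hr.ne' h5), h3⟩
  · rintro ⟨rfl, h2, h3⟩
    rw [← Real.Angle.cos_coe θ, ← Real.Angle.sin_coe θ, h2]
    exact ⟨rfl, rfl, h3⟩

theorem exists_pol {A ℓ : ℝ} (hA : 0 < A) (hℓ : 0 < ℓ) (w : E 3) : ∃ r θ z, 0 ≤ r ∧
    |r * Real.cos θ| ≤ A / 2 ∧ |r * Real.sin θ| ≤ A / 2 ∧ |z| ≤ ℓ / 2 ∧
      qF A ℓ (pol r θ z) = qF A ℓ w := by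
  obtain ⟨x, hx, hx'⟩ := exists_small hA (w 0)
  obtain ⟨y, hy, hy'⟩ := exists_small hA (w 1)
  obtain ⟨z, hz, hz'⟩ := exists_small hℓ (w 2)
  refine ⟨‖(⟨x, y⟩ : ℂ)‖, Complex.arg ⟨x, y⟩, z, norm_nonneg _, ?_⟩
  simp [qF, pol, Complex.norm_mul_cos_arg, Complex.norm_mul_sin_arg, *]

/-- One end of the neck. -/
structure Side (P : Profile) where
  ρ : ℝ
  ℓ : ℝ
  a : E 3 →L[ℝ] ℝ
  b : E 3 →L[ℝ] ℝ
  c : E 3 →L[ℝ] ℝ
  ρ_pos : 0 < ρ
  ℓ_pos : 0 < ℓ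
  ρ_lt : ρ + (P.T - P.S) ≤ P.A / 2
  abs_a : ∀ y, |a y| = |y 0|
  lat : ∀ y y', qN P y = qN P y' ↔
    a y = a y' ∧ (b y : Real.Angle) = b y' ∧ (c y : AddCircle ℓ) = c y'
  surj : ∀ s θ z, ∃ y, a y = s ∧ b y = θ ∧ c y = z
  iso : ∀ y, P.S < a y → ∀ u v, bil P.gN y u v =
    a u * a v + (ρ + (a y - P.S)) ^ 2 * (b u * b v) + c u * c v
  det : 0 < (Matrix.of fun i j => ![a, b, c] i (EuclideanSpace.single j 1)).det

variable {P : Profile}

theorem T_sub_S (P : Profile) : 1 < P.T - P.S := by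
  unfold Profile.T
  linarith [P.rL_pos, P.rR_pos]

theorem A_pos (P : Profile) : 0 < P.A := by
  unfold Profile.A
  linarith [P.rL_pos, P.rR_pos]

theorem l1_pos (P : Profile) : 0 < P.l1 := div_pos Real.two_pi_pos P.β_pos

theorem l2_pos (P : Profile) : 0 < P.l2 := div_pos Real.two_pi_pos P.α_pos

namespace Side

variable (D : Side P)

/-- The gluing map. -/
def τ (y : E 3) : E 3 := pol (D.ρ + (D.a y - P.S)) (D.b y) (D.c y)

/-- The projection to the torus. -/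
def q (w : E 3) : AddCircle P.A × AddCircle P.A × AddCircle D.ℓ := qF P.A D.ℓ w

theorem contDiff_τ : ContDiff ℝ ∞ D.τ := by
  refine contDiff_euclidean.2 fun i => ?_
  fin_cases i <;> simp [τ, pol] <;> fun_prop

theorem fderiv_τ (y u : E 3) : fderiv ℝ D.τ y u =
    !₂[D.a u * Real.cos (D.b y) - (D.ρ + (D.a y - P.S)) * Real.sin (D.b y) * D.b u,
      D.a u * Real.sin (D.b y) + (D.ρ + (D.a y - P.S)) * Real.cos (D.b y) * D.b u, D.c u] := by
  have key : ∀ (i : Fin 3) (L : E 3 →L[ℝ] ℝ), HasFDerivAt (fun y => D.τ y i) L y →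
      fderiv ℝ D.τ y u i = L u := fun i L h =>
    congrArg (· u) (((EuclideanSpace.proj (𝕜 := ℝ) i : E 3 →L[ℝ] ℝ).hasFDerivAt.comp y
      (D.contDiff_τ.differentiable (by simp) y).hasFDerivAt).unique h)
  have h0 := ((D.a.hasFDerivAt (x := y)).sub_const P.S).const_add D.ρ
  ext i
  fin_cases i
  · exact (key 0 _ (h0.mul D.b.hasFDerivAt.cos)).trans (by simp; ring)
  · exact (key 1 _ (h0.mul D.b.hasFDerivAt.sin)).trans (by simp; ring)
  · exact key 2 _ D.c.hasFDerivAt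

theorem iso_τ {y : E 3} (hy : P.S < D.a y) (z u v : E 3) : bil P.gN y u v =
    bil (fun _ => 1) z (fderiv ℝ D.τ y u) (fderiv ℝ D.τ y v) := by
  rw [D.iso y hy, bil_one, fderiv_τ, fderiv_τ]
  simp [PiLp.inner_apply, Fin.sum_univ_three]
  linear_combination -(D.a u * D.a v + (D.ρ + (D.a y - P.S)) ^ 2 * (D.b u * D.b v)) *
    Real.cos_sq_add_sin_sq (D.b y)

theorem det_τ {y : E 3} (hy : P.S < D.a y) :
    0 < LinearMap.det (fderiv ℝ D.τ y : E 3 →ₗ[ℝ] E 3) := by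
  refine (mul_pos (add_pos D.ρ_pos (sub_pos.2 hy)) D.det).trans_eq ?_
  rw [det3, Matrix.det_fin_three, Matrix.det_fin_three]
  simp only [Matrix.of_apply, fderiv_τ, PiLp.toLp_apply, Matrix.cons_val_zero, Matrix.cons_val_one,
    Matrix.cons_val]
  generalize EuclideanSpace.single (0 : Fin 3) (1 : ℝ) = u
  generalize EuclideanSpace.single (1 : Fin 3) (1 : ℝ) = v
  generalize EuclideanSpace.single (2 : Fin 3) (1 : ℝ) = w
  linear_combination -(D.ρ + (D.a y - P.S)) * (D.a u * D.b v * D.c w - D.a u * D.b w * D.c v -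
    D.a v * D.b u * D.c w + D.a v * D.b w * D.c u + D.a w * D.b u * D.c v -
    D.a w * D.b v * D.c u) * Real.cos_sq_add_sin_sq (D.b y)

variable {D} {y y' w : E 3}

theorem mem_WN (h : P.S ≤ D.a y) : y ∈ P.WN ↔ D.a y < P.T := by
  rw [Profile.WN, mem_ofPred_eq, ← D.abs_a, abs_of_nonneg (by linarith [P.S_ge])]

theorem mem_W : w ∈ P.WF D.ρ ↔ D.ρ ^ 2 < δ (D.q w) := mem_WF _

theorem δ_τ (hy : y ∈ P.WN) (h : P.S ≤ D.a y) : δ (D.q (D.τ y)) = (D.ρ + (D.a y - P.S)) ^ 2 := by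
  have h1 := (mem_WN h).1 hy
  have h2 : 0 ≤ D.ρ + (D.a y - P.S) := by linarith [D.ρ_pos]
  exact δ_pol (A_pos P) ((abs_mul_cos_le h2 _).trans (by linarith [D.ρ_lt]))
    ((abs_mul_sin_le h2 _).trans (by linarith [D.ρ_lt]))

theorem τ_mem (hy : y ∈ P.WN) (h : P.S < D.a y) : D.τ y ∈ P.WF D.ρ := by
  rw [mem_W, δ_τ hy h.le]
  exact pow_lt_pow_left₀ (by linarith) D.ρ_pos.le two_ne_zero

theorem key (hy : y ∈ P.WN) (hy' : y' ∈ P.WN) (h : P.S < D.a y) :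
    qN P y = qN P y' ↔ P.S < D.a y' ∧ D.q (D.τ y) = D.q (D.τ y') := by
  have h1 : P.S < D.a y' → (qN P y = qN P y' ↔ D.q (D.τ y) = D.q (D.τ y')) := fun h' => by
    rw [D.lat, q, q, τ, τ, qF_pol_iff (by linarith [D.ρ_pos]) (by linarith [D.ρ_pos])
      (by linarith [D.ρ_lt, (mem_WN h.le).1 hy]) (by linarith [D.ρ_lt, (mem_WN h'.le).1 hy']),
      add_right_inj, sub_left_inj]
  refine ⟨fun h2 => ?_, fun h2 => (h1 h2.1).2 h2.2⟩
  have h3 := ((D.lat _ _).1 h2).1 ▸ h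
  exact ⟨h3, (h1 h3).1 h2⟩

theorem exists_τ (D : Side P) (r θ z : ℝ) : ∃ y, D.a y = P.S + (r - D.ρ) ∧ D.τ y = pol r θ z := by
  obtain ⟨y, h1, h2, h3⟩ := D.surj (P.S + (r - D.ρ)) θ z
  exact ⟨y, h1, by rw [τ, h1, h2, h3]; congr 1; ring⟩

variable {M : Type} [TopologicalSpace M] {ΨF ΨN : E 3 → M} (hc : ContinuousOn ΨF (P.WF D.ρ))
  (hp : ∀ w ∈ P.WF D.ρ, ∀ w' ∈ P.WF D.ρ, D.q w = D.q w' → ΨF w = ΨF w')
  (hg : ∀ y ∈ P.WN, P.S < D.a y → ΨN y = ΨF (D.τ y))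

include hc hp hg

theorem exists_compact : ∃ K, IsCompact K ∧
    (∀ w ∈ P.WF D.ρ, ΨF w ∈ K ∨ ∃ y ∈ P.WN, |y 0| ≤ P.S + 1 ∧ ΨN y = ΨF w) ∧
      ∀ y ∈ P.WN, P.S + 1 ≤ D.a y → ΨN y ∈ K := by
  have hρ := D.ρ_pos
  have h0 : ∀ w, (D.ρ + 1) ^ 2 ≤ δ (D.q w) → w ∈ P.WF D.ρ := fun w hw =>
    mem_W.2 (lt_of_lt_of_le (by nlinarith) hw)
  have h1 : ∀ w, (D.ρ + 1) ^ 2 ≤ δ (D.q w) → ΨF w ∈ ΨF '' (Metric.closedBall 0 (P.A + D.ℓ / 2) ∩
      {w | (D.ρ + 1) ^ 2 ≤ δ (D.q w)}) := fun w hw => by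
    obtain ⟨r, θ, z, -, h1, h2, h3, h4⟩ := exists_pol (A_pos P) D.ℓ_pos w
    have h5 : (D.ρ + 1) ^ 2 ≤ δ (D.q (pol r θ z)) := hw.trans_eq (congrArg δ h4.symm)
    refine ⟨_, ⟨mem_closedBall_zero_iff.2 ((norm_le3 _).trans ?_), h5⟩,
      hp _ (h0 _ h5) _ (h0 _ hw) h4⟩
    simp only [pol, PiLp.toLp_apply, Matrix.cons_val_zero, Matrix.cons_val_one, Matrix.cons_val]
    linarith
  refine ⟨_, ((isCompact_closedBall _ _).inter_right (isClosed_le continuous_const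
    (continuous_δ.comp (continuous_qF _ _)))).image_of_continuousOn (hc.mono fun w hw => h0 w hw.2),
    fun w hw => (le_total ((D.ρ + 1) ^ 2) (δ (D.q w))).imp (h1 w) fun h => ?_, fun y hy h => ?_⟩
  · obtain ⟨r, θ, z, hr, h2, h3, -, h4⟩ := exists_pol (A_pos P) D.ℓ_pos w
    have h5 : δ (D.q w) = r ^ 2 := (congrArg δ h4).symm.trans (δ_pol (A_pos P) h2 h3)
    have h6 : D.ρ < r := lt_of_pow_lt_pow_left₀ 2 hr (h5 ▸ mem_W.1 hw)
    have h7 : r ≤ D.ρ + 1 := le_of_pow_le_pow_left₀ two_ne_zero (by linarith) (h5 ▸ h)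
    obtain ⟨y, h8, h9⟩ := D.exists_τ r θ z
    have h10 : P.S < D.a y := by linarith
    have h11 := (mem_WN h10.le).2 (by linarith [T_sub_S P])
    refine ⟨y, h11, ?_, (hg y h11 h10).trans (hp _ (τ_mem h11 h10) _ hw (h9 ▸ h4))⟩
    rw [← D.abs_a, abs_of_nonneg (by linarith [P.S_ge])]
    linarith
  · rw [hg y hy (by linarith)]
    refine h1 _ ?_
    rw [δ_τ hy (by linarith)]
    exact pow_le_pow_left₀ (by linarith) (by linarith) 2

theorem exists_preconnected (hw : w ∈ P.WF D.ρ) :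
    ∃ t, IsPreconnected t ∧ ΨF w ∈ t ∧ ∃ y ∈ P.WN, ΨN y ∈ t := by
  obtain ⟨r, θ, z, hr, h2, h3, -, h4⟩ := exists_pol (A_pos P) D.ℓ_pos w
  have h5 : δ (D.q w) = r ^ 2 := (congrArg δ h4).symm.trans (δ_pol (A_pos P) h2 h3)
  have h6 : D.ρ < r := lt_of_pow_lt_pow_left₀ 2 hr (h5 ▸ mem_W.1 hw)
  have h7 : ∀ s ∈ Ioc D.ρ r, pol s θ z ∈ P.WF D.ρ := fun s hs => by
    have h8 : |s| ≤ |r| := abs_le_abs_of_nonneg (D.ρ_pos.trans hs.1).le hs.2
    rw [abs_mul] at h2 h3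
    rw [mem_W, q, δ_pol (A_pos P) (by rw [abs_mul]; exact le_trans (by gcongr) h2)
      (by rw [abs_mul]; exact le_trans (by gcongr) h3)]
    exact pow_lt_pow_left₀ hs.1 D.ρ_pos.le two_ne_zero
  obtain ⟨y, h8, h9⟩ := D.exists_τ (min r (D.ρ + 1)) θ z
  have h10 : D.ρ < min r (D.ρ + 1) := lt_min h6 (lt_add_one _)
  have h11 : y ∈ P.WN := (mem_WN (by linarith)).2 (by linarith [T_sub_S P, min_le_right r (D.ρ + 1)])
  refine ⟨(fun s => ΨF (pol s θ z)) '' Ioc D.ρ r, isPreconnected_Ioc.image _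
    (hc.comp (Continuous.continuousOn ?_) h7), ⟨r, ⟨h6, le_rfl⟩, hp _ (h7 r ⟨h6, le_rfl⟩) _ hw h4⟩,
    y, h11, _, ⟨h10, min_le_left _ _⟩, by rw [hg y h11 (by linarith), h9]⟩
  unfold pol
  fun_prop

end Side

end Crest.Agent.R244.MX
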