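import Crest.Agent.R244.Defs

/-! Row 244: auxiliary real-variable lemmas for `Neck.lean`. -/

set_option autoImplicit false
set_option maxSynthPendingDepth 3
open Set Filter Topology
open scoped ContDiff

noncomputable section
namespace Crest.Agent.R244
namespace Neck

theorem ev_right {F : ℝ → ℝ} {d c t₀ ε : ℝ} (hF : HasDerivAt F d t₀) (hc : c ≤ d) (hε : 0 < ε) :
    ∀ᶠ t in 𝓝[>] t₀, F t₀ + (c - ε) * (t - t₀) ≤ F t := by
  have h1 : Tendsto (slope F t₀) (𝓝[>] t₀) (𝓝 d) :=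
    (hasDerivAt_iff_tendsto_slope.1 hF).mono_left (nhdsWithin_mono _ fun t ht => ne_of_gt ht)
  filter_upwards [h1.eventually (lt_mem_nhds (show c - ε < d by linarith)), self_mem_nhdsWithin]
    with t ht ht'
  have h2 : 0 < t - t₀ := sub_pos.2 ht'
  rw [slope_def_field, lt_div_iff₀ h2] at ht
  linarith

theorem ev_left {F : ℝ → ℝ} {d t₀ ε : ℝ} (hF : HasDerivAt F d t₀) (hc : 0 ≤ d) (hε : 0 < ε) :
    ∀ᶠ t in 𝓝[<] t₀, F t ≤ F t₀ + ε * (t₀ - t) := by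
  have h1 : Tendsto (slope F t₀) (𝓝[<] t₀) (𝓝 d) :=
    (hasDerivAt_iff_tendsto_slope.1 hF).mono_left (nhdsWithin_mono _ fun t ht => ne_of_lt ht)
  filter_upwards [h1.eventually (lt_mem_nhds (show -ε < d by linarith)), self_mem_nhdsWithin]
    with t ht ht'
  have h2 : t - t₀ < 0 := sub_neg.2 ht'
  rw [slope_def_field, lt_div_iff_of_neg h2] at ht
  linarith

theorem lt_right {F : ℝ → ℝ} {d t₀ : ℝ} (hF : HasDerivAt F d t₀) (hd : d < 0) :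
    ∀ᶠ t in 𝓝[>] t₀, F t < F t₀ := by
  filter_upwards [ev_right hF.neg le_rfl (show 0 < -d / 2 by linarith), self_mem_nhdsWithin]
    with t ht ht'
  have h2 : 0 < t - t₀ := sub_pos.2 ht'
  simp only [Pi.neg_apply] at ht
  nlinarith

theorem gt_right {F : ℝ → ℝ} {d t₀ : ℝ} (hF : HasDerivAt F d t₀) (hd : 0 < d) :
    ∀ᶠ t in 𝓝[>] t₀, F t₀ < F t := by
  filter_upwards [lt_right hF.neg (neg_neg_of_pos hd)] with t ht
  simpa using ht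

theorem lt_left {F : ℝ → ℝ} {d t₀ : ℝ} (hF : HasDerivAt F d t₀) (hd : 0 < d) :
    ∀ᶠ t in 𝓝[<] t₀, F t < F t₀ := by
  have h1 : Tendsto (slope F t₀) (𝓝[<] t₀) (𝓝 d) :=
    (hasDerivAt_iff_tendsto_slope.1 hF).mono_left (nhdsWithin_mono _ fun t ht => ne_of_lt ht)
  filter_upwards [h1.eventually (lt_mem_nhds hd), self_mem_nhdsWithin] with t ht ht'
  have h2 : t - t₀ < 0 := sub_neg.2 ht'
  rw [slope_def_field, lt_div_iff_of_neg h2] at ht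
  linarith

theorem gt_left {F : ℝ → ℝ} {d t₀ : ℝ} (hF : HasDerivAt F d t₀) (hd : d < 0) :
    ∀ᶠ t in 𝓝[<] t₀, F t₀ < F t := by
  filter_upwards [lt_left hF.neg (neg_pos.2 hd)] with t ht
  simpa using ht

theorem deriv_zero_Iic {g : ℝ → ℝ} (hg : Differentiable ℝ g) {a c : ℝ} (h : ∀ s, s ≤ a → g s = c)
    (s : ℝ) (hs : s ≤ a) : deriv g s = 0 :=
  (uniqueDiffOn_Iic a s hs).eq_deriv _ (hg s).hasDerivAt.hasDerivWithinAt
    ((hasDerivWithinAt_const s (Iic a) c).congr (fun y hy => h y hy) (h s hs))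

theorem deriv_zero_Ici {g : ℝ → ℝ} (hg : Differentiable ℝ g) {a c : ℝ} (h : ∀ s, a ≤ s → g s = c)
    (s : ℝ) (hs : a ≤ s) : deriv g s = 0 :=
  (uniqueDiffOn_Ici a s hs).eq_deriv _ (hg s).hasDerivAt.hasDerivWithinAt
    ((hasDerivWithinAt_const s (Ici a) c).congr (fun y hy => h y hy) (h s hs))

theorem diff0 {g : ℝ → ℝ} (hg : ContDiff ℝ ∞ g) : Differentiable ℝ g :=
  hg.differentiable (by simp)

theorem diff1 {g : ℝ → ℝ} (hg : ContDiff ℝ ∞ g) : Differentiable ℝ (deriv g) :=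
  (contDiff_infty_iff_deriv.1 hg).2.differentiable (by simp)

theorem loc_const {O : Set ℝ} (hO : IsOpen O) {X : ℝ → ℝ} (hX : ∀ t ∈ O, HasDerivAt X 0 t) {t₀ : ℝ}
    (ht : t₀ ∈ O) : ∀ᶠ t in 𝓝 t₀, X t = X t₀ := by
  obtain ⟨δ, hδ, hb⟩ := Metric.isOpen_iff.1 hO t₀ ht
  filter_upwards [Metric.ball_mem_nhds t₀ hδ] with t ht'
  exact Metric.isOpen_ball.is_const_of_deriv_eq_zero (convex_ball t₀ δ).isPreconnected
    (fun u hu => (hX u (hb hu)).differentiableAt.differentiableWithinAt)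
    (fun u hu => (hX u (hb hu)).deriv) ht' (Metric.mem_ball_self hδ)

/-- A path of jets whose entries are the derivatives of each other (speed `σ₀`). -/
structure JP (J : ℝ → Jet) (σ₀ t₀ : ℝ) : Prop where
  m0 : HasDerivAt (fun t => (J t).m0) ((J t₀).m1 * σ₀) t₀
  m1 : HasDerivAt (fun t => (J t).m1) ((J t₀).m2 * σ₀) t₀
  n0 : HasDerivAt (fun t => (J t).n0) ((J t₀).n1 * σ₀) t₀
  n1 : HasDerivAt (fun t => (J t).n1) ((J t₀).n2 * σ₀) t₀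
  e0 : HasDerivAt (fun t => (J t).e0) ((J t₀).e1 * σ₀) t₀
  e1 : HasDerivAt (fun t => (J t).e1) ((J t₀).e2 * σ₀) t₀

theorem jp (P : Profile) {s : ℝ → ℝ} {σ₀ t₀ : ℝ} (hs : HasDerivAt s σ₀ t₀) :
    JP (fun t => P.jet (s t)) σ₀ t₀ where
  m0 := (diff0 P.m_smooth _).hasDerivAt.comp t₀ hs
  m1 := (diff1 P.m_smooth _).hasDerivAt.comp t₀ hs
  n0 := (diff0 P.n_smooth _).hasDerivAt.comp t₀ hs
  n1 := (diff1 P.n_smooth _).hasDerivAt.comp t₀ hs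
  e0 := (diff0 P.e_smooth _).hasDerivAt.comp t₀ hs
  e1 := (diff1 P.e_smooth _).hasDerivAt.comp t₀ hs

section JP
variable {J : ℝ → Jet} {σ₀ t₀ : ℝ} {X Y : ℝ → ℝ}

theorem JP.Z (h : JP J σ₀ t₀) (hX : HasDerivAt X 0 t₀) (hY : HasDerivAt Y 0 t₀) :
    HasDerivAt (fun t => (J t).Z (X t) (Y t)) ((J t₀).e1 * Y t₀ * σ₀) t₀ := by
  refine (hX.fun_add (h.e0.fun_mul hY)).congr_deriv ?_
  ring

theorem JP.V1 (h : JP J σ₀ t₀) (hX : HasDerivAt X 0 t₀) (hY : HasDerivAt Y 0 t₀) :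
    HasDerivAt (fun t => (J t).V1 (X t) (Y t)) ((J t₀).V2 (X t₀) (Y t₀) * σ₀) t₀ := by
  have hZ := h.Z hX hY
  refine (((h.m1.fun_mul (hY.fun_pow 2)).fun_add (h.n1.fun_mul (hZ.fun_pow 2))).fun_add
    ((((h.n0.const_mul 2).fun_mul hZ).fun_mul h.e1).fun_mul hY)).congr_deriv ?_
  simp only [Jet.V2]
  norm_num
  ring

theorem JP.xd (h : JP J σ₀ t₀) (hX : HasDerivAt X 0 t₀) (hY : HasDerivAt Y 0 t₀) :
    HasDerivAt (fun t => (J t).xd (X t) (Y t)) ((J t₀).xd1 (X t₀) (Y t₀) * σ₀) t₀ := by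
  refine (h.n0.fun_mul (h.Z hX hY)).congr_deriv ?_
  simp only [Jet.xd1]
  ring

theorem JP.yd (h : JP J σ₀ t₀) (hX : HasDerivAt X 0 t₀) (hY : HasDerivAt Y 0 t₀) :
    HasDerivAt (fun t => (J t).yd (X t) (Y t)) ((J t₀).yd1 (X t₀) (Y t₀) * σ₀) t₀ := by
  refine ((h.m0.fun_mul hY).fun_add ((h.n0.fun_mul h.e0).fun_mul (h.Z hX hY))).congr_deriv ?_
  simp only [Jet.yd1]
  ring

end JP

/-- The corrected Lyapunov function. -/
def FW (F V η σ ξ D : ℝ → ℝ) (t : ℝ) : ℝ :=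
  F t + V t * η t * (ξ t / D t) - V t * σ t * (ξ t / D t) ^ 2 / 2

theorem hasDerivAt_FW {F V η σ ξ D : ℝ → ℝ} {t ηd V2 q ρ D1 : ℝ}
    (hF : HasDerivAt F (ηd ^ 2 - V2 * η t ^ 2 / 2 + q) t) (hV : HasDerivAt V (V2 * σ t) t)
    (hη : HasDerivAt η ηd t) (hσ : HasDerivAt σ (-(V t) / 2) t)
    (hξ : HasDerivAt ξ (ρ + η t * D1) t) (hD : HasDerivAt D (D1 * σ t) t) (h0 : D t ≠ 0) :
    HasDerivAt (FW F V η σ ξ D) ((ηd + V t * (ξ t / D t) / 2) ^ 2 + (q +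
      V t * ((η t - σ t * (ξ t / D t)) / D t) * ρ +
      (V t * D1 * D t - V2 * D t ^ 2 / 2) * ((η t - σ t * (ξ t / D t)) / D t) ^ 2)) t := by
  have hw := hξ.fun_div hD h0
  refine ((hF.fun_add ((hV.fun_mul hη).fun_mul hw)).fun_sub
    (((hV.fun_mul hσ).fun_mul (hw.fun_pow 2)).div_const 2)).congr_deriv ?_
  norm_num
  field_simp
  ring

theorem FW_nonneg {q V y ρ A c : ℝ} (hc : 0 < c) (hq : ρ ^ 2 ≤ q * c) (hA : c * V ^ 2 ≤ 4 * A) :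
    0 ≤ q + V * y * ρ + A * y ^ 2 := by
  have h1 : 0 ≤ c * (q + V * y * ρ + A * y ^ 2) := by
    nlinarith [sq_nonneg (ρ + c * V * y / 2), mul_nonneg hc.le
      (mul_nonneg (sub_nonneg.2 hA) (sq_nonneg y))]
  exact (mul_nonneg_iff_of_pos_left hc).1 h1

/-- The basic Lyapunov function. -/
def F0 (η ηd ξx ξy p r : ℝ → ℝ) (t : ℝ) : ℝ := η t * ηd t + p t * ξx t + r t * ξy t

/-- The difference between `f' / 2` and `F0`. -/
def G (J : ℝ → Jet) (σ X Y η ξx ξy : ℝ → ℝ) (t : ℝ) : ℝ :=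
  η t * (ξy t - (J t).e0 * ξx t) * ((J t).m1 * Y t + (J t).n0 * (J t).e1 * (J t).Z (X t) (Y t)) /
      (J t).m0
    - (ξy t - (J t).e0 * ξx t) * (J t).e1 * σ t * ξx t / (J t).m0
    - (ξy t - (J t).e0 * ξx t) ^ 2 * (J t).m1 * σ t / (2 * (J t).m0 ^ 2)
    + ξx t * η t * ((J t).n1 * (J t).Z (X t) (Y t) + (J t).n0 * (J t).e1 * Y t) / (J t).n0
    - ξx t ^ 2 * (J t).n1 * σ t / (2 * (J t).n0 ^ 2)

/-- The ODE system at one parameter. -/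
structure At (J : ℝ → Jet) (σ X Y η ηd ξx ξy p r : ℝ → ℝ) (t : ℝ) : Prop where
  jp : JP J (σ t) t
  m_pos : 0 < (J t).m0
  n_pos : 0 < (J t).n0
  dX : HasDerivAt X 0 t
  dY : HasDerivAt Y 0 t
  dp : HasDerivAt p 0 t
  dr : HasDerivAt r 0 t
  dσ : HasDerivAt σ (-((J t).V1 (X t) (Y t)) / 2) t
  dη : HasDerivAt η (ηd t) t
  dηd : HasDerivAt ηd (-((J t).V2 (X t) (Y t)) / 2 * η t
    - ((J t).xd1 (X t) (Y t) * p t + (J t).yd1 (X t) (Y t) * r t)) t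
  dξx : HasDerivAt ξx ((J t).xd (p t) (r t) + η t * (J t).xd1 (X t) (Y t)) t
  dξy : HasDerivAt ξy ((J t).yd (p t) (r t) + η t * (J t).yd1 (X t) (Y t)) t

/-- The quadratic form `q(p, r)`. -/
def qq (j : Jet) (p r : ℝ) : ℝ := j.m0 * r ^ 2 + j.n0 * j.Z p r ^ 2

section At
variable {J : ℝ → Jet} {σ X Y η ηd ξx ξy p r : ℝ → ℝ} {t : ℝ}

theorem At.qq_nonneg (h : At J σ X Y η ηd ξx ξy p r t) : 0 ≤ qq (J t) (p t) (r t) :=
  add_nonneg (mul_nonneg h.m_pos.le (sq_nonneg _)) (mul_nonneg h.n_pos.le (sq_nonneg _))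

theorem At.dF0 (h : At J σ X Y η ηd ξx ξy p r t) :
    HasDerivAt (F0 η ηd ξx ξy p r)
      (ηd t ^ 2 - (J t).V2 (X t) (Y t) * η t ^ 2 / 2 + qq (J t) (p t) (r t)) t := by
  refine (((h.dη.fun_mul h.dηd).fun_add (h.dp.fun_mul h.dξx)).fun_add
    (h.dr.fun_mul h.dξy)).congr_deriv ?_
  simp only [qq, Jet.xd, Jet.yd, Jet.Z]
  ring

theorem At.df (h : At J σ X Y η ηd ξx ξy p r t) :
    HasDerivAt (fun t => η t ^ 2 + (ξy t - (J t).e0 * ξx t) ^ 2 / (J t).m0 + ξx t ^ 2 / (J t).n0)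
      (2 * (F0 η ηd ξx ξy p r t + G J σ X Y η ξx ξy t)) t := by
  have hm := h.m_pos.ne'
  have hn := h.n_pos.ne'
  refine (((h.dη.fun_pow 2).fun_add
    (((h.dξy.fun_sub (h.jp.e0.fun_mul h.dξx)).fun_pow 2).fun_div h.jp.m0 hm)).fun_add
    ((h.dξx.fun_pow 2).fun_div h.jp.n0 hn)).congr_deriv ?_
  simp only [F0, G, Jet.xd, Jet.yd, Jet.xd1, Jet.yd1, Jet.Z]
  norm_num
  field_simp
  ring

theorem At.dG (h : At J σ X Y η ηd ξx ξy p r t) :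
    ∃ d, HasDerivAt (G J σ X Y η ξx ξy) d t ∧
      ((J t).n0 = 1 → (J t).n1 = 0 → (J t).n2 = 0 → (J t).e0 = 0 → (J t).e1 = 0 → (J t).e2 = 0 →
        2 * (J t).m0 * (J t).m2 ≤ 3 * (J t).m1 ^ 2 →
        0 ≤ ηd t ^ 2 - (J t).V2 (X t) (Y t) * η t ^ 2 / 2 + qq (J t) (p t) (r t) + d) ∧
      ((J t).m0 = 1 → (J t).m1 = 0 → (J t).m2 = 0 → (J t).e1 = 0 → (J t).e2 = 0 →
        2 * (J t).n0 * (J t).n2 ≤ 3 * (J t).n1 ^ 2 →
        0 ≤ ηd t ^ 2 - (J t).V2 (X t) (Y t) * η t ^ 2 / 2 + qq (J t) (p t) (r t) + d) ∧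
      (η t = 0 → ξx t = 0 → ξy t = 0 → d = 0) := by
  have hm := h.m_pos.ne'
  have hn := h.n_pos.ne'
  have hU := h.dξy.fun_sub (h.jp.e0.fun_mul h.dξx)
  have hZ := h.jp.Z h.dX h.dY
  have H := (((((h.dη.fun_mul hU).fun_mul ((h.jp.m1.fun_mul h.dY).fun_add
    ((h.jp.n0.fun_mul h.jp.e1).fun_mul hZ))).fun_div h.jp.m0 hm).fun_sub
    ((((hU.fun_mul h.jp.e1).fun_mul h.dσ).fun_mul h.dξx).fun_div h.jp.m0 hm)).fun_sub
    ((((hU.fun_pow 2).fun_mul h.jp.m1).fun_mul h.dσ).fun_div ((h.jp.m0.fun_pow 2).const_mul 2)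
      (by positivity))).fun_add
    (((h.dξx.fun_mul h.dη).fun_mul ((h.jp.n1.fun_mul hZ).fun_add
      ((h.jp.n0.fun_mul h.jp.e1).fun_mul h.dY))).fun_div h.jp.n0 hn) |>.fun_sub
    ((((h.dξx.fun_pow 2).fun_mul h.jp.n1).fun_mul h.dσ).fun_div ((h.jp.n0.fun_pow 2).const_mul 2)
      (by positivity))
  refine ⟨_, H, ?_, ?_, ?_⟩
  · intro a1 a2 a3 a4 a5 a6 a7
    have hm0 := h.m_pos
    refine le_of_le_of_eq (b := (ηd t + (J t).m1 * Y t * ξy t / (2 * (J t).m0)) ^ 2 + p t ^ 2 +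
      (J t).m0 * (r t + (J t).m1 / (J t).m0 ^ 2 * (η t * (J t).m0 * Y t - σ t * ξy t) / 2) ^ 2 +
      (3 * (J t).m1 ^ 2 - 2 * (J t).m0 * (J t).m2) / (4 * (J t).m0 ^ 3) *
        (η t * (J t).m0 * Y t - σ t * ξy t) ^ 2) ?_ ?_
    · have := sub_nonneg.2 a7
      positivity
    · simp only [qq, Jet.xd, Jet.yd, Jet.xd1, Jet.yd1, Jet.Z, Jet.V1, Jet.V2, a1, a2, a3, a4, a5,
        a6]
      norm_num
      field_simp
      ring
  · intro a1 a2 a3 a5 a6 a7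
    have hn0 := h.n_pos
    refine le_of_le_of_eq (b := (ηd t + (J t).n1 * (J t).Z (X t) (Y t) * ξx t / (2 * (J t).n0)) ^ 2
      + r t ^ 2 + (J t).n0 * ((J t).Z (p t) (r t) + (J t).n1 / (J t).n0 ^ 2 *
        (η t * (J t).n0 * (J t).Z (X t) (Y t) - σ t * ξx t) / 2) ^ 2 +
      (3 * (J t).n1 ^ 2 - 2 * (J t).n0 * (J t).n2) / (4 * (J t).n0 ^ 3) *
        (η t * (J t).n0 * (J t).Z (X t) (Y t) - σ t * ξx t) ^ 2) ?_ ?_
    · have := sub_nonneg.2 a7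
      positivity
    · simp only [qq, Jet.xd, Jet.yd, Jet.xd1, Jet.yd1, Jet.V1, Jet.V2, a1, a2, a3, a5, a6]
      norm_num
      field_simp
      ring
  · intro a1 a2 a3
    simp [a1, a2, a3]

/-- The left Lyapunov function. -/
def FL (J : ℝ → Jet) (σ X Y η ηd ξx ξy p r : ℝ → ℝ) : ℝ → ℝ :=
  FW (F0 η ηd ξx ξy p r) (fun t => (J t).V1 (X t) (Y t)) η σ ξy (fun t => (J t).yd (X t) (Y t))

/-- The right Lyapunov function. -/
def FR (J : ℝ → Jet) (σ X Y η ηd ξx ξy p r : ℝ → ℝ) : ℝ → ℝ :=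
  FW (F0 η ηd ξx ξy p r) (fun t => (J t).V1 (X t) (Y t)) η σ ξx (fun t => (J t).xd (X t) (Y t))

theorem At.dFL (h : At J σ X Y η ηd ξx ξy p r t) (hg : (J t).Good)
    (hV : 0 ≤ (J t).V1 (X t) (Y t)) (hY : Y t ≠ 0) :
    ∃ d, HasDerivAt (FL J σ X Y η ηd ξx ξy p r) d t ∧ 0 ≤ d ∧
      (η t = 0 → ξy t = 0 → d = ηd t ^ 2 + qq (J t) (p t) (r t)) := by
  obtain ⟨h0, h1⟩ := hg.left _ _ hV hY
  refine ⟨_, hasDerivAt_FW h.dF0 (h.jp.V1 h.dX h.dY) h.dη h.dσ h.dξy (h.jp.yd h.dX h.dY) h0,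
    add_nonneg (sq_nonneg _) (FW_nonneg (c := (J t).qyy) ?_ ?_ ?_), ?_⟩
  · have := h.m_pos
    have := h.n_pos
    unfold Jet.qyy
    positivity
  · have : qq (J t) (p t) (r t) * (J t).qyy - (J t).yd (p t) (r t) ^ 2 =
        (J t).m0 * (J t).n0 * p t ^ 2 := by
      simp only [qq, Jet.qyy, Jet.yd, Jet.Z]
      ring
    have h2 : 0 ≤ (J t).m0 * (J t).n0 * p t ^ 2 :=
      mul_nonneg (mul_pos h.m_pos h.n_pos).le (sq_nonneg _)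
    linarith
  · linarith
  · intro a1 a2
    simp [a1, a2]

theorem At.dFR (h : At J σ X Y η ηd ξx ξy p r t) (hg : (J t).Good)
    (hV : (J t).V1 (X t) (Y t) ≤ 0) (hZ : (J t).Z (X t) (Y t) ≠ 0) :
    ∃ d, HasDerivAt (FR J σ X Y η ηd ξx ξy p r) d t ∧ 0 ≤ d ∧
      (η t = 0 → ξx t = 0 → d = ηd t ^ 2 + qq (J t) (p t) (r t)) := by
  have h0 : (J t).xd (X t) (Y t) ≠ 0 := mul_ne_zero h.n_pos.ne' hZ
  have h1 := hg.right _ _ hV
  refine ⟨_, hasDerivAt_FW h.dF0 (h.jp.V1 h.dX h.dY) h.dη h.dσ h.dξx (h.jp.xd h.dX h.dY) h0,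
    add_nonneg (sq_nonneg _) (FW_nonneg (c := (J t).n0) h.n_pos ?_ ?_), ?_⟩
  · have : qq (J t) (p t) (r t) * (J t).n0 - (J t).xd (p t) (r t) ^ 2 =
        (J t).m0 * (J t).n0 * r t ^ 2 := by
      simp only [qq, Jet.xd, Jet.Z]
      ring
    have h2 : 0 ≤ (J t).m0 * (J t).n0 * r t ^ 2 :=
      mul_nonneg (mul_pos h.m_pos h.n_pos).le (sq_nonneg _)
    linarith
  · linarith
  · intro a1 a2
    simp [a1, a2]

theorem At.FL_left (h : At J σ X Y η ηd ξx ξy p r t) (a2 : (J t).n1 = 0) (a4 : (J t).e0 = 0)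
    (a5 : (J t).e1 = 0) (hY : Y t ≠ 0) :
    FL J σ X Y η ηd ξx ξy p r t = F0 η ηd ξx ξy p r t + G J σ X Y η ξx ξy t := by
  have hm := h.m_pos.ne'
  simp only [FL, FW, G, Jet.V1, Jet.yd, a2, a4, a5]
  field_simp
  ring

theorem At.FR_right (h : At J σ X Y η ηd ξx ξy p r t) (a2 : (J t).m1 = 0)
    (a5 : (J t).e1 = 0) (hZ : (J t).Z (X t) (Y t) ≠ 0) :
    FR J σ X Y η ηd ξx ξy p r t = F0 η ηd ξx ξy p r t + G J σ X Y η ξx ξy t := by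
  have hn := h.n_pos.ne'
  simp only [FR, FW, G, Jet.V1, Jet.xd, a2, a5]
  field_simp
  ring

theorem G_left (a2 : (J t).n1 = 0) (a4 : (J t).e0 = 0) (a5 : (J t).e1 = 0) (hY : Y t = 0) :
    G J σ X Y η ξx ξy t = -σ t * (ξy t ^ 2 * (J t).m1 / (2 * (J t).m0 ^ 2)) := by
  simp only [G, a2, a4, a5, hY]
  ring

theorem G_right (a2 : (J t).m1 = 0) (a5 : (J t).e1 = 0) (hZ : (J t).Z (X t) (Y t) = 0) :
    G J σ X Y η ξx ξy t = σ t * (ξx t ^ 2 * (-(J t).n1) / (2 * (J t).n0 ^ 2)) := by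
  simp only [G, a2, a5, hZ]
  ring

theorem FL_of_V (hV : (J t).V1 (X t) (Y t) = 0) :
    FL J σ X Y η ηd ξx ξy p r t = F0 η ηd ξx ξy p r t := by
  simp [FL, FW, hV]

theorem FR_of_V (hV : (J t).V1 (X t) (Y t) = 0) :
    FR J σ X Y η ηd ξx ξy p r t = F0 η ηd ξx ξy p r t := by
  simp [FR, FW, hV]

end At

end Neck
end Crest.Agent.R244
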