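import Crest.Agent.R244.Deck

/-! Row 244: lifting lemmas and the abstract "one side" computation for `Rel.lean`. -/

set_option autoImplicit false
set_option maxSynthPendingDepth 3
open Set Filter Topology

noncomputable section
namespace Crest.Agent.R244

variable {M : Type} [TopologicalSpace M]

/-- Two lifts of the same map on a preconnected set differ by a deck transformation. -/
theorem deck_pair {n : ℕ} {π : E n → M} (hπ : IsCoveringMap π) {T : Type} [TopologicalSpace T]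
    {S : Set T} (hS : IsPreconnected S) {t₀ : T} (ht₀ : t₀ ∈ S) {a b : T → E n}
    (ha : ContinuousOn a S) (hb : ContinuousOn b S) (hab : ∀ t ∈ S, π (a t) = π (b t)) :
    ∃ G : deck π, ∀ t ∈ S, b t = G • a t := by
  obtain ⟨G, hG⟩ := deck_trans hπ (hab t₀ ht₀)
  refine ⟨G, fun t ht => ?_⟩
  have := hπ.eqOn_of_comp_eqOn (g₁ := b) (g₂ := fun t => G • a t) hS hb
    ((deck_continuous G).comp_continuousOn ha)
    (fun s hs => by simp only [Function.comp_apply, deck_apply, hab s hs]) ht₀ hG.symm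
  exact this ht

/-- Continuous maps on convex sets lift through covering maps. -/
theorem lift_convex {X : Type} [TopologicalSpace X] {π : X → M} (hπ : IsCoveringMap π)
    {V : Type} [NormedAddCommGroup V] [NormedSpace ℝ V] {K : Set V} (hK : Convex ℝ K)
    {Ψ : V → M} (hΨ : ContinuousOn Ψ K) {y₀ : V} (hy₀ : y₀ ∈ K) {e₀ : X} (he : π e₀ = Ψ y₀) :
    ∃ L : V → X, ContinuousOn L K ∧ L y₀ = e₀ ∧ ∀ y ∈ K, π (L y) = Ψ y := by
  classical
  have : ContractibleSpace K := hK.contractibleSpace ⟨y₀, hy₀⟩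
  have : LocallyPathConnectedSpace K := hK.locallyPathConnectedSpace
  obtain ⟨F, ⟨hF0, hF⟩, -⟩ := hπ.existsUnique_continuousMap_lifts
    (⟨K.domRestrict Ψ, hΨ.domRestrict⟩ : C(K, M)) ⟨y₀, hy₀⟩ e₀ he
  refine ⟨fun y => if h : y ∈ K then F ⟨y, h⟩ else e₀, ?_, by simp [hy₀, hF0], fun y hy => ?_⟩
  · rw [continuousOn_iff_continuous_domRestrict]
    convert F.continuous using 1
    funext y
    simp [y.2]
  · simp only [hy, dif_pos]
    exact congrFun hF ⟨y, hy⟩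

/-- The octagonal prism. -/
def octa (A r : ℝ) : Set (ℝ × ℝ × ℝ) :=
  {p | 0 ≤ p.1 ∧ p.1 ≤ A ∧ 0 ≤ p.2.1 ∧ p.2.1 ≤ A ∧ r ≤ p.1 + p.2.1 ∧ r ≤ A - p.1 + p.2.1 ∧
    r ≤ p.1 + A - p.2.1 ∧ r ≤ 2 * A - p.1 - p.2.1}

theorem octa_convex (A r : ℝ) : Convex ℝ (octa A r) := by
  rintro ⟨x1, x2, x3⟩ ⟨h1, h2, h3, h4, h5, h6, h7, h8⟩ ⟨y1, y2, y3⟩
    ⟨k1, k2, k3, k4, k5, k6, k7, k8⟩ a b ha hb hab
  simp only [octa, mem_ofPred_eq, Prod.smul_mk, smul_eq_mul, Prod.mk_add_mk] at *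
  obtain rfl : b = 1 - a := by linarith
  refine ⟨?_, ?_, ?_, ?_, ?_, ?_, ?_, ?_⟩ <;> nlinarith

theorem one_le_add_of_sq {c s : ℝ} (h : s ^ 2 + c ^ 2 = 1) (hc : 0 ≤ c) (hs : 0 ≤ s) :
    1 ≤ c + s := by
  nlinarith [mul_nonneg hc hs]

theorem octa_corner {A r c s z : ℝ} (hr : 0 ≤ r) (hA : 2 * r ≤ A) (h : s ^ 2 + c ^ 2 = 1)
    (hc : 0 ≤ c) (hs : 0 ≤ s) :
    (r * c, r * s, z) ∈ octa A r ∧ (A - r * c, r * s, z) ∈ octa A r ∧
      (A - r * c, A - r * s, z) ∈ octa A r ∧ (r * c, A - r * s, z) ∈ octa A r := by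
  have h1 := one_le_add_of_sq h hc hs
  have hc1 : c ≤ 1 := by nlinarith
  have hs1 : s ≤ 1 := by nlinarith
  have a1 : 0 ≤ r * c := mul_nonneg hr hc
  have a2 : 0 ≤ r * s := mul_nonneg hr hs
  have a3 : r * c ≤ r := by nlinarith
  have a4 : r * s ≤ r := by nlinarith
  have a5 : r ≤ r * c + r * s := by nlinarith
  simp only [octa, mem_ofPred_eq]
  refine ⟨⟨?_, ?_, ?_, ?_, ?_, ?_, ?_, ?_⟩, ⟨?_, ?_, ?_, ?_, ?_, ?_, ?_, ?_⟩,
    ⟨?_, ?_, ?_, ?_, ?_, ?_, ?_, ?_⟩, ⟨?_, ?_, ?_, ?_, ?_, ?_, ?_, ?_⟩⟩ <;> linarith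

/-- One side of the graph manifold: the boundary torus of (punctured torus) × circle. -/
theorem side_relations {n : ℕ} {π : E n → M} (hπ : IsCoveringMap π) {A r ℓ : ℝ} (hr : 0 ≤ r)
    (hA : 2 * r ≤ A) {Φ : ℝ × ℝ × ℝ → M} (hΦ : ContinuousOn Φ (octa A r))
    (perz : ∀ x y z, (x, y, z) ∈ octa A r → Φ (x, y, z + ℓ) = Φ (x, y, z))
    (perx : ∀ t, r ≤ t → t ≤ A - r → Φ (A, t, 0) = Φ (0, t, 0))
    (pery : ∀ t, r ≤ t → t ≤ A - r → Φ (t, A, 0) = Φ (t, 0, 0))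
    {c : ℝ × ℝ → E n} (hc : Continuous c)
    (arc : ∀ θ z (j k : ℤ), (r * Real.cos θ + j * A, r * Real.sin θ + k * A, z) ∈ octa A r →
      π (c (θ, z)) = Φ (r * Real.cos θ + j * A, r * Real.sin θ + k * A, z))
    {g h : deck π} (hg : c (2 * Real.pi, 0) = g • c (0, 0))
    (hh : ∀ θ, c (θ, ℓ) = h • c (θ, 0)) :
    (∃ a b : deck π, Commute h a ∧ Commute h b ∧ g = a * b * a⁻¹ * b⁻¹) ∧
      ∃ γ : ℝ → E n, Continuous γ ∧ (∀ t, π (γ t) = Φ (A / 2, A / 2, t)) ∧ γ ℓ = h • γ 0 := by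
  have hpi := Real.pi_pos
  have m0 : ∀ z, ((r, 0, z) : ℝ × ℝ × ℝ) ∈ octa A r := fun z => by
    simpa using (octa_corner (c := 1) (s := 0) (z := z) hr hA (by norm_num) zero_le_one le_rfl).1
  obtain ⟨L, hL, hL0, hπL⟩ := lift_convex hπ (octa_convex A r) hΦ (m0 0) (e₀ := c (0, 0))
    (by simpa using arc 0 0 0 0 (by simpa using m0 0))
  -- the arcs
  have arcs : ∀ (lo hi : ℝ) (j k : ℤ), lo ≤ hi →
      (∀ θ z, lo ≤ θ → θ ≤ hi →
        (r * Real.cos θ + j * A, r * Real.sin θ + k * A, z) ∈ octa A r) →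
      ∃ G : deck π, ∀ θ z, lo ≤ θ → θ ≤ hi →
        L (r * Real.cos θ + j * A, r * Real.sin θ + k * A, z) = G • c (θ, z) := by
    intro lo hi j k hle hmem
    obtain ⟨G, hG⟩ := deck_pair hπ (S := Icc lo hi ×ˢ (univ : Set ℝ))
      (isPreconnected_Icc.prod isPreconnected_univ) (t₀ := (lo, 0)) (by simp [hle])
      (a := c) (b := fun p => L (r * Real.cos p.1 + j * A, r * Real.sin p.1 + k * A, p.2))
      hc.continuousOn
      (hL.comp (by fun_prop) fun p hp => hmem p.1 p.2 hp.1.1 hp.1.2)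
      (fun p hp => by
        rw [hπL _ (hmem p.1 p.2 hp.1.1 hp.1.2)]
        exact arc p.1 p.2 j k (hmem p.1 p.2 hp.1.1 hp.1.2))
    exact ⟨G, fun θ z h1 h2 => hG (θ, z) ⟨⟨h1, h2⟩, trivial⟩⟩
  obtain ⟨G₀, hG₀⟩ := arcs 0 (Real.pi / 2) 0 0 (by linarith) fun θ z h1 h2 => by
    simpa using (octa_corner (z := z) hr hA (Real.sin_sq_add_cos_sq θ)
      (Real.cos_nonneg_of_mem_Icc ⟨by linarith, h2⟩)
      (Real.sin_nonneg_of_nonneg_of_le_pi h1 (by linarith))).1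
  obtain ⟨G₁, hG₁⟩ := arcs (Real.pi / 2) Real.pi 1 0 (by linarith) fun θ z h1 h2 => by
    have := (octa_corner (c := -Real.cos θ) (s := Real.sin θ) (z := z) hr hA
      (by rw [neg_sq]; exact Real.sin_sq_add_cos_sq θ)
      (neg_nonneg.2 (Real.cos_nonpos_of_pi_div_two_le_of_le h1 (by linarith)))
      (Real.sin_nonneg_of_nonneg_of_le_pi (by linarith) h2)).2.1
    convert this using 2
    · push_cast; ring
    · simp
  obtain ⟨G₂, hG₂⟩ := arcs Real.pi (3 * Real.pi / 2) 1 1 (by linarith) fun θ z h1 h2 => by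
    have hs : Real.sin θ ≤ 0 := by
      have := Real.sin_nonneg_of_nonneg_of_le_pi (x := θ - Real.pi) (by linarith) (by linarith)
      rw [Real.sin_sub_pi] at this
      linarith
    have := (octa_corner (c := -Real.cos θ) (s := -Real.sin θ) (z := z) hr hA
      (by rw [neg_sq, neg_sq]; exact Real.sin_sq_add_cos_sq θ)
      (neg_nonneg.2 (Real.cos_nonpos_of_pi_div_two_le_of_le (by linarith) (by linarith)))
      (neg_nonneg.2 hs)).2.2.1
    convert this using 2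
    · push_cast; ring
    · congr 1; push_cast; ring
  obtain ⟨G₃, hG₃⟩ := arcs (3 * Real.pi / 2) (2 * Real.pi) 0 1 (by linarith) fun θ z h1 h2 => by
    have hs : Real.sin θ ≤ 0 := by
      have := Real.sin_nonneg_of_nonneg_of_le_pi (x := θ - Real.pi) (by linarith) (by linarith)
      rw [Real.sin_sub_pi] at this
      linarith
    have hc' : 0 ≤ Real.cos θ := by
      have := Real.cos_nonneg_of_mem_Icc (x := θ - 2 * Real.pi) ⟨by linarith, by linarith⟩
      rwa [Real.cos_sub_two_pi] at this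
    have := (octa_corner (c := Real.cos θ) (s := -Real.sin θ) (z := z) hr hA
      (by rw [neg_sq]; exact Real.sin_sq_add_cos_sq θ) hc' (neg_nonneg.2 hs)).2.2.2
    convert this using 2
    · simp
    · congr 1; push_cast; ring
  have c3 : Real.cos (3 * Real.pi / 2) = 0 := by
    rw [show 3 * Real.pi / 2 = Real.pi / 2 + Real.pi by ring, Real.cos_add_pi, Real.cos_pi_div_two,
      neg_zero]
  have s3 : Real.sin (3 * Real.pi / 2) = -1 := by
    rw [show 3 * Real.pi / 2 = Real.pi / 2 + Real.pi by ring, Real.sin_add_pi, Real.sin_pi_div_two]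
  -- values at the arc ends
  have e00 : ∀ z, L (r, 0, z) = G₀ • c (0, z) := fun z => by
    simpa using hG₀ 0 z le_rfl (by linarith)
  have e01 : ∀ z, L (0, r, z) = G₀ • c (Real.pi / 2, z) := fun z => by
    simpa using hG₀ (Real.pi / 2) z (by linarith) le_rfl
  have e10 : ∀ z, L (A, r, z) = G₁ • c (Real.pi / 2, z) := fun z => by
    simpa using hG₁ (Real.pi / 2) z le_rfl (by linarith)
  have e11 : ∀ z, L (A - r, 0, z) = G₁ • c (Real.pi, z) := fun z => by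
    simpa [sub_eq_neg_add] using hG₁ Real.pi z (by linarith) le_rfl
  have e20 : ∀ z, L (A - r, A, z) = G₂ • c (Real.pi, z) := fun z => by
    simpa [sub_eq_neg_add] using hG₂ Real.pi z le_rfl (by linarith)
  have e21 : ∀ z, L (A, A - r, z) = G₂ • c (3 * Real.pi / 2, z) := fun z => by
    simpa [c3, s3, sub_eq_neg_add] using hG₂ (3 * Real.pi / 2) z (by linarith) le_rfl
  have e30 : ∀ z, L (0, A - r, z) = G₃ • c (3 * Real.pi / 2, z) := fun z => by
    simpa [c3, s3, sub_eq_neg_add] using hG₃ (3 * Real.pi / 2) z le_rfl (by linarith)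
  have e31 : ∀ z, L (r, A, z) = G₃ • c (2 * Real.pi, z) := fun z => by
    simpa using hG₃ (2 * Real.pi) z (by linarith) le_rfl
  have hG0 : G₀ = 1 := deck_free hπ (x := c (0, 0)) (by rw [← e00, hL0])
  subst hG0
  simp only [one_smul] at e00 e01
  -- faces
  have mL : ∀ t ∈ Icc r (A - r), ((0, t, 0) : ℝ × ℝ × ℝ) ∈ octa A r := fun t ht => by
    obtain ⟨h1, h2⟩ := ht
    simp only [octa, mem_ofPred_eq]
    refine ⟨?_, ?_, ?_, ?_, ?_, ?_, ?_, ?_⟩ <;> linarith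
  have mR : ∀ t ∈ Icc r (A - r), ((A, t, 0) : ℝ × ℝ × ℝ) ∈ octa A r := fun t ht => by
    obtain ⟨h1, h2⟩ := ht
    simp only [octa, mem_ofPred_eq]
    refine ⟨?_, ?_, ?_, ?_, ?_, ?_, ?_, ?_⟩ <;> linarith
  have mB : ∀ t ∈ Icc r (A - r), ((t, 0, 0) : ℝ × ℝ × ℝ) ∈ octa A r := fun t ht => by
    obtain ⟨h1, h2⟩ := ht
    simp only [octa, mem_ofPred_eq]
    refine ⟨?_, ?_, ?_, ?_, ?_, ?_, ?_, ?_⟩ <;> linarith
  have mT : ∀ t ∈ Icc r (A - r), ((t, A, 0) : ℝ × ℝ × ℝ) ∈ octa A r := fun t ht => by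
    obtain ⟨h1, h2⟩ := ht
    simp only [octa, mem_ofPred_eq]
    refine ⟨?_, ?_, ?_, ?_, ?_, ?_, ?_, ?_⟩ <;> linarith
  have hrr : r ∈ Icc r (A - r) := ⟨le_rfl, by linarith⟩
  have hrA : A - r ∈ Icc r (A - r) := ⟨by linarith, le_rfl⟩
  obtain ⟨a, ha⟩ := deck_pair hπ (S := Icc r (A - r)) isPreconnected_Icc hrr
    (a := fun t => L (0, t, 0)) (b := fun t => L (A, t, 0))
    (hL.comp (by fun_prop) mL) (hL.comp (by fun_prop) mR)
    (fun t ht => by rw [hπL _ (mL t ht), hπL _ (mR t ht), perx t ht.1 ht.2])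
  obtain ⟨b, hb⟩ := deck_pair hπ (S := Icc r (A - r)) isPreconnected_Icc hrr
    (a := fun t => L (t, 0, 0)) (b := fun t => L (t, A, 0))
    (hL.comp (by fun_prop) mB) (hL.comp (by fun_prop) mT)
    (fun t ht => by rw [hπL _ (mB t ht), hπL _ (mT t ht), pery t ht.1 ht.2])
  have r1 : G₁ = a := deck_ext hπ (x := c (Real.pi / 2, 0)) (by
    rw [← e10, ← e01]; exact ha r hrr)
  have r2 : G₂ = b * G₁ := deck_ext hπ (x := c (Real.pi, 0)) (by
    rw [mul_smul, ← e20, ← e11]; exact hb _ hrA)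
  have r3 : G₂ = a * G₃ := deck_ext hπ (x := c (3 * Real.pi / 2, 0)) (by
    rw [mul_smul, ← e21, ← e30]; exact ha _ hrA)
  have r4 : G₃ * g = b := deck_ext hπ (x := c (0, 0)) (by
    rw [mul_smul, ← hg, ← e31, ← e00]; exact hb r hrr)
  -- vertical translation
  have mz : ∀ p ∈ octa A r, ((p.1, p.2.1, p.2.2 + ℓ) : ℝ × ℝ × ℝ) ∈ octa A r := fun p hp => hp
  obtain ⟨h', hh'⟩ := deck_pair hπ (S := octa A r) (octa_convex A r).isPreconnected (m0 0)
    (a := L) (b := fun p => L (p.1, p.2.1, p.2.2 + ℓ)) hL (hL.comp (by fun_prop) mz)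
    (fun p hp => by rw [hπL _ hp, hπL _ (mz p hp), perz p.1 p.2.1 p.2.2 hp])
  have r5 : h' = h := deck_ext hπ (x := c (0, 0)) (by
    have := hh' _ (m0 0)
    simp only [zero_add] at this
    rw [← hh, ← e00, ← e00, this])
  subst r5
  have c1 : Commute h' G₁ := deck_ext hπ (x := c (Real.pi / 2, 0)) (by
    have := hh' _ (mR r hrr)
    simp only [zero_add] at this
    rw [mul_smul, mul_smul, ← hh, ← e10, ← e10, this])
  have c2 : Commute h' G₂ := deck_ext hπ (x := c (Real.pi, 0)) (by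
    have := hh' _ (mT _ hrA)
    simp only [zero_add] at this
    rw [mul_smul, mul_smul, ← hh, ← e20, ← e20, this])
  have hb' : b = G₂ * G₁⁻¹ := by rw [r2, mul_inv_cancel_right]
  have ca : Commute h' a := r1 ▸ c1
  have cb : Commute h' b := hb' ▸ c2.mul_right c1.inv_right
  refine ⟨⟨a⁻¹, b⁻¹, ca.inv_right, cb.inv_right, ?_⟩, ?_⟩
  · have h3 : G₃ = a⁻¹ * b * a := by
      have : a * G₃ = b * a := by rw [← r3, r2, r1]
      rw [mul_assoc, ← this, inv_mul_cancel_left]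
    have : g = G₃⁻¹ * b := by rw [← r4, inv_mul_cancel_left]
    rw [this, h3]
    group
  · have mc : ∀ t, ((A / 2, A / 2, t) : ℝ × ℝ × ℝ) ∈ octa A r := fun t => by
      simp only [octa, mem_ofPred_eq]
      refine ⟨?_, ?_, ?_, ?_, ?_, ?_, ?_, ?_⟩ <;> linarith
    refine ⟨fun t => L (A / 2, A / 2, t), ?_, fun t => hπL _ (mc t), ?_⟩
    · exact hL.comp_continuous (by fun_prop) mc
    · simpa using hh' _ (mc 0)

end Crest.Agent.R244
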